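import Vale.Agent.P308.MDefs
import Vale.Agent.Lib.PTM.Ex

/-!
The algorithm as a function of the coins, on the abstract types.
-/

namespace Vale.Agent.P308

open Finset Vale.Agent.Lib.PTM Vale.Agent.Lib.PolyTime

variable {v : ℕ}

/-- the switch, if the two numbers are vertices -/
def swN (x y : ℕ) (M : PM (Fin v)) : PM (Fin v) :=
  if h : x < v ∧ y < v then M.sw ⟨x, h.1⟩ ⟨y, h.2⟩ else M

/-- the cycle exchange, if the number is a vertex -/
noncomputable def sigN (x : ℕ) (p : PM (Fin v) × PM (Fin v)) : PM (Fin v) × PM (Fin v) :=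
  if h : x < v then sig ⟨x, h⟩ p else p

/-- the partner in the standard matching -/
def mate (x : ℕ) : ℕ := if x % 2 = 0 then x + 1 else x - 1

/-- the standard matching -/
def M0 (n : ℕ) : PM (Fin (2 * n)) where
  f x := ⟨mate x, by have := x.2; unfold mate; split_ifs <;> omega⟩
  inv x := Fin.ext (by simp only [mate]; split_ifs <;> omega)
  ne x h := by have := congrArg Fin.val h; simp only [mate] at this; split_ifs at this <;> omega

/-- block number `i` of `B` coins -/
def blk (B : ℕ) (ρ : List Bool) (i : ℕ) : List Bool := (ρ.drop (i * B)).take B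

/-- a nearly uniform matching -/
def initA (n K : ℕ) (ρ : List Bool) : PM (Fin (2 * n)) :=
  runL K (fun j M ρ => swN (2 * j) (val ρ % (2 * j + 1)) M) (List.range n) (M0 n) ρ

/-- the first population -/
def popA (n K N : ℕ) (ρ : List Bool) : Fin N → PM (Fin (2 * n)) :=
  fun i => initA n K (blk (n * K) ρ i)

/-- the cost of a matching -/
def cost (c : Fin v → Fin v → ℕ) (M : PM (Fin v)) : ℕ := ∑ x, c x (M.f x)

/-- the two body move of type `ty` at the vertices `x`, `y` -/
noncomputable def mv2 (b : ℕ) (c : Fin v → Fin v → ℕ) (p : PM (Fin v) × PM (Fin v)) (ty x y : ℕ)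
    (ρ : List Bool) : PM (Fin v) × PM (Fin v) :=
  if ty = 2 then sigN x p
  else if ty = 3 ∧ val (ρ.take (b * (cost c (swN x y p.1) - cost c p.1))) <
      (2 ^ b - 1) ^ (cost c (swN x y p.1) - cost c p.1) then (swN x y p.1, p.2)
  else p

/-- the two body step: two coins for the type, twice `k` coins for the vertices -/
noncomputable def twoA (k b : ℕ) (c : Fin v → Fin v → ℕ) (p : PM (Fin v) × PM (Fin v))
    (ρ : List Bool) : PM (Fin v) × PM (Fin v) :=
  mv2 b c p (val (ρ.take 2)) (val ((ρ.drop 2).take k)) (val (((ρ.drop 2).drop k).take k))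
    (((ρ.drop 2).drop k).drop k)

/-- the step of the particles `i`, `j` -/
noncomputable def mvN {N : ℕ} (k b : ℕ) (c : Fin v → Fin v → ℕ) (X : Fin N → PM (Fin v))
    (i j : ℕ) (ρ : List Bool) : Fin N → PM (Fin v) :=
  if h : i < N ∧ j < N ∧ i ≠ j then
    Function.update (Function.update X ⟨i, h.1⟩ (twoA k b c (X ⟨i, h.1⟩, X ⟨j, h.2.1⟩) ρ).1)
      ⟨j, h.2.1⟩ (twoA k b c (X ⟨i, h.1⟩, X ⟨j, h.2.1⟩) ρ).2
  else X

/-- one step of the population chain -/
noncomputable def stepA {N : ℕ} (a k b : ℕ) (c : Fin v → Fin v → ℕ) (X : Fin N → PM (Fin v))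
    (ρ : List Bool) : Fin N → PM (Fin v) :=
  mvN k b c X (val (ρ.take a)) (val ((ρ.drop a).take a)) ((ρ.drop a).drop a)

/-- `t` steps with the same costs, `B` coins each -/
noncomputable def stageA {N : ℕ} (a k b t B : ℕ) (c : Fin v → Fin v → ℕ)
    (X : Fin N → PM (Fin v)) (ρ : List Bool) : Fin N → PM (Fin v) :=
  runL B (fun _ : ℕ => stepA a k b c) (List.range t) X ρ

/-- a thread: a new population runs through the whole history -/
noncomputable def thrA (n K N a k b t B : ℕ) (hist : List (Fin (2 * n) → Fin (2 * n) → ℕ))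
    (ρ : List Bool) : Fin N → PM (Fin (2 * n)) :=
  runL (t * B) (stageA a k b t B) hist (popA n K N (ρ.take (N * (n * K)))) (ρ.drop (N * (n * K)))

/-- the number of samples which contain the pair -/
def cntA (m : ℕ) (S : ℕ → PM (Fin v)) (x y : Fin v) : ℕ :=
  ∑ i ∈ range m, if (S i).f x = y then 1 else 0

end Vale.Agent.P308
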