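import Vale.Agent.P308.Basic

/-!
Definitions for the many body lemma, the two body kernel and the annealing.
-/

namespace Vale.Agent.P308

open Finset

section many

variable {Ω : Type} [Fintype Ω] [DecidableEq Ω]

/-- product weight of a population -/
def pw {N : ℕ} (μ : Ω → ℝ) (x : Fin N → Ω) : ℝ := ∏ i, μ (x i)

/-- one step of the population chain, acting on observables: choose `i`, `j` uniformly, and if they
are different apply the two body kernel `K` to the particles `i`, `j` -/
noncomputable def PP (K : Ω × Ω → Ω × Ω → ℝ) (N : ℕ) (F : (Fin N → Ω) → ℝ) (x : Fin N → Ω) : ℝ :=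
  (∑ i : Fin N, ∑ j : Fin N, if i = j then F x else
    ∑ q : Ω × Ω, K (x i, x j) q * F (Function.update (Function.update x i q.1) j q.2)) /
      (N : ℝ) ^ 2

/-- a lazy reversible two body kernel with linearised gap `γ` -/
structure Good (μ : Ω → ℝ) (K : Ω × Ω → Ω × Ω → ℝ) (γ : ℝ) : Prop where
  pos : ∀ a, 0 < μ a
  sum : ∑ a, μ a = 1
  nn : ∀ p q, 0 ≤ K p q
  row : ∀ p, ∑ q, K p q = 1
  rev : ∀ p q, μ p.1 * μ p.2 * K p q = μ q.1 * μ q.2 * K q p
  lazy : ∀ p, 1 / 2 ≤ K p p
  gap : ∀ a b : Ω → ℝ, ∑ x, μ x * a x = 0 → ∑ x, μ x * b x = 0 →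
    γ * (∑ x, μ x * a x ^ 2 + ∑ x, μ x * b x ^ 2) ≤
      1 / 2 * ∑ p : Ω × Ω, ∑ q : Ω × Ω,
        μ p.1 * μ p.2 * K p q * ((a p.1 + b p.2) - (a q.1 + b q.2)) ^ 2

/-- `ν` has a density within `η` of `1` with respect to `μ` -/
def Close (η : ℝ) (ν μ : Ω → ℝ) : Prop := ∀ a, |ν a - μ a| ≤ η * μ a

/-- the error of one stage -/
noncomputable def stErr (γ η : ℝ) (N t : ℕ) : ℝ :=
  ((1 - γ / (2 * N)) ^ t + 49 * (t : ℝ) ^ 2 / (N : ℝ) ^ 3) * η * Real.sqrt N + N * η ^ 2

/-- the stages of a thread, oldest first, acting on observables -/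
noncomputable def ops {σ : Type} (K : σ → Ω × Ω → Ω × Ω → ℝ) (N t : ℕ) (hist : List σ)
    (G : (Fin N → Ω) → ℝ) : (Fin N → Ω) → ℝ :=
  hist.foldr (fun c G => (PP (K c) N)^[t] G) G

end many

section kernel

variable {V : Type} [Fintype V] [DecidableEq V]

/-- Metropolis acceptance probability of the switch -/
noncomputable def acc (om : V → V → ℝ) (M : PM V) (b c : V) : ℝ :=
  min 1 (W om (M.sw b c) / W om M)

/-- the two body kernel; every vertex is chosen with probability `ρ` -/
noncomputable def KK (om : V → V → ℝ) (ρ : ℝ) (p q : PM V × PM V) : ℝ :=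
  (if q = p then 1 - ρ / 4 * Fintype.card V - ρ ^ 2 / 4 * ∑ b, ∑ c, acc om p.1 b c else 0) +
    ρ / 4 * (∑ u, if q = sig u p then 1 else 0) +
    ρ ^ 2 / 4 * ∑ b, ∑ c, if q = sw1 b c p then acc om p.1 b c else 0

/-- all pairs have probability at least `θ` -/
def Sat (om : V → V → ℝ) (θ : ℝ) : Prop := ∀ a b, a ≠ b → θ ≤ xm om a b

end kernel

section anneal

variable {V : Type} [Fintype V] [DecidableEq V]

/-- the weights with costs `c` -/
def omc (q : ℝ) (c : V → V → ℕ) (a b : V) : ℝ := q ^ c a b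

/-- state of the annealing: costs, accumulated counts of the increasing and of the decreasing
steps, termination flag -/
structure AS (V : Type) where
  c : V → V → ℕ
  up : ℕ
  dn : ℕ
  done : Bool

/-- parameters: `θ = 1 / Θ`, `m` samples per step, `T` steps -/
structure AP where
  Θ : ℕ
  m : ℕ
  T : ℕ

/-- the pair is too rare -/
def lowP (P : AP) (cnt : V → V → ℕ) (a b : V) : Prop := a ≠ b ∧ 2 * P.Θ * cnt a b < P.m

/-- the pair is too frequent and its weight may be decreased -/
def highP (P : AP) (adj : V → V → Bool) (c cnt : V → V → ℕ) (a b : V) : Prop :=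
  a ≠ b ∧ 2 * P.m < P.Θ * cnt a b ∧ (adj a b = false ∨ c a b < P.T)

instance (P : AP) (cnt : V → V → ℕ) (a b : V) : Decidable (lowP P cnt a b) := by
  unfold lowP; infer_instance

instance (P : AP) (adj : V → V → Bool) (c cnt : V → V → ℕ) (a b : V) :
    Decidable (highP P adj c cnt a b) := by
  unfold highP; infer_instance

/-- one step of the annealing, given the counts of the edges in `m` samples -/
def astep (P : AP) (adj : V → V → Bool) (s : AS V) (cnt : V → V → ℕ) : AS V :=
  if s.done = true then s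
  else if ∃ a b, lowP P cnt a b then
    ⟨fun a b => if lowP P cnt a b then s.c a b - 1 else s.c a b,
      s.up + ∑ a, ∑ b, if lowP P cnt a b then cnt a b else 0, s.dn, false⟩
  else if ∃ a b, highP P adj s.c cnt a b then
    ⟨fun a b => if highP P adj s.c cnt a b then s.c a b + 1 else s.c a b,
      s.up, s.dn + ∑ a, ∑ b, if highP P adj s.c cnt a b then cnt a b else 0, false⟩
  else ⟨s.c, s.up, s.dn, true⟩

/-- the initial state -/
def ainit (P : AP) : AS V := ⟨fun _ _ => P.T, 0, 0, false⟩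

/-- the counts are symmetric and accurate -/
def Accu (P : AP) (τ : ℝ) (om : V → V → ℝ) (cnt : V → V → ℕ) : Prop :=
  (∀ a b, cnt a b = cnt b a) ∧ (∀ a b, cnt a b ≤ P.m) ∧
    ∀ a b, a ≠ b → |(cnt a b : ℝ) / P.m - xm om a b| ≤ τ

/-- the output; `q = (D - 1) / D`, `Z0` is the number of perfect matchings of the complete graph -/
def aout (P : AP) (D Z0 : ℕ) (s : AS V) : ℕ :=
  if s.done = true then
    (2 * (Z0 * D ^ (s.up / P.m) * (D - 1) ^ (s.dn / P.m)) +
        (D - 1) ^ (s.up / P.m) * D ^ (s.dn / P.m)) /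
      (2 * ((D - 1) ^ (s.up / P.m) * D ^ (s.dn / P.m)))
  else 0

open Classical in
/-- the number of perfect matchings of the graph `adj` -/
noncomputable def nPM (adj : V → V → Bool) : ℕ :=
  (univ.filter fun M : PM V => ∀ x, adj x (M.f x) = true).card

/-- states which are reached after `k` steps with accurate counts -/
inductive Reach (P : AP) (adj : V → V → Bool) (q τ : ℝ) : ℕ → AS V → Prop
  | zero : Reach P adj q τ 0 (ainit P)
  | succ {k : ℕ} {s : AS V} {cnt : V → V → ℕ} : Reach P adj q τ k s →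
      Accu P τ (omc q s.c) cnt → Reach P adj q τ (k + 1) (astep P adj s cnt)

/-- the numerical conditions on the parameters of the annealing; `v` vertices, accuracy `e` -/
structure ACond (P : AP) (v e D : ℕ) (τ : ℝ) : Prop where
  v2 : 2 ≤ v
  e1 : 1 ≤ e
  hΘ : P.Θ = 100 * v ^ 2 * e
  hT : P.T = 4 * v ^ 2 * P.Θ * D
  hm : 0 < P.m
  hD : 1000 * v ^ 4 * P.Θ * e ≤ D
  τ0 : 0 ≤ τ
  hτ : τ * (1000 * v ^ 4 * P.Θ * e) ≤ 1

end anneal

end Vale.Agent.P308
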