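import Vale.Agent.P308.Unif
import Vale.Agent.P308.MDefs

/-!
Exponential tilts of the Gibbs distribution.
-/

set_option linter.unusedSectionVars false

namespace Vale.Agent.P308

open Finset

section abstract

variable {Ω : Type} [Fintype Ω] {μ Y : Ω → ℝ} {s v : ℝ}

theorem tilt_lower (h0 : ∀ a, 0 ≤ μ a) (h1 : ∑ a, μ a = 1) :
    Real.exp (s * ∑ a, μ a * Y a) ≤ ∑ a, μ a * Real.exp (s * Y a) := by
  set m := s * ∑ a, μ a * Y a with hm
  calc Real.exp m = ∑ a, μ a * (Real.exp m * (s * Y a - m + 1)) := by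
        have : ∀ a, μ a * (Real.exp m * (s * Y a - m + 1)) =
            Real.exp m * s * (μ a * Y a) + Real.exp m * (1 - m) * μ a := fun a => by ring
        simp only [this, sum_add_distrib, ← mul_sum, h1]
        rw [mul_assoc, ← hm]
        ring
    _ ≤ _ := sum_le_sum fun a _ => mul_le_mul_of_nonneg_left (by
        have := mul_le_mul_of_nonneg_left (Real.add_one_le_exp (s * Y a - m)) (Real.exp_pos m).le
        rwa [← Real.exp_add, add_sub_cancel] at this) (h0 a)

theorem tilt_upper (h0 : ∀ a, 0 ≤ μ a) (h1 : ∑ a, μ a = 1) (hY : ∀ a, 0 ≤ Y a ∧ Y a ≤ v)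
    (hs : |s| * v ≤ 1) :
    ∑ a, μ a * Real.exp (s * Y a) ≤ 1 + s * ∑ a, μ a * Y a + s ^ 2 * v ^ 2 := by
  calc _ ≤ ∑ a, μ a * (1 + s * Y a + s ^ 2 * v ^ 2) := by
        refine sum_le_sum fun a _ => mul_le_mul_of_nonneg_left ?_ (h0 a)
        have k1 : |s * Y a| ≤ |s| * v := by
          rw [abs_mul, abs_of_nonneg (hY a).1]
          exact mul_le_mul_of_nonneg_left (hY a).2 (abs_nonneg s)
        have k2 := (abs_le.1 (Real.abs_exp_sub_one_sub_id_le (k1.trans hs))).2
        have k3 : (s * Y a) ^ 2 ≤ s ^ 2 * v ^ 2 := by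
          rw [mul_pow]
          exact mul_le_mul_of_nonneg_left (pow_le_pow_left₀ (hY a).1 (hY a).2 2) (sq_nonneg s)
        linarith
    _ = _ := by
        have : ∀ a, μ a * (1 + s * Y a + s ^ 2 * v ^ 2) =
            s * (μ a * Y a) + (1 + s ^ 2 * v ^ 2) * μ a := fun a => by ring
        simp only [this, sum_add_distrib, ← mul_sum, h1]
        ring

theorem tilt_ratio (h0 : ∀ a, 0 ≤ μ a) (h1 : ∑ a, μ a = 1) (hY : ∀ a, 0 ≤ Y a ∧ Y a ≤ v)
    (b : Ω) : ∑ a, μ a * Real.exp (s * Y a) ≤ Real.exp (|s| * v) * Real.exp (s * Y b) ∧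
      Real.exp (-(|s| * v)) * Real.exp (s * Y b) ≤ ∑ a, μ a * Real.exp (s * Y a) := by
  have k : ∀ a, |s * Y a - s * Y b| ≤ |s| * v := fun a => by
    rw [← mul_sub, abs_mul]
    refine mul_le_mul_of_nonneg_left (abs_le.2 ⟨?_, ?_⟩) (abs_nonneg s)
    · linarith [(hY a).1, (hY b).2]
    · linarith [(hY a).2, (hY b).1]
  constructor
  · calc _ ≤ ∑ a, μ a * (Real.exp (|s| * v) * Real.exp (s * Y b)) :=
          sum_le_sum fun a _ => mul_le_mul_of_nonneg_left (by
            rw [← Real.exp_add]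
            exact Real.exp_le_exp.2 (by linarith [(abs_le.1 (k a)).2])) (h0 a)
      _ = _ := by rw [← sum_mul, h1, one_mul]
  · calc _ = ∑ a, μ a * (Real.exp (-(|s| * v)) * Real.exp (s * Y b)) := by
          rw [← sum_mul, h1, one_mul]
      _ ≤ _ := sum_le_sum fun a _ => mul_le_mul_of_nonneg_left (by
            rw [← Real.exp_add]
            exact Real.exp_le_exp.2 (by linarith [(abs_le.1 (k a)).1])) (h0 a)

end abstract

variable {V : Type} [Fintype V] [DecidableEq V] {om om' : V → V → ℝ} {s : ℝ}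
  {S : V → V → Prop} [∀ a b, Decidable (S a b)]

/-- the number of vertices whose pair lies in `S` -/
noncomputable def YS (S : V → V → Prop) [∀ a b, Decidable (S a b)] (M : PM V) : ℝ :=
  ∑ x, if S x (M.f x) then 1 else 0

/-- `om'` arises from the positive weights `om` by the factor `exp s` on `S` -/
structure Tilt (om om' : V → V → ℝ) (s : ℝ) (S : V → V → Prop) [∀ a b, Decidable (S a b)] :
    Prop where
  pos : ∀ a b, 0 < om a b
  eq : ∀ a b, om' a b = om a b * Real.exp (s * if S a b then 1 else 0)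

theorem YS_bd (M : PM V) : 0 ≤ YS S M ∧ YS S M ≤ Fintype.card V := by
  constructor
  · exact sum_nonneg fun x _ => by split_ifs <;> norm_num
  · calc YS S M ≤ ∑ _x : V, (1 : ℝ) := sum_le_sum fun x _ => by split_ifs <;> norm_num
      _ = _ := by simp

theorem W_pos' (h : ∀ a b, 0 < om a b) (M : PM V) : 0 < W om M := prod_pos fun _ _ => h _ _

theorem Z_pos' (h : ∀ a b, 0 < om a b) (M : PM V) : 0 < Z om :=
  sum_pos (fun F _ => W_pos' h F) ⟨M, mem_univ M⟩

theorem mu_pos' (h : ∀ a b, 0 < om a b) (M : PM V) : 0 < mu om M :=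
  div_pos (W_pos' h M) (Z_pos' h M)

theorem sum_mu' (h : ∀ a b, 0 < om a b) (M : PM V) : ∑ F : PM V, mu om F = 1 := by
  unfold mu
  rw [← sum_div]
  exact div_self (Z_pos' h M).ne'

theorem mean_YS : ∑ M, mu om M * YS S M = ∑ a, ∑ b, if S a b then xm om a b else 0 := by
  unfold YS xm
  simp only [mul_sum]
  rw [sum_comm]
  refine sum_congr rfl fun a _ => ?_
  have : ∀ b, (if S a b then ∑ M : PM V, (if M.f a = b then mu om M else 0) else 0) =
      ∑ M : PM V, if M.f a = b then mu om M * (if S a b then 1 else 0) else 0 := fun b => by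
    by_cases h : S a b <;> simp [h]
  simp only [this]
  rw [sum_comm]
  simp

/-- the normalisation of the tilt -/
noncomputable def EE' (om : V → V → ℝ) (s : ℝ) (S : V → V → Prop) [∀ a b, Decidable (S a b)] :
    ℝ := ∑ M, mu om M * Real.exp (s * YS S M)

theorem Tilt.W_eq (h : Tilt om om' s S) (M : PM V) :
    W om' M = W om M * Real.exp (s * YS S M) := by
  unfold W YS
  simp only [h.eq]
  rw [prod_mul_distrib, mul_sum, Real.exp_sum]

theorem Tilt.Z_eq (h : Tilt om om' s S) (M₀ : PM V) : Z om' = Z om * EE' om s S := by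
  unfold EE'
  rw [mul_sum, Z]
  refine sum_congr rfl fun M _ => ?_
  have := (Z_pos' h.pos M₀).ne'
  rw [h.W_eq, mu]
  field_simp

theorem Tilt.EE_pos (h : Tilt om om' s S) (M₀ : PM V) : 0 < EE' om s S :=
  sum_pos (fun M _ => mul_pos (mu_pos' h.pos M) (Real.exp_pos _)) ⟨M₀, mem_univ _⟩

theorem Tilt.mu_eq (h : Tilt om om' s S) (M : PM V) :
    mu om' M * EE' om s S = mu om M * Real.exp (s * YS S M) := by
  have k1 := (Z_pos' h.pos M).ne'
  have k2 := (h.EE_pos M).ne'
  rw [mu, mu, h.W_eq, h.Z_eq M]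
  field_simp

theorem Tilt.pos' (h : Tilt om om' s S) (a b : V) : 0 < om' a b := by
  rw [h.eq]
  exact mul_pos (h.pos a b) (Real.exp_pos _)

/-- the change of the logarithm of the partition function -/
theorem Tilt.log_Z (h : Tilt om om' s S) (M₀ : PM V) (hs : |s| * Fintype.card V ≤ 1) :
    s * (∑ a, ∑ b, if S a b then xm om a b else 0) ≤ Real.log (Z om') - Real.log (Z om) ∧
      Real.log (Z om') - Real.log (Z om) ≤
        s * (∑ a, ∑ b, if S a b then xm om a b else 0) + s ^ 2 * (Fintype.card V : ℝ) ^ 2 := by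
  have k := h.EE_pos M₀
  rw [h.Z_eq M₀, Real.log_mul (Z_pos' h.pos M₀).ne' k.ne', add_sub_cancel_left, ← mean_YS]
  constructor
  · exact (Real.le_log_iff_exp_le k).2
      (tilt_lower (fun M => (mu_pos' h.pos M).le) (sum_mu' h.pos M₀))
  · have := tilt_upper (fun M => (mu_pos' h.pos M).le) (sum_mu' h.pos M₀) (YS_bd (S := S)) hs
    have k2 := Real.log_le_sub_one_of_pos k
    unfold EE' at k2 ⊢
    linarith

theorem Tilt.ratio (h : Tilt om om' s S) (M : PM V) :
    mu om M ≤ Real.exp (|s| * Fintype.card V) * mu om' M ∧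
      Real.exp (-(|s| * Fintype.card V)) * mu om' M ≤ mu om M := by
  obtain ⟨k1, k2⟩ := tilt_ratio (s := s) (fun M => (mu_pos' h.pos M).le) (sum_mu' h.pos M)
    (YS_bd (S := S)) M
  have k3 := h.mu_eq M
  have k4 := (mu_pos' h.pos' M).le
  have k5 := Real.exp_pos (s * YS S M)
  constructor
  · refine le_of_mul_le_mul_right ?_ k5
    rw [← k3, mul_comm _ (mu om' M), mul_assoc]
    exact mul_le_mul_of_nonneg_left k1 k4
  · refine le_of_mul_le_mul_right ?_ k5
    rw [← k3, mul_comm _ (mu om' M), mul_assoc]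
    exact mul_le_mul_of_nonneg_left k2 k4

theorem Tilt.close (h : Tilt om om' s S) {η : ℝ} (hs : |s| * Fintype.card V ≤ 1)
    (hη : 2 * (|s| * Fintype.card V) ≤ η) : Close η (mu om) (mu om') := by
  intro M
  obtain ⟨k1, k2⟩ := h.ratio M
  have k4 := (mu_pos' h.pos' M).le
  have k0 : 0 ≤ |s| * Fintype.card V := by positivity
  generalize |s| * (Fintype.card V : ℝ) = x at *
  have e1 : Real.exp x ≤ 1 + η := by
    have := (abs_le.1 (Real.abs_exp_sub_one_le (x := x) (by rwa [abs_of_nonneg k0]))).2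
    rw [abs_of_nonneg k0] at this
    linarith
  have e2 : 1 - η ≤ Real.exp (-x) := by linarith [Real.add_one_le_exp (-x)]
  have e3 := mul_le_mul_of_nonneg_right e1 k4
  have e4 := mul_le_mul_of_nonneg_right e2 k4
  exact abs_le.2 ⟨by linarith, by linarith⟩

theorem Tilt.xm_ge (h : Tilt om om' s S) (a b : V) :
    (1 - |s| * Fintype.card V) * xm om a b ≤ xm om' a b := by
  unfold xm
  rw [mul_sum]
  refine sum_le_sum fun M _ => ?_
  split_ifs
  · have k1 := (h.ratio M).1
    have k2 := Real.add_one_le_exp (-(|s| * Fintype.card V))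
    have k3 := (mu_pos' h.pos M).le
    calc _ ≤ Real.exp (-(|s| * Fintype.card V)) * mu om M :=
          mul_le_mul_of_nonneg_right (by linarith) k3
      _ ≤ Real.exp (-(|s| * Fintype.card V)) * (Real.exp (|s| * Fintype.card V) * mu om' M) :=
          mul_le_mul_of_nonneg_left k1 (Real.exp_pos _).le
      _ = _ := by rw [← mul_assoc, ← Real.exp_add, neg_add_cancel, Real.exp_zero, one_mul]
  · rw [mul_zero]

/-- the pairs whose weight is raised do not lose probability -/
theorem Tilt.xm_mono (h : Tilt om om' s S) (M₀ : PM V) (hs0 : 0 ≤ s)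
    (hs : s * Fintype.card V ≤ 1)
    (hm : (∑ a, ∑ b, if S a b then xm om a b else 0) + s * (Fintype.card V : ℝ) ^ 2 ≤ 1)
    {a b : V} (hab : S a b) : xm om a b ≤ xm om' a b := by
  have k1 := tilt_upper (s := s) (fun M => (mu_pos' h.pos M).le) (sum_mu' h.pos M₀)
    (YS_bd (S := S)) (by rwa [abs_of_nonneg hs0])
  rw [mean_YS] at k1
  have k2 : EE' om s S ≤ Real.exp s := by
    have := mul_le_mul_of_nonneg_left hm hs0
    have := Real.add_one_le_exp s
    unfold EE'
    nlinarith
  unfold xm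
  refine sum_le_sum fun M _ => ?_
  split_ifs with e
  · have k3 : 1 ≤ YS S M := by
      have := single_le_sum (f := fun x => if S x (M.f x) then (1 : ℝ) else 0)
        (fun x _ => by split_ifs <;> norm_num) (mem_univ a)
      rwa [e, if_pos hab] at this
    refine le_of_mul_le_mul_right ?_ (h.EE_pos M₀)
    rw [h.mu_eq]
    exact mul_le_mul_of_nonneg_left (k2.trans (Real.exp_le_exp.2 (by nlinarith)))
      (mu_pos' h.pos M).le
  · exact le_rfl

end Vale.Agent.P308
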