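import Vale.Agent.P308.Unif
import Vale.Agent.P308.MDefs

/-!
Rounding, and a bound for the number of perfect matchings of the complete graph.
-/

namespace Vale.Agent.P308

open Finset

variable {V : Type} [Fintype V] [DecidableEq V]

theorem round_est {A B n e : ℕ} (hB : 0 < B) (he : 1 ≤ e) (h : |(A : ℝ) / B - n| ≤ n / (10 * e)) :
    |(((2 * A + B) / (2 * B) : ℕ) : ℝ) - n| ≤ n / e := by
  set R := (2 * A + B) / (2 * B) with hR
  have hB' : (0 : ℝ) < B := by exact_mod_cast hB
  have he' : (1 : ℝ) ≤ e := by exact_mod_cast he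
  have h1 : (R : ℝ) * (2 * B) ≤ 2 * A + B := by exact_mod_cast Nat.div_mul_le_self _ _
  have h2 : (2 * A + B : ℝ) < 2 * B * (R + 1) := by
    exact_mod_cast Nat.lt_mul_div_succ (2 * A + B) (show 0 < 2 * B by omega)
  have h3 : (R : ℝ) ≤ A / B + 1 / 2 := by
    rw [div_add_div _ _ hB'.ne' two_ne_zero, le_div_iff₀ (by positivity)]
    linarith
  have h4 : (A : ℝ) / B - 1 / 2 < R := by
    rw [sub_lt_iff_lt_add, div_lt_iff₀ hB']
    linarith
  have e1 : (n : ℝ) / (10 * e) = n / e / 10 := by field_simp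
  have e2 : (0 : ℝ) ≤ n / e := by positivity
  rw [e1, abs_le] at h
  rcases lt_or_ge ((n : ℝ) / e) 1 with h5 | h5
  · have h6 : (R : ℝ) < n + 1 := by linarith [h.2]
    have h7 : (n : ℝ) < R + 1 := by linarith [h.1]
    have h8 : R < n + 1 := by exact_mod_cast h6
    have h9 : n < R + 1 := by exact_mod_cast h7
    rw [show R = n by omega, sub_self, abs_zero]
    exact e2
  · rw [abs_le]
    exact ⟨by linarith [h.1], by linarith [h.2]⟩

theorem log_card_PM (M₀ : PM V) :
    Real.log (Fintype.card (PM V)) ≤ (Fintype.card V : ℝ) ^ 2 := by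
  have h1 : Fintype.card (PM V) ≤ Fintype.card V ^ Fintype.card V := by
    rw [← Fintype.card_fun]
    exact Fintype.card_le_of_injective PM.f fun _ _ h => PM.ext h
  have h2 : 0 < Fintype.card (PM V) := Fintype.card_pos_iff.2 ⟨M₀⟩
  calc Real.log (Fintype.card (PM V)) ≤ Real.log ((Fintype.card V : ℝ) ^ Fintype.card V) :=
        Real.log_le_log (by exact_mod_cast h2) (by exact_mod_cast h1)
    _ = Fintype.card V * Real.log (Fintype.card V) := Real.log_pow _ _
    _ ≤ Fintype.card V * Fintype.card V :=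
        mul_le_mul_of_nonneg_left (Real.log_le_self (Nat.cast_nonneg _)) (Nat.cast_nonneg _)
    _ = _ := (sq _).symm

end Vale.Agent.P308
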