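import Vale.Agent.P308.Unif
import Vale.Agent.P308.MDefs

/-!
The partition function at the end of the annealing.
-/

namespace Vale.Agent.P308

open Finset

variable {V : Type} [Fintype V] [DecidableEq V]

omit [DecidableEq V] in
theorem AnnC_W (q : ℝ) (c : V → V → ℕ) (M : PM V) : W (omc q c) M = q ^ ∑ x, c x (M.f x) := by
  unfold W omc
  rw [prod_pow_eq_pow_sum]

theorem done_bound {q β : ℝ} (hq0 : 0 < q) (hq1 : q ≤ 1) (hβ : 0 ≤ β) {adj : V → V → Bool}
    {c : V → V → ℕ} {T : ℕ} (hle : ∀ a b, adj a b = true → c a b ≤ T)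
    (hx : ∀ a b, a ≠ b → (adj a b = false ∨ c a b < T) → xm (omc q c) a b ≤ β) :
    (nPM adj : ℝ) * q ^ (Fintype.card V * T) ≤ Z (omc q c) ∧
      (1 - (Fintype.card V : ℝ) ^ 2 * β) * Z (omc q c) ≤ nPM adj * q ^ (Fintype.card V * T) := by
  classical
  have hW : ∀ M : PM V, 0 < W (omc q c) M := fun M => by rw [AnnC_W]; positivity
  have hZ : 0 ≤ Z (omc q c) := sum_nonneg fun M _ => (hW M).le
  have hn : (nPM adj : ℝ) * q ^ (Fintype.card V * T) = ∑ M : PM V,
      if ∀ x, adj x (M.f x) = true then q ^ (Fintype.card V * T) else 0 := by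
    rw [← sum_filter, sum_const, nsmul_eq_mul]
    unfold nPM
    congr
  rw [hn]
  constructor
  · refine sum_le_sum fun M _ => ?_
    split_ifs with h
    · rw [AnnC_W]
      refine pow_le_pow_of_le_one hq0.le hq1 ?_
      simpa using sum_le_card_nsmul univ (fun x => c x (M.f x)) T fun x _ => hle _ _ (h x)
    · exact (hW M).le
  · have h1 : ∀ M : PM V, W (omc q c) M ≤
        (if ∀ x, adj x (M.f x) = true then q ^ (Fintype.card V * T) else 0) +
          ∑ a, ∑ b, if a ≠ b ∧ (adj a b = false ∨ c a b < T) then
            (if M.f a = b then W (omc q c) M else 0) else 0 := by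
      intro M
      have n1 : ∀ a b, 0 ≤ if a ≠ b ∧ (adj a b = false ∨ c a b < T) then
          (if M.f a = b then W (omc q c) M else 0) else 0 := fun a b => by
        have := hW M
        split_ifs <;> linarith
      by_cases h : ∃ a, adj a (M.f a) = false ∨ c a (M.f a) < T
      · obtain ⟨a, ha⟩ := h
        have h2 := single_le_sum (f := fun b => if a ≠ b ∧ (adj a b = false ∨ c a b < T) then
          (if M.f a = b then W (omc q c) M else 0) else 0) (fun b _ => n1 a b) (mem_univ (M.f a))
        have h3 := single_le_sum (f := fun a => ∑ b, if a ≠ b ∧ (adj a b = false ∨ c a b < T) then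
          (if M.f a = b then W (omc q c) M else 0) else 0)
          (fun a _ => sum_nonneg fun b _ => n1 a b) (mem_univ a)
        rw [if_pos ⟨(M.ne a).symm, ha⟩, if_pos rfl] at h2
        have h4 : 0 ≤ if ∀ x, adj x (M.f x) = true then q ^ (Fintype.card V * T) else 0 := by
          split_ifs <;> positivity
        linarith
      · simp only [not_exists, not_or, Bool.not_eq_false, not_lt] at h
        rw [if_pos fun x => (h x).1, AnnC_W]
        refine le_add_of_le_of_nonneg (pow_le_pow_of_le_one hq0.le hq1 ?_)
          (sum_nonneg fun a _ => sum_nonneg fun b _ => by rw [← AnnC_W]; exact n1 a b)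
        simpa using card_nsmul_le_sum univ (fun x => c x (M.f x)) T fun x _ => (h x).2
    have h2 : ∀ a b, ∑ M : PM V, (if a ≠ b ∧ (adj a b = false ∨ c a b < T) then
        (if M.f a = b then W (omc q c) M else 0) else 0) ≤ β * Z (omc q c) := by
      intro a b
      split_ifs with h
      · refine le_trans (le_of_eq ?_) (mul_le_mul_of_nonneg_right (hx a b h.1 h.2) hZ)
        unfold xm mu
        rw [sum_mul]
        refine sum_congr rfl fun M _ => ?_
        have : 0 < Z (omc q c) := sum_pos (fun M _ => hW M) ⟨M, mem_univ M⟩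
        split_ifs
        · rw [div_mul_cancel₀ _ this.ne']
        · rw [zero_mul]
      · rw [sum_const_zero]
        positivity
    have h3 := sum_le_sum fun M (_ : M ∈ univ) => h1 M
    rw [sum_add_distrib, sum_comm] at h3
    have h4 : ∑ a, ∑ M : PM V, ∑ b, (if a ≠ b ∧ (adj a b = false ∨ c a b < T) then
        (if M.f a = b then W (omc q c) M else 0) else 0) ≤ ∑ _a : V, ∑ _b : V, β * Z (omc q c) :=
      sum_le_sum fun a _ => by rw [sum_comm]; exact sum_le_sum fun b _ => h2 a b
    simp only [sum_const, card_univ, nsmul_eq_mul] at h4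
    change Z (omc q c) ≤ _ at h3
    nlinarith

end Vale.Agent.P308
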