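import Vale.Agent.P308.Unif
import Vale.Agent.P308.MDefs

/-!
The lower bound for the potential of the annealing.
-/

namespace Vale.Agent.P308

open Finset

variable {V : Type} [Fintype V] [DecidableEq V]

theorem AnnD.log_le {q : ℝ} (hq0 : 0 < q) (c : V → V → ℕ) (M : PM V) :
    Real.log q * ∑ x, (c x (M.f x) : ℝ) ≤ Real.log (Z (omc q c)) := by
  have h1 : ∀ F : PM V, 0 < W (omc q c) F := fun F => prod_pos fun x _ => pow_pos hq0 _
  have h2 : Real.log (W (omc q c) M) = Real.log q * ∑ x, (c x (M.f x) : ℝ) := by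
    unfold W omc
    rw [prod_pow_eq_pow_sum, Real.log_pow]
    push_cast
    ring
  rw [← h2]
  exact Real.log_le_log (h1 M) (single_le_sum (fun F _ => (h1 F).le) (mem_univ M))

theorem AnnD.avg (M₀ : PM V) (g : V → V → ℝ) :
    ∑ M : PM V, mu (fun _ _ : V => (1 : ℝ)) M * ∑ x, g x (M.f x) =
      (∑ a, ∑ b, if a ≠ b then g a b else 0) / ((Fintype.card V : ℝ) - 1) := by
  simp only [mul_sum]
  rw [sum_comm, sum_div]
  refine sum_congr rfl fun a _ => ?_
  have h1 : ∀ M : PM V, mu (fun _ _ : V => (1 : ℝ)) M * g a (M.f a) =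
      ∑ b, (if M.f a = b then mu (fun _ _ : V => (1 : ℝ)) M else 0) * g a b := fun M => by simp
  rw [sum_congr rfl fun M _ => h1 M, sum_comm, sum_div]
  refine sum_congr rfl fun b _ => ?_
  rw [← sum_mul]
  by_cases hab : a ≠ b
  · rw [if_pos hab, ← xm, xm_const one_pos M₀ hab]
    ring
  · rw [if_neg hab, sum_eq_zero, zero_mul, zero_div]
    intro M _
    rw [not_not] at hab
    rw [if_neg (hab ▸ M.ne a)]

theorem pot_lower {q θ : ℝ} (hq0 : 0 < q) (hq1 : q ≤ 1) (hθ0 : 0 ≤ θ)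
    (hθ : θ * Fintype.card V ≤ 1) {adj : V → V → Bool} {c : V → V → ℕ} {T : ℕ}
    (hle : ∀ a b, adj a b = true → c a b ≤ T) (hn : 1 ≤ nPM adj) :
    0 ≤ Real.log (Z (omc q c)) - Real.log q * (Fintype.card V * T) -
      θ * Real.log q * ∑ a, ∑ b, if a ≠ b then ((c a b : ℝ) - T) else 0 := by
  have hη : 0 ≤ -Real.log q := neg_nonneg.2 (Real.log_nonpos hq0.le hq1)
  obtain ⟨M₀, hM₀⟩ := card_pos.1 (show 0 < _ from hn)
  simp only [mem_filter, mem_univ, true_and] at hM₀
  have key : ∀ M : PM V, Real.log q * ∑ x, ((c x (M.f x) : ℝ) - T) ≤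
      Real.log (Z (omc q c)) - Real.log q * (Fintype.card V * T) := by
    intro M
    have := AnnD.log_le hq0 c M
    rw [sum_sub_distrib, sum_const, card_univ, nsmul_eq_mul]
    linarith
  set S := ∑ a, ∑ b, if a ≠ b then ((c a b : ℝ) - T) else 0 with hS
  rcases le_or_gt 0 S with h0 | h0
  · have h1 : ∑ x, ((c x (M₀.f x) : ℝ) - T) ≤ 0 :=
      sum_nonpos fun x _ => sub_nonpos.2 (by exact_mod_cast hle _ _ (hM₀ x))
    have h2 := mul_nonneg hη (neg_nonneg.2 h1)
    have h3 := mul_nonneg (mul_nonneg hθ0 hη) h0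
    linarith [key M₀]
  have hW : Wt (fun _ _ : V => (1 : ℝ)) := ⟨fun _ _ => rfl, fun _ _ => one_pos⟩
  have hv : (1 : ℝ) < Fintype.card V := by
    by_contra h1
    have h2 : Fintype.card V ≤ 1 := by exact_mod_cast not_lt.1 h1
    have h3 := Fintype.card_le_one_iff.1 h2
    rw [hS, sum_eq_zero fun a _ => sum_eq_zero fun b _ => if_neg (not_not.2 (h3 a b))] at h0
    exact lt_irrefl _ h0
  have h1 : ∑ M : PM V, mu (fun _ _ : V => (1 : ℝ)) M *
      (Real.log q * ∑ x, ((c x (M.f x) : ℝ) - T)) ≤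
      ∑ M : PM V, mu (fun _ _ : V => (1 : ℝ)) M *
        (Real.log (Z (omc q c)) - Real.log q * (Fintype.card V * T)) :=
    sum_le_sum fun M _ => mul_le_mul_of_nonneg_left (key M) (mu_pos hW M).le
  rw [← sum_mul, sum_mu hW M₀, one_mul] at h1
  simp only [mul_left_comm _ (Real.log q), ← mul_sum] at h1
  rw [AnnD.avg M₀ fun a b => (c a b : ℝ) - T, ← hS] at h1
  have h2 : S / ((Fintype.card V : ℝ) - 1) ≤ θ * S := by
    rw [div_le_iff₀ (by linarith)]
    nlinarith
  nlinarith [mul_le_mul_of_nonneg_left h2 hη]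

end Vale.Agent.P308
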