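import Vale.Agent.P308.AnnA

/-!
The invariant of the annealing.
-/

set_option linter.unusedSectionVars false

namespace Vale.Agent.P308

open Finset

variable {V : Type} [Fintype V] [DecidableEq V]

section sums

variable {S : V → V → Prop} [∀ a b, Decidable (S a b)]

/-- the number of pairs in `S` -/
noncomputable def nS (S : V → V → Prop) [∀ a b, Decidable (S a b)] : ℝ :=
  ∑ a, ∑ b, if S a b then 1 else 0

theorem SS_le {f : V → V → ℝ} {r : ℝ} (h : ∀ a b, S a b → f a b ≤ r) :
    (∑ a, ∑ b, if S a b then f a b else 0) ≤ r * nS S := by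
  unfold nS
  simp only [mul_sum]
  refine sum_le_sum fun a _ => sum_le_sum fun b _ => ?_
  split_ifs with e
  · rw [mul_one]; exact h a b e
  · rw [mul_zero]

theorem SS_ge {f : V → V → ℝ} {r : ℝ} (h : ∀ a b, S a b → r ≤ f a b) :
    r * nS S ≤ ∑ a, ∑ b, if S a b then f a b else 0 := by
  unfold nS
  simp only [mul_sum]
  refine sum_le_sum fun a _ => sum_le_sum fun b _ => ?_
  split_ifs with e
  · rw [mul_one]; exact h a b e
  · rw [mul_zero]

theorem nS_le : nS S ≤ (Fintype.card V : ℝ) ^ 2 := by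
  calc nS S ≤ ∑ _a : V, ∑ _b : V, (1 : ℝ) :=
        sum_le_sum fun a _ => sum_le_sum fun b _ => by split_ifs <;> norm_num
    _ = _ := by simp [sq]

theorem one_le_nS (h : ∃ a b, S a b) : 1 ≤ nS S := by
  obtain ⟨a, b, h⟩ := h
  have k : ∀ a b, (0 : ℝ) ≤ if S a b then 1 else 0 := fun a b => by split_ifs <;> norm_num
  calc (1 : ℝ) = if S a b then 1 else 0 := (if_pos h).symm
    _ ≤ ∑ b, if S a b then 1 else 0 := single_le_sum (fun b _ => k a b) (mem_univ b)
    _ ≤ nS S := single_le_sum (f := fun a => ∑ b, if S a b then (1 : ℝ) else 0)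
        (fun a _ => sum_nonneg fun b _ => k a b) (mem_univ a)

theorem SS_cnt {P : AP} {τ : ℝ} {om : V → V → ℝ} {cnt : V → V → ℕ} (hτ : 0 ≤ τ)
    (h : Accu P τ om cnt) (hS : ∀ a b, S a b → a ≠ b) :
    |((∑ a, ∑ b, if S a b then cnt a b else 0 : ℕ) : ℝ) / P.m -
      ∑ a, ∑ b, if S a b then xm om a b else 0| ≤ (Fintype.card V : ℝ) ^ 2 * τ := by
  have e : ((∑ a, ∑ b, if S a b then cnt a b else 0 : ℕ) : ℝ) / P.m -
      (∑ a, ∑ b, if S a b then xm om a b else 0) =
      ∑ a, ∑ b, if S a b then (cnt a b : ℝ) / P.m - xm om a b else 0 := by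
    push_cast
    simp only [sum_div, ← sum_sub_distrib]
    refine sum_congr rfl fun a _ => sum_congr rfl fun b _ => ?_
    split_ifs <;> simp
  have k := mul_le_mul_of_nonneg_left (nS_le (S := S)) hτ
  rw [e, abs_le]
  constructor
  · have := SS_ge (S := S) fun a b hab => (abs_le.1 (h.2.2 a b (hS a b hab))).1
    linarith
  · have := SS_le (S := S) fun a b hab => (abs_le.1 (h.2.2 a b (hS a b hab))).2
    linarith

theorem tilt_up {q : ℝ} (hq : 0 < q) {c : V → V → ℕ} (hc : ∀ a b, 1 ≤ c a b) :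
    Tilt (omc q c) (omc q fun a b => if S a b then c a b - 1 else c a b) (-Real.log q) S := by
  refine ⟨fun a b => pow_pos hq _, fun a b => ?_⟩
  unfold omc
  dsimp only
  split_ifs
  · obtain ⟨n, hn⟩ := Nat.exists_eq_add_of_le' (hc a b)
    rw [hn, mul_one, Real.exp_neg, Real.exp_log hq, Nat.add_sub_cancel, pow_succ]
    field_simp
  · simp

theorem tilt_dn {q : ℝ} (hq : 0 < q) (c : V → V → ℕ) :
    Tilt (omc q c) (omc q fun a b => if S a b then c a b + 1 else c a b) (Real.log q) S := by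
  refine ⟨fun a b => pow_pos hq _, fun a b => ?_⟩
  unfold omc
  dsimp only
  split_ifs
  · rw [mul_one, Real.exp_log hq, pow_succ]
  · simp

/-- the sum of the costs -/
noncomputable def sumc (T : ℕ) (c : V → V → ℕ) : ℝ :=
  ∑ a, ∑ b, if a ≠ b then ((c a b : ℝ) - T) else 0

theorem sumc_up (T : ℕ) {c : V → V → ℕ} (hc : ∀ a b, 1 ≤ c a b) (hS : ∀ a b, S a b → a ≠ b) :
    sumc T (fun a b => if S a b then c a b - 1 else c a b) = sumc T c - nS S := by
  unfold sumc nS
  simp only [← sum_sub_distrib]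
  refine sum_congr rfl fun a _ => sum_congr rfl fun b _ => ?_
  by_cases e : S a b
  · simp only [if_pos e, if_pos (hS a b e), Nat.cast_sub (hc a b)]
    push_cast
    ring
  · simp only [if_neg e, sub_zero]

theorem sumc_dn (T : ℕ) (c : V → V → ℕ) (hS : ∀ a b, S a b → a ≠ b) :
    sumc T (fun a b => if S a b then c a b + 1 else c a b) = sumc T c + nS S := by
  unfold sumc nS
  simp only [← sum_add_distrib]
  refine sum_congr rfl fun a _ => sum_congr rfl fun b _ => ?_
  by_cases e : S a b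
  · simp only [if_pos e, if_pos (hS a b e)]
    push_cast
    ring
  · simp only [if_neg e, add_zero]

end sums

/-- the numerical facts which are used in a step; `η = - log q`, `θ = 1 / Θ` -/
structure ANum (P : AP) (v q η θ τ : ℝ) : Prop where
  q0 : 0 < q
  hη : Real.log q = -η
  η0 : 0 < η
  hθ : θ * P.Θ = 1
  θ0 : 0 < θ
  m0 : 0 < P.m
  v2 : 2 ≤ v
  τ0 : 0 ≤ τ
  n1 : η * v ^ 2 ≤ θ / 100
  n2 : τ ≤ θ / 100
  n3 : v ^ 2 * θ ≤ 1 / 100

/-- the invariant after `k` steps -/
structure AInv (P : AP) (adj : V → V → Bool) (q η θ τ : ℝ) (k : ℕ) (s : AS V) : Prop where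
  symm : ∀ a b, s.c a b = s.c b a
  lo : ∀ a b, P.T ≤ s.c a b + k
  hi : ∀ a b, s.c a b ≤ P.T + k
  adj' : ∀ a b, adj a b = true → s.c a b ≤ P.T
  up : s.up ≤ k * (Fintype.card V ^ 2 * P.m)
  dn : s.dn ≤ k * (Fintype.card V ^ 2 * P.m)
  sat : Sat (omc q s.c) (θ / 4)
  est : |Real.log (Z (omc q s.c)) + η * (Fintype.card V * P.T) - Real.log (Fintype.card (PM V)) -
    η * ((s.up : ℝ) / P.m - (s.dn : ℝ) / P.m)| ≤
      k * (η * ((Fintype.card V : ℝ) ^ 2 * τ) + η ^ 2 * (Fintype.card V : ℝ) ^ 2)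
  pot : s.done = false → Real.log (Z (omc q s.c)) + η * (Fintype.card V * P.T) +
    θ * η * sumc P.T s.c ≤ Real.log (Fintype.card (PM V)) - k * (2 / 5 * η * θ)
  fin : s.done = true → ∀ a b, a ≠ b → (adj a b = false ∨ s.c a b < P.T) →
    xm (omc q s.c) a b ≤ 2 * θ + τ

variable {P : AP} {adj : V → V → Bool} {q η θ τ : ℝ}

theorem sum_cnt_le {S : V → V → Prop} [∀ a b, Decidable (S a b)] {cnt : V → V → ℕ} {m : ℕ}
    (h : ∀ a b, cnt a b ≤ m) :
    (∑ a, ∑ b, if S a b then cnt a b else 0) ≤ Fintype.card V ^ 2 * m := by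
  calc _ ≤ ∑ _a : V, ∑ _b : V, m := sum_le_sum fun a _ => sum_le_sum fun b _ => by
        split_ifs
        · exact h a b
        · exact Nat.zero_le _
    _ = _ := by simp [sq, mul_assoc]

theorem ANum.small (h : ANum P (Fintype.card V) q η θ τ) :
    η * Fintype.card V ≤ 1 / 100 ∧ θ ≤ 1 / 100 ∧ θ * Fintype.card V ≤ 1 := by
  have := h.v2
  have := h.η0
  have := h.θ0
  have k1 : θ ≤ 1 / 100 := by nlinarith [h.n3]
  refine ⟨by nlinarith [h.n1], k1, by nlinarith [h.n3]⟩

theorem ANum.div_lt (h : ANum P (Fintype.card V) q η θ τ) {i j n : ℕ}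
    (e : i * P.Θ * n < j * P.m) : (i : ℝ) * ((n : ℝ) / P.m) < j * θ := by
  have hm : (0 : ℝ) < P.m := by exact_mod_cast h.m0
  have e' : (i : ℝ) * P.Θ * n < j * P.m := by exact_mod_cast e
  rw [← mul_div_assoc, div_lt_iff₀ hm]
  have := mul_lt_mul_of_pos_left e' h.θ0
  calc (i : ℝ) * n = θ * (i * P.Θ * n) := by linear_combination (-(i : ℝ) * n) * h.hθ
    _ < _ := this
    _ = _ := by ring

theorem ANum.lt_div (h : ANum P (Fintype.card V) q η θ τ) {i j n : ℕ}
    (e : j * P.m ≤ i * P.Θ * n) : j * θ ≤ (i : ℝ) * ((n : ℝ) / P.m) := by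
  have hm : (0 : ℝ) < P.m := by exact_mod_cast h.m0
  have e' : (j : ℝ) * P.m ≤ (i : ℝ) * P.Θ * n := by exact_mod_cast e
  rw [← mul_div_assoc, le_div_iff₀ hm]
  have := mul_le_mul_of_nonneg_left e' h.θ0.le
  calc (j : ℝ) * θ * P.m = θ * (j * P.m) := by ring
    _ ≤ _ := this
    _ = _ := by linear_combination ((i : ℝ) * n) * h.hθ

theorem AInv.zero (h : ANum P (Fintype.card V) q η θ τ) (M₀ : PM V) :
    AInv P adj q η θ τ 0 (ainit P : AS V) := by
  have hq : 0 < q ^ P.T := pow_pos h.q0 _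
  have hc : (0 : ℝ) < Fintype.card (PM V) := by exact_mod_cast Fintype.card_pos_iff.2 ⟨M₀⟩
  have hZ : Real.log (Z (omc q (ainit P : AS V).c)) + η * (Fintype.card V * P.T) =
      Real.log (Fintype.card (PM V)) := by
    have : Z (omc q (ainit P : AS V).c) = Fintype.card (PM V) * (q ^ P.T) ^ Fintype.card V := by
      simp [Z, W, omc, ainit]
    rw [this, Real.log_mul hc.ne' (pow_pos hq _).ne', Real.log_pow, Real.log_pow, h.hη]
    ring
  refine ⟨fun _ _ => rfl, fun _ _ => le_rfl, fun _ _ => le_rfl, fun _ _ _ => le_rfl,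
    Nat.zero_le _, Nat.zero_le _, fun a b hab => ?_, ?_, fun _ => ?_, fun e => ?_⟩
  · have := xm_const hq M₀ hab
    change θ / 4 ≤ xm (fun _ _ : V => q ^ P.T) a b
    rw [this, le_div_iff₀ (by linarith [h.v2])]
    nlinarith [h.small.2.2, h.θ0]
  · rw [hZ]
    simp [ainit]
  · rw [hZ]
    simp [ainit, sumc]
  · simp [ainit] at e

theorem AInv.succ (h : ANum P (Fintype.card V) q η θ τ) (M₀ : PM V)
    (hadj : ∀ a b, adj a b = adj b a) {k : ℕ} (hk : k < P.T) {s : AS V}
    (I : AInv P adj q η θ τ k s) {cnt : V → V → ℕ} (A : Accu P τ (omc q s.c) cnt) :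
    AInv P adj q η θ τ (k + 1) (astep P adj s cnt) := by
  obtain ⟨s1, s2, s3⟩ := h.small
  have hη := h.η0
  have hθ := h.θ0
  have hτ := h.τ0
  have n1 := h.n1
  have n2 := h.n2
  have n3 := h.n3
  have hc : ∀ a b, 1 ≤ s.c a b := fun a b => by have := I.lo a b; omega
  have hE : 0 ≤ η * ((Fintype.card V : ℝ) ^ 2 * τ) + η ^ 2 * (Fintype.card V : ℝ) ^ 2 := by
    positivity
  have est' := I.est.trans (mul_le_mul_of_nonneg_right
    (show (k : ℝ) ≤ (k + 1 : ℕ) by push_cast; linarith) hE)
  have up' := I.up.trans (Nat.mul_le_mul_right _ (Nat.le_succ k))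
  have dn' := I.dn.trans (Nat.mul_le_mul_right _ (Nat.le_succ k))
  have nlow : ∀ a b, a ≠ b → ¬ lowP P cnt a b → θ / 2 - τ ≤ xm (omc q s.c) a b := by
    intro a b hab e
    have k1 := h.lt_div (i := 2) (j := 1) (n := cnt a b)
      (by rw [one_mul]; exact not_lt.1 fun e' => e ⟨hab, e'⟩)
    have k2 := (abs_le.1 (A.2.2 a b hab)).2
    push_cast at k1
    linarith
  have hlow : ∀ a b, a ≠ b → ¬ lowP P cnt a b →
      θ / 4 ≤ (1 - η * Fintype.card V) * xm (omc q s.c) a b := fun a b hab e =>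
    calc θ / 4 ≤ 99 / 100 * (θ / 2 - τ) := by linarith
      _ ≤ _ := mul_le_mul (by linarith) (nlow a b hab e) (by linarith) (by linarith)
  unfold astep
  split_ifs with e1 e2 e3
  · exact ⟨I.symm, fun a b => (I.lo a b).trans (by omega), fun a b => (I.hi a b).trans (by omega),
      I.adj', up', dn', I.sat, est', fun e => by simp [e1] at e, I.fin⟩
  · have Ti := tilt_up (S := lowP P cnt) h.q0 hc
    rw [h.hη, neg_neg] at Ti
    have hS : ∀ a b, lowP P cnt a b → a ≠ b := fun _ _ e => e.1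
    have hx := SS_le (S := lowP P cnt) (f := xm (omc q s.c)) (r := θ / 2 + τ) fun a b e => by
      have k1 := h.div_lt (i := 2) (j := 1) (n := cnt a b) (by rw [one_mul]; exact e.2)
      have k2 := (abs_le.1 (A.2.2 a b e.1)).1
      push_cast at k1
      linarith
    have hn := one_le_nS e2
    have hn' := nS_le (S := lowP P cnt)
    obtain ⟨z1, z2⟩ := Ti.log_Z M₀ (by rw [abs_of_pos hη]; linarith)
    obtain ⟨c1, c2⟩ := abs_le.1 (SS_cnt hτ A hS)
    refine ⟨fun a b => ?_, fun a b => ?_, fun a b => ?_, fun a b e => ?_, ?_, dn',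
      fun a b hab => ?_, ?_, fun _ => ?_, fun e => by simp at e⟩
    · have : lowP P cnt a b ↔ lowP P cnt b a := by unfold lowP; rw [A.1 a b, ne_comm]
      simp only [this, I.symm a b]
    · have := I.lo a b
      dsimp only
      split_ifs <;> omega
    · have := I.hi a b
      dsimp only
      split_ifs <;> omega
    · have := I.adj' a b e
      dsimp only
      split_ifs <;> omega
    · have := sum_cnt_le (S := lowP P cnt) A.2.1
      have := I.up
      dsimp only
      rw [add_mul, one_mul]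
      omega
    · by_cases e : lowP P cnt a b
      · refine (I.sat a b hab).trans (Ti.xm_mono M₀ hη.le (by linarith) ?_ e)
        have := mul_le_mul_of_nonneg_left hn' (show 0 ≤ θ by linarith)
        have := mul_le_mul_of_nonneg_right (show θ / 2 + τ ≤ θ by linarith)
          (show 0 ≤ nS (lowP P cnt) by linarith)
        linarith
      · refine le_trans ?_ (Ti.xm_ge a b)
        rw [abs_of_pos hη]
        exact hlow a b hab e
    · have := abs_le.1 I.est
      have d1 := mul_le_mul_of_nonneg_left c1 hη.le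
      have d2 := mul_le_mul_of_nonneg_left c2 hη.le
      dsimp only
      rw [Nat.cast_add s.up, add_div, Nat.cast_succ k, abs_le]
      constructor <;> linarith
    · have := I.pot (by simpa using e1)
      have d1 := mul_le_mul_of_nonneg_left hx hη.le
      have d2 := mul_le_mul_of_nonneg_left n1 hη.le
      have d3 := mul_le_mul_of_nonneg_left hn (show 0 ≤ η * (θ / 2 - τ) by
        refine mul_nonneg hη.le (by linarith))
      have d4 := mul_le_mul_of_nonneg_left n2 hη.le
      have d5 := mul_pos hη hθ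
      dsimp only
      rw [sumc_up _ hc hS, Nat.cast_succ k]
      linarith
  · have Ti := tilt_dn (S := highP P adj s.c cnt) h.q0 s.c
    rw [h.hη] at Ti
    have hS : ∀ a b, highP P adj s.c cnt a b → a ≠ b := fun _ _ e => e.1
    have hx := SS_ge (S := highP P adj s.c cnt) (f := xm (omc q s.c)) (r := 2 * θ - τ)
      fun a b e => by
        have k1 := h.lt_div (i := 1) (j := 2) (n := cnt a b) (by rw [one_mul]; exact e.2.1.le)
        have k2 := (abs_le.1 (A.2.2 a b e.1)).2
        push_cast at k1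
        linarith
    have hn := one_le_nS e3
    obtain ⟨z1, z2⟩ := Ti.log_Z M₀ (by rw [abs_neg, abs_of_pos hη]; linarith)
    obtain ⟨c1, c2⟩ := abs_le.1 (SS_cnt hτ A hS)
    refine ⟨fun a b => ?_, fun a b => ?_, fun a b => ?_, fun a b e => ?_, up', ?_,
      fun a b hab => ?_, ?_, fun _ => ?_, fun e => by simp at e⟩
    · have : highP P adj s.c cnt a b ↔ highP P adj s.c cnt b a := by
        unfold highP; rw [A.1 a b, ne_comm, hadj a b, I.symm a b]
      simp only [this, I.symm a b]
    · have := I.lo a b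
      dsimp only
      split_ifs <;> omega
    · have := I.hi a b
      dsimp only
      split_ifs <;> omega
    · have := I.adj' a b e
      dsimp only
      split_ifs with e'
      · rcases e'.2.2 with e'' | e''
        · rw [e] at e''; exact absurd e'' (by simp)
        · omega
      · exact this
    · have := sum_cnt_le (S := highP P adj s.c cnt) A.2.1
      have := I.dn
      dsimp only
      rw [add_mul, one_mul]
      omega
    · refine le_trans ?_ (Ti.xm_ge a b)
      rw [abs_neg, abs_of_pos hη]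
      exact hlow a b hab fun e => e2 ⟨a, b, e⟩
    · have := abs_le.1 I.est
      have d1 := mul_le_mul_of_nonneg_left c1 hη.le
      have d2 := mul_le_mul_of_nonneg_left c2 hη.le
      dsimp only
      rw [Nat.cast_add s.dn, add_div, Nat.cast_succ k, abs_le]
      constructor <;> linarith
    · have := I.pot (by simpa using e1)
      have d1 := mul_le_mul_of_nonneg_left hx hη.le
      have d2 := mul_le_mul_of_nonneg_left n1 hη.le
      have d3 := mul_le_mul_of_nonneg_left hn (show 0 ≤ η * (θ - τ) by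
        refine mul_nonneg hη.le (by linarith))
      have d4 := mul_le_mul_of_nonneg_left n2 hη.le
      have d5 := mul_pos hη hθ
      dsimp only
      rw [sumc_dn _ _ hS, Nat.cast_succ k]
      linarith
  · refine ⟨I.symm, fun a b => (I.lo a b).trans (Nat.le_succ _),
      fun a b => (I.hi a b).trans (by omega), I.adj', up', dn', I.sat, est',
      fun e => by simp at e, fun _ a b hab e => ?_⟩
    have k0 : P.Θ * cnt a b ≤ 2 * P.m := not_lt.1 fun e' => e3 ⟨a, b, hab, e', e⟩
    have hm : (0 : ℝ) < P.m := by exact_mod_cast h.m0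
    have k3 : (cnt a b : ℝ) / P.m ≤ 2 * θ := by
      have e' : (P.Θ : ℝ) * cnt a b ≤ 2 * P.m := by exact_mod_cast k0
      rw [div_le_iff₀ hm]
      calc (cnt a b : ℝ) = θ * (P.Θ * cnt a b) := by linear_combination (-(cnt a b : ℝ)) * h.hθ
        _ ≤ θ * (2 * P.m) := mul_le_mul_of_nonneg_left e' hθ.le
        _ = _ := by ring
    have k2 := (abs_le.1 (A.2.2 a b hab)).1
    dsimp only
    linarith

theorem AInv.of_reach (h : ANum P (Fintype.card V) q η θ τ) (M₀ : PM V)
    (hadj : ∀ a b, adj a b = adj b a) {k : ℕ} {s : AS V} (hs : Reach P adj q τ k s)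
    (hk : k ≤ P.T) : AInv P adj q η θ τ k s := by
  induction hs with
  | zero => exact AInv.zero h M₀
  | succ _ A ih => exact (ih (by omega)).succ h M₀ hadj (by omega) A

theorem close_astep (h : ANum P (Fintype.card V) q η θ τ) {s : AS V} (hc : ∀ a b, 1 ≤ s.c a b)
    {ζ : ℝ} (hζ : 2 * (η * Fintype.card V) ≤ ζ) (cnt : V → V → ℕ) :
    Close ζ (mu (omc q s.c)) (mu (omc q (astep P adj s cnt).c)) := by
  have s1 := h.small.1
  have hη := h.η0
  have h0 : Close ζ (mu (omc q s.c)) (mu (omc q s.c)) := fun M => by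
    rw [sub_self, abs_zero]
    exact mul_nonneg (le_trans (by positivity) hζ) (mu_pos' (fun a b => pow_pos h.q0 _) M).le
  unfold astep
  split_ifs
  · exact h0
  · have Ti := tilt_up (S := lowP P cnt) h.q0 hc
    rw [h.hη, neg_neg] at Ti
    exact Ti.close (by rw [abs_of_pos hη]; linarith) (by rwa [abs_of_pos hη])
  · have Ti := tilt_dn (S := highP P adj s.c cnt) h.q0 s.c
    rw [h.hη] at Ti
    exact Ti.close (by rw [abs_neg, abs_of_pos hη]; linarith) (by rwa [abs_neg, abs_of_pos hη])
  · exact h0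

end Vale.Agent.P308
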