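import Vale.Agent.P308.AnnE
import Vale.Agent.P308.AnnB
import Vale.Agent.P308.AnnC
import Vale.Agent.P308.AnnD

/-!
The deterministic part of the annealing.
-/

set_option linter.unusedSectionVars false

namespace Vale.Agent.P308

open Finset

variable {V : Type} [Fintype V] [DecidableEq V]

variable {P : AP} {adj : V → V → Bool} {e D : ℕ} {τ : ℝ}

/-- the numerical consequences of the conditions on the parameters -/
theorem ACond.num {v : ℕ} (hc : ACond P v e D τ) : ∃ η : ℝ,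
    ANum P v (((D : ℝ) - 1) / D) η (1 / P.Θ) τ ∧ 2 ≤ D ∧ 2 * (η * v) ≤ 8 * v / D ∧
      η ≤ 1 / (1000 * e) ∧ (v : ℝ) ^ 2 * (2 * (1 / P.Θ) + τ) ≤ 3 / (100 * e) ∧
      P.T * (η * ((v : ℝ) ^ 2 * τ) + η ^ 2 * (v : ℝ) ^ 2) ≤ 24 / (1000 * e) ∧
      (v : ℝ) ^ 2 < P.T * (2 / 5 * η * (1 / P.Θ)) := by
  have v2 : (2 : ℝ) ≤ v := by exact_mod_cast hc.v2
  have e1 : (1 : ℝ) ≤ e := by exact_mod_cast hc.e1
  have hΘ : (P.Θ : ℝ) = 100 * v ^ 2 * e := by exact_mod_cast hc.hΘ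
  have hT : (P.T : ℝ) = 4 * v ^ 2 * P.Θ * D := by exact_mod_cast hc.hT
  have hD : 1000 * (v : ℝ) ^ 4 * P.Θ * e ≤ D := by exact_mod_cast hc.hD
  have hτ := hc.hτ
  have τ0 := hc.τ0
  have a1 : (4 : ℝ) ≤ v ^ 2 := by nlinarith
  have a2 : (16 : ℝ) ≤ v ^ 4 := by nlinarith
  have a3 : (400 : ℝ) ≤ P.Θ := by nlinarith
  have a4 : (16 : ℝ) * 400 ≤ v ^ 4 * P.Θ := mul_le_mul a2 a3 (by norm_num) (by positivity)
  have a5 : (v : ℝ) ^ 4 * P.Θ ≤ v ^ 4 * P.Θ * e := le_mul_of_one_le_right (by positivity) e1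
  have D2 : (2 : ℝ) ≤ D := by linarith
  have q0 : 0 < ((D : ℝ) - 1) / D := div_pos (by linarith) (by linarith)
  have b1 : 1 ≤ -Real.log (((D : ℝ) - 1) / D) * D := by
    have := Real.log_le_sub_one_of_pos q0
    have k : ((D : ℝ) - 1) / D - 1 = -(1 / D) := by field_simp; ring
    rw [k, le_neg, div_le_iff₀ (by linarith)] at this
    exact this
  have b2 : -Real.log (((D : ℝ) - 1) / D) * D ≤ 2 := by
    have := Real.log_le_sub_one_of_pos (inv_pos.2 q0)
    have k0 : (D : ℝ) - 1 ≠ 0 := by linarith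
    have k : (((D : ℝ) - 1) / D)⁻¹ - 1 = 1 / (D - 1) := by rw [inv_div]; field_simp; ring
    rw [k, Real.log_inv, le_div_iff₀ (by linarith)] at this
    nlinarith
  refine ⟨-Real.log (((D : ℝ) - 1) / D), ?_⟩
  have hq : Real.log (((D : ℝ) - 1) / D) = - -Real.log (((D : ℝ) - 1) / D) := (neg_neg _).symm
  generalize -Real.log (((D : ℝ) - 1) / D) = η at *
  have η0 : 0 < η := by
    by_contra hn
    nlinarith [mul_nonneg (neg_nonneg.2 (not_lt.1 hn)) (show (0 : ℝ) ≤ D by linarith)]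
  have c1 : η * (1000 * (v : ℝ) ^ 4 * P.Θ * e) ≤ 2 :=
    (mul_le_mul_of_nonneg_left hD η0.le).trans b2
  have Θ0 : (0 : ℝ) < P.Θ := by linarith
  have c2 : (v : ℝ) ^ 2 * P.Θ * 4 ≤ v ^ 4 * P.Θ * e := by
    have : (v : ℝ) ^ 2 * P.Θ * 4 ≤ v ^ 2 * P.Θ * v ^ 2 :=
      mul_le_mul_of_nonneg_left a1 (by positivity)
    linarith
  have c3 : (P.Θ : ℝ) * 4 ≤ v ^ 2 * P.Θ := by nlinarith
  have c4 : (e : ℝ) * 6400 ≤ v ^ 4 * P.Θ * e := by nlinarith
  refine ⟨⟨q0, hq, η0, one_div_mul_cancel Θ0.ne', by positivity, hc.hm, v2, τ0, ?_, ?_, ?_⟩,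
    by exact_mod_cast D2, ?_, ?_, ?_, ?_, ?_⟩
  · rw [div_div, le_div_iff₀ (by positivity)]
    linarith [mul_le_mul_of_nonneg_left c2 η0.le]
  · rw [div_div, le_div_iff₀ (by positivity)]
    linarith [mul_le_mul_of_nonneg_left c2 τ0, mul_le_mul_of_nonneg_left c3 τ0]
  · rw [mul_one_div, div_le_iff₀ Θ0]
    linarith [mul_le_mul_of_nonneg_left e1 (sq_nonneg (v : ℝ))]
  · rw [le_div_iff₀ (by linarith)]
    linarith [mul_le_mul_of_nonneg_left b2 (show (0 : ℝ) ≤ v by linarith)]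
  · rw [le_div_iff₀ (by positivity)]
    linarith [mul_le_mul_of_nonneg_left c4 η0.le]
  · have k1 : (v : ℝ) ^ 2 * (2 * (1 / P.Θ)) = 2 / (100 * e) := by rw [hΘ]; field_simp
    have k2 : (v : ℝ) ^ 2 * τ ≤ 1 / (100 * e) := by
      rw [le_div_iff₀ (by positivity)]
      have : (v : ℝ) ^ 2 * 1 ≤ v ^ 4 * P.Θ := by nlinarith
      linarith [mul_le_mul_of_nonneg_left this (show 0 ≤ τ * e by positivity),
        show 0 ≤ (v : ℝ) ^ 2 * τ * e by positivity]
    have k3 : (3 : ℝ) / (100 * e) = 2 / (100 * e) + 1 / (100 * e) := by ring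
    rw [mul_add, k1, k3]
    linarith
  · rw [le_div_iff₀ (by positivity), hT]
    have k1 := mul_le_mul b2 hτ (by positivity) (by norm_num)
    have k2 := mul_le_mul b2 c1 (by positivity) (by norm_num)
    linarith
  · have k1 : (P.T : ℝ) * (2 / 5 * η * (1 / P.Θ)) = 8 / 5 * v ^ 2 * (η * D) := by
      rw [hT]; field_simp; ring
    rw [k1]
    linarith [mul_le_mul_of_nonneg_left b1 (sq_nonneg (v : ℝ))]

theorem reach_facts (hc : ACond P (Fintype.card V) e D τ) (M₀ : PM V)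
    (hadj : ∀ a b, adj a b = adj b a) {k : ℕ} (hk : k ≤ P.T) {s : AS V}
    (hs : Reach P adj (((D : ℝ) - 1) / D) τ k s) :
    Wt (omc (((D : ℝ) - 1) / D) s.c) ∧ Sat (omc (((D : ℝ) - 1) / D) s.c) (1 / (4 * P.Θ)) ∧
      (∀ a b, s.c a b ≤ 2 * P.T) ∧
      ∀ cnt, k < P.T → Close (8 * Fintype.card V / D) (mu (omc (((D : ℝ) - 1) / D) s.c))
        (mu (omc (((D : ℝ) - 1) / D) (astep P adj s cnt).c)) := by
  obtain ⟨η, h, -, h1, -⟩ := hc.num
  have I := AInv.of_reach h M₀ hadj hs hk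
  refine ⟨⟨fun a b => by unfold omc; rw [I.symm], fun a b => pow_pos h.q0 _⟩, ?_,
    fun a b => by have := I.hi a b; omega, fun cnt hk' =>
      close_astep h (fun a b => by have := I.lo a b; omega) h1 cnt⟩
  have := I.sat
  rwa [div_div, mul_comm] at this

theorem reach_cnt (hc : ACond P (Fintype.card V) e D τ) (M₀ : PM V)
    (hadj : ∀ a b, adj a b = adj b a) {k : ℕ} (hk : k ≤ P.T) {s : AS V}
    (hs : Reach P adj (((D : ℝ) - 1) / D) τ k s) :
    s.up ≤ k * (Fintype.card V ^ 2 * P.m) ∧ s.dn ≤ k * (Fintype.card V ^ 2 * P.m) := by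
  obtain ⟨η, h, -⟩ := hc.num
  have I := AInv.of_reach h M₀ hadj hs hk
  exact ⟨I.up, I.dn⟩

theorem floor_near (a : ℕ) {m : ℕ} (hm : 0 < m) :
    ((a / m : ℕ) : ℝ) ≤ (a : ℝ) / m ∧ (a : ℝ) / m ≤ ((a / m : ℕ) : ℝ) + 1 := by
  refine ⟨Nat.cast_div_le, ?_⟩
  rw [div_le_iff₀ (by exact_mod_cast hm)]
  have := (Nat.lt_mul_div_succ a hm).le
  rw [mul_comm] at this
  exact_mod_cast this

theorem near_of_log {x z n ε : ℝ} (hx : 0 < x) (hz : 0 < z) (hε0 : 0 ≤ ε) (hε : ε ≤ 1 / 30)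
    (h : |Real.log x - Real.log z| ≤ ε) (h1 : n ≤ z) (h2 : (1 - ε) * z ≤ n) :
    |x - n| ≤ 10 / 3 * ε * n := by
  obtain ⟨k1, k2⟩ := abs_le.1 h
  rw [← Real.log_div hx.ne' hz.ne'] at k1 k2
  have k3 := Real.log_le_sub_one_of_pos (div_pos hx hz)
  have k4 := Real.one_sub_inv_le_log_of_pos (div_pos hx hz)
  have k5 : (1 - ε) * z ≤ x := by rw [← le_div_iff₀ hz]; linarith
  have k6 : (1 - ε) * x ≤ z := by
    rw [inv_div] at k4
    rw [← le_div_iff₀ hx]; linarith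
  have n0 : 0 ≤ n := le_trans (mul_nonneg (by linarith) hz.le) h2
  have k7 : (1 - ε) * ((1 - ε) * x) ≤ n :=
    (mul_le_mul_of_nonneg_left k6 (by linarith)).trans h2
  have k8 : 1 ≤ (1 + 10 / 3 * ε) * ((1 - ε) * (1 - ε)) := by nlinarith [mul_nonneg hε0 hε0]
  have k9 := mul_le_mul_of_nonneg_left k7 (show 0 ≤ 1 + 10 / 3 * ε by linarith)
  have k10 := mul_le_mul_of_nonneg_right k8 hx.le
  have k11 := mul_le_mul_of_nonneg_left h1 (show 0 ≤ 1 - ε by linarith)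
  have k12 := mul_nonneg hε0 n0
  exact abs_le.2 ⟨by linarith, by linarith⟩

theorem reach_out (hc : ACond P (Fintype.card V) e D τ) (M₀ : PM V)
    (hadj : ∀ a b, adj a b = adj b a) {s : AS V}
    (hs : Reach P adj (((D : ℝ) - 1) / D) τ P.T s) :
    |(aout P D (Fintype.card (PM V)) s : ℝ) - nPM adj| ≤ nPM adj / e := by
  obtain ⟨η, h, D2, -, h2, h3, h4, h5⟩ := hc.num
  have I := AInv.of_reach h M₀ hadj hs le_rfl
  have e1 : (1 : ℝ) ≤ e := by exact_mod_cast hc.e1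
  have D2' : (2 : ℝ) ≤ D := by exact_mod_cast D2
  have q1 : ((D : ℝ) - 1) / D ≤ 1 := by rw [div_le_one (by linarith)]; linarith
  have hη := h.η0
  unfold aout
  split_ifs with hd
  · obtain ⟨b1, b2⟩ := done_bound h.q0 q1 (by have := h.θ0; have := h.τ0; positivity) I.adj'
      (I.fin hd)
    have hB : 0 < (D - 1) ^ (s.up / P.m) * D ^ (s.dn / P.m) :=
      Nat.mul_pos (pow_pos (by omega) _) (pow_pos (by omega) _)
    refine round_est hB hc.e1 ?_
    have hZ := Z_pos' (om := omc (((D : ℝ) - 1) / D) s.c) (fun a b => pow_pos h.q0 _) M₀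
    have hq := pow_pos h.q0 (Fintype.card V * P.T)
    have hc' : (0 : ℝ) < Fintype.card (PM V) := by exact_mod_cast Fintype.card_pos_iff.2 ⟨M₀⟩
    have hx : ((Fintype.card (PM V) * D ^ (s.up / P.m) * (D - 1) ^ (s.dn / P.m) : ℕ) : ℝ) /
        ((D - 1) ^ (s.up / P.m) * D ^ (s.dn / P.m) : ℕ) = Fintype.card (PM V) *
          ((((D : ℝ) - 1) / D) ^ (s.dn / P.m) / (((D : ℝ) - 1) / D) ^ (s.up / P.m)) := by
      have k0 : (D : ℝ) - 1 ≠ 0 := by linarith
      have k1 : (D : ℝ) ≠ 0 := by linarith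
      push_cast [Nat.cast_sub (show 1 ≤ D by omega)]
      rw [div_pow, div_pow]
      field_simp
    rw [hx]
    have p1 := pow_pos h.q0 (s.dn / P.m)
    have p2 := pow_pos h.q0 (s.up / P.m)
    have k : (nPM adj : ℝ) / (10 * e) = 10 / 3 * (3 / (100 * e)) * nPM adj := by
      field_simp; ring
    rw [k]
    refine near_of_log (mul_pos hc' (div_pos p1 p2)) (div_pos hZ hq) (by positivity) ?_ ?_
      ((le_div_iff₀ hq).2 b1) ?_
    · rw [div_le_iff₀ (by positivity)]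
      linarith
    · rw [Real.log_mul hc'.ne' (div_pos p1 p2).ne', Real.log_div p1.ne' p2.ne',
        Real.log_div hZ.ne' hq.ne', Real.log_pow, Real.log_pow, Real.log_pow, h.hη]
      obtain ⟨u1, u2⟩ := floor_near s.up h.m0
      obtain ⟨d1, d2⟩ := floor_near s.dn h.m0
      obtain ⟨t1, t2⟩ := abs_le.1 (I.est.trans h4)
      have u3 := mul_le_mul_of_nonneg_left u1 hη.le
      have u4 := mul_le_mul_of_nonneg_left u2 hη.le
      have d3 := mul_le_mul_of_nonneg_left d1 hη.le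
      have d4 := mul_le_mul_of_nonneg_left d2 hη.le
      have k1 : (3 : ℝ) / (100 * e) = 24 / (1000 * e) + 6 * (1 / (1000 * e)) := by
        field_simp; ring
      rw [k1, Nat.cast_mul]
      exact abs_le.2 ⟨by linarith, by linarith⟩
    · rw [← mul_div_assoc, div_le_iff₀ hq]
      exact le_trans (mul_le_mul_of_nonneg_right (by linarith) hZ.le) b2
  · have hn : nPM adj = 0 := by
      by_contra hn
      have k1 := pot_lower h.q0 q1 h.θ0.le h.small.2.2 I.adj' (Nat.pos_of_ne_zero hn)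
      have k2 := I.pot (by simpa using hd)
      have k3 := log_card_PM M₀
      rw [h.hη] at k1
      unfold sumc at k2
      linarith
    simp [hn]

end Vale.Agent.P308
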