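import Vale.Agent.Lib.MathlibUsed

/-!
Perfect matchings of the complete graph, switches, exchange along alternating cycles, weights.
-/

namespace Vale.Agent.P308

open Finset

/-- A perfect matching of the complete graph on `V`: an involution without fixed point. -/
@[ext] structure PM (V : Type) where
  f : V → V
  inv : ∀ x, f (f x) = x
  ne : ∀ x, f x ≠ x

variable {V : Type} [Fintype V] [DecidableEq V]

noncomputable instance : Fintype (PM V) := Fintype.ofInjective PM.f fun _ _ h => PM.ext h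

noncomputable instance : DecidableEq (PM V) := Classical.decEq _

omit [Fintype V] [DecidableEq V] in
theorem PM.inj (M : PM V) : Function.Injective M.f := fun a b h => by
  rw [← M.inv a, h, M.inv]

omit [Fintype V] [DecidableEq V] in
theorem PM.eq_comm (M : PM V) {a b : V} : M.f a = b ↔ M.f b = a :=
  ⟨fun h => by rw [← h, M.inv], fun h => by rw [← h, M.inv]⟩

omit [Fintype V] [DecidableEq V] in
theorem PM.ne_of_eq (M : PM V) {a b : V} (h : M.f a = b) : a ≠ b := fun e => M.ne a (h.trans e.symm)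

/-- The switch: conjugation by the transposition of `b` and `c`. The edges `ab`, `cd` are replaced
by `ac`, `bd`. -/
def PM.sw (b c : V) (M : PM V) : PM V where
  f x := Equiv.swap b c (M.f (Equiv.swap b c x))
  inv x := by simp [M.inv]
  ne x h := M.ne (Equiv.swap b c x) (by simpa using congrArg (Equiv.swap b c) h)

omit [Fintype V] in
theorem PM.sw_f (b c : V) (M : PM V) (x : V) :
    (M.sw b c).f x = Equiv.swap b c (M.f (Equiv.swap b c x)) := rfl

omit [Fintype V] in
@[simp] theorem PM.sw_sw (b c : V) (M : PM V) : (M.sw b c).sw b c = M := by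
  ext x; simp [PM.sw_f]

omit [Fintype V] in
theorem PM.sw_comm (b c : V) (M : PM V) : M.sw b c = M.sw c b := by
  ext x; simp [PM.sw_f, Equiv.swap_comm b c]

omit [Fintype V] in
@[simp] theorem PM.sw_self (b : V) (M : PM V) : M.sw b b = M := by
  ext x; simp [PM.sw_f]

omit [Fintype V] in
theorem PM.sw_inj (b c : V) : Function.Injective (PM.sw b c : PM V → PM V) := fun M F h => by
  rw [← M.sw_sw b c, h, F.sw_sw]

omit [Fintype V] in
/-- outside the four vertices nothing changes -/
theorem PM.sw_of_ne (M : PM V) {b c x : V} (h1 : x ≠ b) (h2 : x ≠ c) (h3 : x ≠ M.f b)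
    (h4 : x ≠ M.f c) : (M.sw b c).f x = M.f x := by
  rw [PM.sw_f, Equiv.swap_apply_of_ne_of_ne h1 h2, Equiv.swap_apply_of_ne_of_ne]
  · exact fun h => h3 (M.eq_comm.1 h).symm
  · exact fun h => h4 (M.eq_comm.1 h).symm

omit [Fintype V] in
/-- the old partner of `b` gets `c` -/
theorem PM.sw_partner (M : PM V) {b c : V} (h : M.f b ≠ c) : (M.sw b c).f (M.f b) = c := by
  rw [PM.sw_f, Equiv.swap_apply_of_ne_of_ne (M.ne b) h, M.inv, Equiv.swap_apply_left]

omit [Fintype V] in
/-- the old partner of `c` gets `b` -/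
theorem PM.sw_partner' (M : PM V) {b c : V} (h : M.f b ≠ c) : (M.sw b c).f (M.f c) = b := by
  rw [M.sw_comm]
  exact M.sw_partner fun e => h (M.eq_comm.1 e)

omit [Fintype V] in
theorem PM.sw_left (M : PM V) {b c : V} (h : M.f b ≠ c) : (M.sw b c).f b = M.f c :=
  (M.sw b c).eq_comm.1 (M.sw_partner' h)

omit [Fintype V] in
theorem PM.sw_right (M : PM V) {b c : V} (h : M.f b ≠ c) : (M.sw b c).f c = M.f b :=
  (M.sw b c).eq_comm.1 (M.sw_partner h)

omit [Fintype V] in
theorem PM.sw_of_adj (M : PM V) {b c : V} (h : M.f b = c) : M.sw b c = M := by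
  have h' : M.f c = b := M.eq_comm.1 h
  ext x
  by_cases h1 : x = b
  · rw [h1, PM.sw_f, Equiv.swap_apply_left, h', Equiv.swap_apply_left, h]
  by_cases h2 : x = c
  · rw [h2, PM.sw_f, Equiv.swap_apply_right, h, Equiv.swap_apply_right, h']
  exact M.sw_of_ne h1 h2 (by rwa [h]) (by rwa [h'])

/-! ### exchange on a closed set -/

/-- `S` is closed under both matchings -/
def Cl (p : PM V × PM V) (S : Finset V) : Prop := ∀ x ∈ S, p.1.f x ∈ S ∧ p.2.f x ∈ S

omit [Fintype V] [DecidableEq V] in
theorem Cl.swap {p : PM V × PM V} {S : Finset V} (h : Cl p S) : Cl p.swap S :=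
  fun x hx => (h x hx).symm

/-- the second matching on `S`, the first one outside -/
def mix (p : PM V × PM V) (S : Finset V) (h : Cl p S) : PM V where
  f x := if x ∈ S then p.2.f x else p.1.f x
  inv x := by
    by_cases hx : x ∈ S
    · rw [if_pos hx, if_pos (h x hx).2, p.2.inv]
    · have : p.1.f x ∉ S := fun h' => hx (by simpa [p.1.inv] using (h _ h').1)
      rw [if_neg hx, if_neg this, p.1.inv]
  ne x := by
    by_cases hx : x ∈ S
    · rw [if_pos hx]; exact p.2.ne x
    · rw [if_neg hx]; exact p.1.ne x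

/-- exchange the two matchings on the closed set `S` -/
def xch (p : PM V × PM V) (S : Finset V) (h : Cl p S) : PM V × PM V :=
  (mix p S h, mix p.swap S h.swap)

omit [Fintype V] in
theorem xch_fst (p : PM V × PM V) (S : Finset V) (h : Cl p S) (x : V) :
    (xch p S h).1.f x = if x ∈ S then p.2.f x else p.1.f x := rfl

omit [Fintype V] in
theorem xch_snd (p : PM V × PM V) (S : Finset V) (h : Cl p S) (x : V) :
    (xch p S h).2.f x = if x ∈ S then p.1.f x else p.2.f x := rfl

open Classical in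
/-- the vertex set of the alternating cycle through `v` -/
noncomputable def cyc (p : PM V × PM V) (v : V) : Finset V :=
  univ.filter fun x => Relation.ReflTransGen (fun a b => b = p.1.f a ∨ b = p.2.f a) v x

omit [DecidableEq V] in
theorem mem_cyc {p : PM V × PM V} {v x : V} :
    x ∈ cyc p v ↔ Relation.ReflTransGen (fun a b => b = p.1.f a ∨ b = p.2.f a) v x := by
  simp [cyc]

omit [DecidableEq V] in
theorem self_mem_cyc (p : PM V × PM V) (v : V) : v ∈ cyc p v := mem_cyc.2 .refl

omit [DecidableEq V] in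
theorem cl_cyc (p : PM V × PM V) (v : V) : Cl p (cyc p v) := fun _ hx =>
  ⟨mem_cyc.2 ((mem_cyc.1 hx).tail (Or.inl rfl)), mem_cyc.2 ((mem_cyc.1 hx).tail (Or.inr rfl))⟩

omit [DecidableEq V] in
theorem cyc_subset {p : PM V × PM V} {v : V} {S : Finset V} (h : Cl p S) (hv : v ∈ S) :
    cyc p v ⊆ S := by
  intro x hx
  rw [mem_cyc] at hx
  induction hx with
  | refl => exact hv
  | tail _ h2 ih =>
    rcases h2 with rfl | rfl
    · exact (h _ ih).1
    · exact (h _ ih).2

omit [DecidableEq V] in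
theorem mem_cyc_symm {p : PM V × PM V} {v x : V} (hx : x ∈ cyc p v) : v ∈ cyc p x := by
  rw [mem_cyc] at hx
  induction hx with
  | refl => exact self_mem_cyc p v
  | @tail b c _ h2 ih =>
    refine cyc_subset (cl_cyc p c) ?_ ih
    rcases h2 with rfl | rfl
    · simpa [p.1.inv] using (cl_cyc p _ _ (self_mem_cyc p (p.1.f b))).1
    · simpa [p.2.inv] using (cl_cyc p _ _ (self_mem_cyc p (p.2.f b))).2

omit [DecidableEq V] in
theorem cyc_eq_of_mem {p : PM V × PM V} {v x : V} (hx : x ∈ cyc p v) : cyc p x = cyc p v :=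
  Subset.antisymm (cyc_subset (cl_cyc p v) hx) (cyc_subset (cl_cyc p x) (mem_cyc_symm hx))

omit [DecidableEq V] in
theorem cyc_swap (p : PM V × PM V) (v : V) : cyc p.swap v = cyc p v :=
  Subset.antisymm (cyc_subset (cl_cyc p v).swap (self_mem_cyc p v))
    (cyc_subset (p := p) (cl_cyc p.swap v).swap (self_mem_cyc _ v))

omit [Fintype V] in
theorem cl_xch_iff (p : PM V × PM V) (S : Finset V) (h : Cl p S) (U : Finset V) :
    Cl (xch p S h) U ↔ Cl p U := by
  refine forall₂_congr fun x _ => ?_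
  rw [xch_fst, xch_snd]
  split_ifs
  · exact and_comm
  · rfl

theorem cyc_xch (p : PM V × PM V) (S : Finset V) (h : Cl p S) (v : V) :
    cyc (xch p S h) v = cyc p v :=
  Subset.antisymm (cyc_subset ((cl_xch_iff p S h _).2 (cl_cyc p v)) (self_mem_cyc p v))
    (cyc_subset ((cl_xch_iff p S h _).1 (cl_cyc _ v)) (self_mem_cyc _ v))

/-- exchange the two matchings on the alternating cycle through `v` -/
noncomputable def sig (v : V) (p : PM V × PM V) : PM V × PM V := xch p (cyc p v) (cl_cyc p v)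

theorem sig_fst (v : V) (p : PM V × PM V) (x : V) :
    (sig v p).1.f x = if x ∈ cyc p v then p.2.f x else p.1.f x := rfl

theorem sig_snd (v : V) (p : PM V × PM V) (x : V) :
    (sig v p).2.f x = if x ∈ cyc p v then p.1.f x else p.2.f x := rfl

theorem cyc_sig (v : V) (p : PM V × PM V) (u : V) : cyc (sig v p) u = cyc p u := cyc_xch _ _ _ u

@[simp] theorem sig_sig (v : V) (p : PM V × PM V) : sig v (sig v p) = p := by
  refine Prod.ext ?_ ?_ <;> ext x
  · rw [sig_fst, cyc_sig, sig_fst, sig_snd]; split_ifs <;> rfl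
  · rw [sig_snd, cyc_sig, sig_fst, sig_snd]; split_ifs <;> rfl

theorem sig_inj (v : V) : Function.Injective (sig v : PM V × PM V → PM V × PM V) :=
  fun p q h => by rw [← sig_sig v p, h, sig_sig]

theorem sig_swap (v : V) (p : PM V × PM V) : sig v p.swap = (sig v p).swap := by
  refine Prod.ext ?_ ?_ <;> ext x
  · rw [sig_fst, cyc_swap]; rfl
  · rw [sig_snd, cyc_swap]; rfl

theorem sig_eq_of_mem {p : PM V × PM V} {v x : V} (hx : x ∈ cyc p v) : sig x p = sig v p := by
  refine Prod.ext ?_ ?_ <;> ext y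
  · rw [sig_fst, sig_fst, cyc_eq_of_mem hx]
  · rw [sig_snd, sig_snd, cyc_eq_of_mem hx]

/-- switch in the second component -/
def sw2 (b c : V) (p : PM V × PM V) : PM V × PM V := (p.1, p.2.sw b c)

/-- switch in the first component -/
def sw1 (b c : V) (p : PM V × PM V) : PM V × PM V := (p.1.sw b c, p.2)

omit [Fintype V] in
@[simp] theorem sw2_sw2 (b c : V) (p : PM V × PM V) : sw2 b c (sw2 b c p) = p := by simp [sw2]

omit [Fintype V] in
@[simp] theorem sw1_sw1 (b c : V) (p : PM V × PM V) : sw1 b c (sw1 b c p) = p := by simp [sw1]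

omit [Fintype V] in
theorem sw2_inj (b c : V) : Function.Injective (sw2 b c : PM V × PM V → PM V × PM V) :=
  fun p q h => by rw [← sw2_sw2 b c p, h, sw2_sw2]

omit [Fintype V] in
theorem sw1_inj (b c : V) : Function.Injective (sw1 b c : PM V × PM V → PM V × PM V) :=
  fun p q h => by rw [← sw1_sw1 b c p, h, sw1_sw1]

/-- exchange along an odd path whose ends have the outer partners `a` (first matching) and `b`
(second matching) -/
noncomputable def tau (a b : V) (p : PM V × PM V) : PM V × PM V := sw2 a b (sig a (sw2 a b p))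

@[simp] theorem tau_tau (a b : V) (p : PM V × PM V) : tau a b (tau a b p) = p := by simp [tau]

theorem tau_inj (a b : V) : Function.Injective (tau a b : PM V × PM V → PM V × PM V) :=
  fun p q h => by rw [← tau_tau a b p, h, tau_tau]

/-! ### weights -/

/-- symmetric positive weights; the weight of the edge `ab` is `om a b ^ 2` -/
structure Wt (om : V → V → ℝ) : Prop where
  symm : ∀ a b, om a b = om b a
  pos : ∀ a b, 0 < om a b

/-- the weight of a matching -/
def W (om : V → V → ℝ) (M : PM V) : ℝ := ∏ x, om x (M.f x)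

/-- the partition function -/
noncomputable def Z (om : V → V → ℝ) : ℝ := ∑ M : PM V, W om M

/-- the Gibbs distribution -/
noncomputable def mu (om : V → V → ℝ) (M : PM V) : ℝ := W om M / Z om

/-- the probability of the edge `ab` -/
noncomputable def xm (om : V → V → ℝ) (a b : V) : ℝ :=
  ∑ M : PM V, if M.f a = b then mu om M else 0

/-- the product distribution on pairs -/
noncomputable def mu2 (om : V → V → ℝ) (p : PM V × PM V) : ℝ := mu om p.1 * mu om p.2

/-- energy of the cycle exchanges -/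
noncomputable def Dsig (om : V → V → ℝ) (g : PM V × PM V → ℝ) : ℝ :=
  ∑ v : V, ∑ p : PM V × PM V, mu2 om p * (g (sig v p) - g p) ^ 2

/-- energy of the switches -/
noncomputable def Dsw (om : V → V → ℝ) (f : PM V → ℝ) : ℝ :=
  ∑ b : V, ∑ c : V, ∑ M : PM V, min (mu om M) (mu om (M.sw b c)) * (f (M.sw b c) - f M) ^ 2

variable {om : V → V → ℝ}

omit [DecidableEq V] in
theorem W_pos (h : Wt om) (M : PM V) : 0 < W om M := prod_pos fun _ _ => h.pos _ _

theorem Z_pos (h : Wt om) (M : PM V) : 0 < Z om :=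
  sum_pos (fun M _ => W_pos h M) ⟨M, mem_univ M⟩

theorem mu_pos (h : Wt om) (M : PM V) : 0 < mu om M := div_pos (W_pos h M) (Z_pos h M)

theorem mu2_pos (h : Wt om) (p : PM V × PM V) : 0 < mu2 om p := mul_pos (mu_pos h _) (mu_pos h _)

theorem sum_mu (h : Wt om) (M : PM V) : ∑ F : PM V, mu om F = 1 := by
  unfold mu
  rw [← sum_div, div_eq_one_iff_eq (Z_pos h M).ne']
  rfl

theorem sum_mu_le (h : Wt om) : ∑ F : PM V, mu om F ≤ 1 := by
  rcases isEmpty_or_nonempty (PM V) with _ | ⟨⟨M⟩⟩
  · simp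
  · exact (sum_mu h M).le

theorem mu2_swap (p : PM V × PM V) : mu2 om p.swap = mu2 om p := mul_comm _ _

theorem W_xch (p : PM V × PM V) (S : Finset V) (h : Cl p S) :
    W om (xch p S h).1 * W om (xch p S h).2 = W om p.1 * W om p.2 := by
  unfold W
  rw [← prod_mul_distrib, ← prod_mul_distrib]
  refine prod_congr rfl fun x _ => ?_
  rw [xch_fst, xch_snd]
  split_ifs
  · exact mul_comm _ _
  · rfl

theorem mu2_xch (p : PM V × PM V) (S : Finset V) (h : Cl p S) :
    mu2 om (xch p S h) = mu2 om p := by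
  unfold mu2 mu
  rw [div_mul_div_comm, div_mul_div_comm, W_xch]

theorem mu2_sig (v : V) (p : PM V × PM V) : mu2 om (sig v p) = mu2 om p := mu2_xch _ _ _

/-- matchings that agree outside `S` -/
theorem W_congr (M T : PM V) (S : Finset V) (h : ∀ x, x ∉ S → T.f x = M.f x) :
    W om T * ∏ x ∈ S, om x (M.f x) = W om M * ∏ x ∈ S, om x (T.f x) := by
  unfold W
  rw [← prod_mul_prod_compl S, ← prod_mul_prod_compl S (fun x => om x (M.f x)),
    prod_congr rfl fun x (hx : x ∈ Sᶜ) => by rw [h x (mem_compl.1 hx)]]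
  ring

theorem W_sw (h : Wt om) (M : PM V) {b c : V} (hbc : b ≠ c) (h1 : M.f b ≠ c) :
    W om (M.sw b c) * (om (M.f b) b * om (M.f c) c) ^ 2 =
      W om M * (om (M.f b) c * om (M.f c) b) ^ 2 := by
  have h2 : M.f c ≠ b := fun e => h1 (M.eq_comm.1 e)
  have h3 : M.f b ≠ M.f c := fun e => hbc (M.inj e)
  have key := W_congr (om := om) M (M.sw b c) {b, c, M.f b, M.f c} fun x hx => by
    simp only [mem_insert, mem_singleton, not_or] at hx
    exact M.sw_of_ne hx.1 hx.2.1 hx.2.2.1 hx.2.2.2
  have n1 : b ∉ ({c, M.f b, M.f c} : Finset V) := by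
    simp only [mem_insert, mem_singleton, not_or]
    exact ⟨hbc, (M.ne b).symm, h2.symm⟩
  have n2 : c ∉ ({M.f b, M.f c} : Finset V) := by
    simp only [mem_insert, mem_singleton, not_or]
    exact ⟨h1.symm, (M.ne c).symm⟩
  rw [prod_insert n1, prod_insert n2, prod_pair h3, prod_insert n1, prod_insert n2, prod_pair h3,
    M.inv, M.inv, M.sw_left h1, M.sw_right h1, M.sw_partner h1, M.sw_partner' h1,
    h.symm b (M.f b), h.symm c (M.f c), h.symm b (M.f c), h.symm c (M.f b)] at key
  linear_combination key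

theorem mu_sw (h : Wt om) (M : PM V) {b c : V} (hbc : b ≠ c) (h1 : M.f b ≠ c) :
    mu om (M.sw b c) * (om (M.f b) b * om (M.f c) c) ^ 2 =
      mu om M * (om (M.f b) c * om (M.f c) b) ^ 2 := by
  unfold mu
  rw [div_mul_eq_mul_div, W_sw h M hbc h1, div_mul_eq_mul_div]

theorem Dsig_nonneg (h : Wt om) (g : PM V × PM V → ℝ) : 0 ≤ Dsig om g :=
  sum_nonneg fun _ _ => sum_nonneg fun p _ => mul_nonneg (mu2_pos h p).le (sq_nonneg _)

theorem Dsw_nonneg (h : Wt om) (f : PM V → ℝ) : 0 ≤ Dsw om f :=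
  sum_nonneg fun _ _ => sum_nonneg fun _ _ => sum_nonneg fun _ _ =>
    mul_nonneg (le_min (mu_pos h _).le (mu_pos h _).le) (sq_nonneg _)

/-- comparison of sums along an injection -/
theorem sum_le_of_inj {α β : Type*} (s : Finset α) (t : Finset β) (φ : α → β) (G : α → ℝ)
    (G' : β → ℝ) (hφ : ∀ a ∈ s, φ a ∈ t) (hinj : ∀ a ∈ s, ∀ b ∈ s, φ a = φ b → a = b)
    (hG' : ∀ b ∈ t, 0 ≤ G' b) (h : ∀ a ∈ s, G a ≤ G' (φ a)) :
    ∑ a ∈ s, G a ≤ ∑ b ∈ t, G' b := by
  classical
  calc ∑ a ∈ s, G a ≤ ∑ a ∈ s, G' (φ a) := sum_le_sum h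
    _ = ∑ b ∈ s.image φ, G' b := (sum_image hinj).symm
    _ ≤ _ := sum_le_sum_of_subset_of_nonneg (image_subset_iff.2 hφ) fun b hb _ => hG' b hb

end Vale.Agent.P308
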