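import Vale.Agent.P308.Defs
import Vale.Agent.Lib.PTM.Sim
import Vale.Agent.Lib.PolyTime.NatArith2
import Mathlib.Analysis.SpecialFunctions.Log.Base

/-!
From a polynomial time function of the graph, the accuracy parameters in unary and the coins to
the statement about probabilistic Turing machines.
-/

namespace Vale.Agent.P308

open Vale.Agent.Lib.PolyTime Vale.Agent.Lib.PTM

/-- The statement to be proved. -/
def Statement : Prop := ∃ (M : Machine) (d : ℕ), ∀ (n : ℕ) (G : SimpleGraph (Fin n)) (ε δ : ℚ),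
    0 < ε → ε < 1 → 0 < δ → δ < 1 / 2 → ∀ T : ℕ,
      (n + 1 / (ε : ℝ) + Real.logb 2 (1 / (δ : ℝ)) + Real.logb 2 (ε.num * δ.num) + 2) ^ d ≤ T →
      (∀ ρ : Fin T → Bool, (M.run (code G ε δ) (List.ofFn ρ)).l = none) ∧
      (1 - δ : ℝ) * 2 ^ T ≤ Nat.card {ρ : Fin T → Bool // ∃ a : ℕ,
        (M.run (code G ε δ) (List.ofFn ρ)).stk 0 = a.bits ∧
        (1 - ε : ℝ) * numPM G ≤ a ∧ (a : ℝ) ≤ (1 + ε) * numPM G}

/-- Inputs of the machine. -/
abbrev Inp : Type := ℕ × Raw × ℕ × ℕ × ℕ × ℕ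

/-- The input as a tuple. -/
noncomputable def inp {n : ℕ} (G : SimpleGraph (Fin n)) (ε δ : ℚ) : Inp :=
  (n, ⟨adjBits G⟩, ε.num.natAbs, ε.den, δ.num.natAbs, δ.den)

theorem code_eq {n : ℕ} (G : SimpleGraph (Fin n)) (ε δ : ℚ) : code G ε δ = enc (inp G ε δ) := by
  unfold code
  rw [pair_eq, pair_eq, pair_eq, pair_eq, pair_eq]
  rfl

theorem length_adjBits {n : ℕ} (G : SimpleGraph (Fin n)) : (adjBits G).length = n * n := by
  simp [adjBits, List.length_flatMap]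

/-- The accuracy parameter. -/
def eP (x : Inp) : ℕ := x.2.2.2.1 / x.2.2.1 + 1

/-- The confidence parameter. -/
def lP (x : Inp) : ℕ := Nat.size (x.2.2.2.2.2 / x.2.2.2.2.1)

/-- The number of coins. -/
def tP (c : ℕ) (x : Inp) : ℕ := (x.1 + eP x + lP x + 2) ^ c

theorem pt_eP : PT ∅ eP :=
  PT.add (PT.div PT.snd'.snd.snd.fst PT.snd'.snd.fst) (PT.const 1)

theorem pt_lP : PT ∅ lP := PT.natSize (PT.div PT.snd'.snd.snd.snd.snd PT.snd'.snd.snd.snd.fst)

theorem pt_tP (c : ℕ) : PT ∅ (tP c) :=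
  PT.powConst (PT.add (PT.add (PT.add PT.fst' pt_eP) pt_lP) (PT.const 2)) c

theorem size_le {k : ℕ} (hk : 0 < k) : (Nat.size k : ℝ) ≤ Real.logb 2 k + 1 := by
  have h1 : 0 < Nat.size k := Nat.size_pos.2 hk
  have h2 : 2 ^ (Nat.size k - 1) ≤ k := Nat.lt_size.1 (by omega)
  have h3 : ((Nat.size k - 1 : ℕ) : ℝ) ≤ Real.logb 2 k := by
    rw [Real.le_logb_iff_rpow_le one_lt_two (by exact_mod_cast hk), Real.rpow_natCast]
    exact_mod_cast h2
  rw [Nat.cast_sub h1, Nat.cast_one] at h3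
  linarith

theorem num_cast {q : ℚ} (h : 0 < q) : ((q.num.natAbs : ℕ) : ℝ) = q.num := by
  rw [Nat.cast_natAbs, abs_of_pos (Rat.num_pos.2 h)]

theorem inv_cast {q : ℚ} (h : 0 < q) : 1 / (q : ℝ) = (q.den : ℝ) / (q.num.natAbs : ℕ) := by
  rw [num_cast h, Rat.cast_def, one_div_div]

theorem num_pos {q : ℚ} (h : 0 < q) : 0 < q.num.natAbs :=
  Int.natAbs_pos.2 (Rat.num_pos.2 h).ne'

theorem one_lt_inv {q : ℚ} (h : 0 < q) (h1 : q < 1) : 1 < 1 / (q : ℝ) :=
  one_lt_one_div (by exact_mod_cast h) (by exact_mod_cast h1)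

theorem div_pos' {q : ℚ} (h : 0 < q) (h1 : q < 1) : 0 < q.den / q.num.natAbs := by
  have h2 := one_lt_inv h h1
  rw [inv_cast h, one_lt_div (by exact_mod_cast num_pos h)] at h2
  exact Nat.div_pos (by exact_mod_cast h2.le) (num_pos h)

theorem lt_div_succ {q : ℚ} (h : 0 < q) : 1 / (q : ℝ) < (q.den / q.num.natAbs + 1 : ℕ) := by
  rw [inv_cast h, div_lt_iff₀ (by exact_mod_cast num_pos h)]
  rw [mul_comm]
  exact_mod_cast Nat.lt_mul_div_succ q.den (num_pos h)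

theorem div_le' {q : ℚ} (h : 0 < q) : ((q.den / q.num.natAbs : ℕ) : ℝ) ≤ 1 / (q : ℝ) := by
  rw [inv_cast h]
  exact Nat.cast_div_le

theorem size_den {q : ℚ} (h : 0 < q) : (Nat.size q.den : ℝ) ≤
    Real.logb 2 (1 / (q : ℝ)) + Real.logb 2 (q.num : ℝ) + 1 := by
  have h1 : (0 : ℝ) < (q.num.natAbs : ℕ) := by exact_mod_cast num_pos h
  have h2 : (0 : ℝ) < q.den := by exact_mod_cast q.den_pos
  rw [inv_cast h, Real.logb_div h2.ne' h1.ne', num_cast h, sub_add_cancel]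
  exact size_le q.den_pos

section

variable {n : ℕ} (G : SimpleGraph (Fin n)) {ε δ : ℚ} (h1 : 0 < ε) (h2 : ε < 1) (h3 : 0 < δ)
  (h4 : δ < 1)

include h1 in
theorem eP_ok : 1 / (eP (inp G ε δ) : ℝ) ≤ ε := by
  have h : (0 : ℝ) < ε := by exact_mod_cast h1
  exact (one_div_le h (lt_trans (by positivity) (lt_div_succ h1))).1 (lt_div_succ h1).le

include h3 in
theorem lP_ok : (1 / 2 : ℝ) ^ lP (inp G ε δ) ≤ δ := by
  have h : (0 : ℝ) < δ := by exact_mod_cast h3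
  have h5 : ((δ.den / δ.num.natAbs + 1 : ℕ) : ℝ) ≤ 2 ^ lP (inp G ε δ) := by
    exact_mod_cast Nat.lt_size_self _
  rw [one_div_pow]
  exact (one_div_le h (by positivity)).1 ((lt_div_succ h3).le.trans h5)

include h1 h2 h3 h4

theorem bounds (c c' : ℕ) :
    (((esize (inp G ε δ) + tP c (inp G ε δ) + 2) ^ c' : ℕ) : ℝ) ≤
      (n + 1 / (ε : ℝ) + Real.logb 2 (1 / (δ : ℝ)) + Real.logb 2 (ε.num * δ.num) + 2) ^
        ((2 * c + 5) * c') := by
  have a1 := one_lt_inv h1 h2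
  have a2 : 0 < Real.logb 2 (1 / (δ : ℝ)) := Real.logb_pos one_lt_two (one_lt_inv h3 h4)
  have a3 : (1 : ℝ) ≤ ε.num := by exact_mod_cast Rat.num_pos.2 h1
  have a4 : (1 : ℝ) ≤ δ.num := by exact_mod_cast Rat.num_pos.2 h3
  have a5 := Real.logb_nonneg one_lt_two a3
  have a6 := Real.logb_nonneg one_lt_two a4
  have a7 : (0 : ℝ) ≤ n := Nat.cast_nonneg n
  have a9 : Real.logb 2 (1 / (ε : ℝ)) ≤ 1 / (ε : ℝ) := by
    rw [Real.logb_le_iff_le_rpow one_lt_two (by linarith)]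
    have := one_add_mul_self_le_rpow_one_add (s := 1) (by norm_num) a1.le
    norm_num at this ⊢
    linarith
  rw [Real.logb_mul (by linarith) (by linarith)]
  set μ := n + 1 / (ε : ℝ) + Real.logb 2 (1 / (δ : ℝ)) +
    (Real.logb 2 (ε.num : ℝ) + Real.logb 2 (δ.num : ℝ)) + 2 with hμ
  have a8 : 3 ≤ μ := by linarith
  have b1 : (eP (inp G ε δ) : ℝ) ≤ 1 / (ε : ℝ) + 1 := by
    have := div_le' h1
    rw [eP, Nat.cast_add, Nat.cast_one]
    exact add_le_add_left this 1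
  have b2 : (lP (inp G ε δ) : ℝ) ≤ Real.logb 2 (1 / (δ : ℝ)) + 1 :=
    (size_le (div_pos' h3 h4)).trans (add_le_add_left (Real.logb_le_logb_of_le one_lt_two
      (by exact_mod_cast div_pos' h3 h4) (div_le' h3)) 1)
  have b3 : (tP c (inp G ε δ) : ℝ) ≤ μ ^ (2 * c) := by
    rw [tP, Nat.cast_pow, pow_mul]
    refine pow_le_pow_left₀ (Nat.cast_nonneg _) ?_ _
    push_cast
    change (n : ℝ) + _ + _ + _ ≤ _
    nlinarith
  have b4 : (esize (inp G ε δ) : ℝ) ≤ 4 * μ ^ 2 := by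
    have c1 : (Nat.size n : ℝ) ≤ n := by exact_mod_cast (esize_nat n).ge.trans (esize_nat_le_self n)
    have c2 := size_le (num_pos h1)
    have c3 := size_le (num_pos h3)
    have c4 := size_den h1
    have c5 := size_den h3
    rw [num_cast h1] at c2
    rw [num_cast h3] at c3
    simp only [inp, esize_pair, esize_nat, esize_raw, length_adjBits]
    push_cast
    have c6 : (n : ℝ) ≤ μ := by linarith
    have c7 : (n : ℝ) * n ≤ μ ^ 2 := by nlinarith
    have c8 : 3 * μ ≤ μ ^ 2 := by nlinarith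
    linarith
  generalize tP c (inp G ε δ) = t at b3 ⊢
  generalize esize (inp G ε δ) = L at b4 ⊢
  clear_value μ
  rw [pow_mul]
  push_cast
  refine pow_le_pow_left₀ (by positivity) ?_ c'
  have d1 : (1 : ℝ) ≤ μ ^ (2 * c) := one_le_pow₀ (by linarith)
  have d2 : (9 : ℝ) ≤ μ ^ 2 := by nlinarith
  have d3 : (27 : ℝ) ≤ μ ^ 3 := by nlinarith
  have d4 : μ ^ (2 * c + 5) = μ ^ (2 * c) * μ ^ 2 * μ ^ 3 := by ring
  have d5 : μ ^ 2 ≤ μ ^ (2 * c) * μ ^ 2 := le_mul_of_one_le_left (by positivity) d1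
  have d6 : μ ^ (2 * c) ≤ μ ^ (2 * c) * μ ^ 2 := le_mul_of_one_le_right (by positivity) (by linarith)
  rw [d4]
  nlinarith

end

/-- What the algorithm sees: the number of vertices, the adjacency matrix as one list (entry
`i * n + j`), the accuracy `e` and the confidence `l` in unary. -/
abbrev Data : Type := Un × List Bool × Un × Un

/-- **Bridge.** It is enough to give a polynomial time function of the data and the coins. -/
theorem statement_of_PT {f : Data × List Bool → ℕ} (hf : PT ∅ f) {c : ℕ} (hc : 0 < c)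
    (H : ∀ (n : ℕ) (G : SimpleGraph (Fin n)) (e l : ℕ), 0 < e →
      1 - (1 / 2 : ℝ) ^ l ≤ frq ((n + e + l + 2) ^ c) fun ρ =>
        |(f ((⟨n⟩, adjBits G, ⟨e⟩, ⟨l⟩), ρ) : ℝ) - numPM G| ≤ numPM G / e) : Statement := by
  have hun : ∀ {g : Inp → ℕ}, PT ∅ g →
      PT ∅ fun s : Inp × List Bool => Un.mk (min (g s.1) s.2.length) := fun hg =>
    PT.mkUn (PT.min (hg.comp PT.fst') (PT.length PT.snd'))
      ((PBd.length (A := ∅) PT.snd').mono fun _ => min_le_right _ _)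
  have hF : PT ∅ fun s : Inp × List Bool => f ((Un.mk (min s.1.1 s.2.length), s.1.2.1.w,
      Un.mk (min (eP s.1) s.2.length), Un.mk (min (lP s.1) s.2.length)), s.2) :=
    hf.comp (((hun PT.fst').pair ((PT.listOfRaw PT.fst'.snd.fst).pair
      ((hun pt_eP).pair (hun pt_lP)))).pair PT.snd')
  obtain ⟨M, c', HM⟩ := exists_machine (pt_tP c) hF
  refine ⟨M, (2 * c + 5) * c', fun n G ε δ h1 h2 h3 h4 T hT => ?_⟩
  have h4' : δ < 1 := h4.trans (by norm_num)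
  have b3 := Nat.cast_le.1 ((bounds G h1 h2 h3 h4' c c').trans hT)
  obtain ⟨h5, h6⟩ := HM (inp G ε δ) T b3
  rw [code_eq]
  refine ⟨h5, ?_⟩
  rw [frq_eq T fun ρ => ∃ a : ℕ, (M.run (enc (inp G ε δ)) ρ).stk 0 = a.bits ∧
      (1 - ε : ℝ) * numPM G ≤ a ∧ (a : ℝ) ≤ (1 + ε) * numPM G,
    h6 fun w => ∃ a : ℕ, w = a.bits ∧ (1 - ε : ℝ) * numPM G ≤ a ∧ (a : ℝ) ≤ (1 + ε) * numPM G]
  refine mul_le_mul_of_nonneg_right (le_trans ?_ ((H n G (eP (inp G ε δ)) (lP (inp G ε δ))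
    (Nat.succ_pos _)).trans (frq_mono fun ρ hρ h => ?_))) (by positivity)
  · have := lP_ok G (ε := ε) h3
    linarith
  · have h7 : n + eP (inp G ε δ) + lP (inp G ε δ) + 2 ≤ ρ.length :=
      hρ ▸ Nat.le_self_pow hc.ne' _
    have h8 := mul_le_mul_of_nonneg_left (eP_ok G (δ := δ) h1) (Nat.cast_nonneg (numPM G))
    rw [mul_one_div] at h8
    rw [abs_le] at h
    refine ⟨_, rfl, ?_⟩
    dsimp only
    rw [min_eq_left (show (inp G ε δ).1 ≤ _ by change n ≤ _; omega), min_eq_left (by omega),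
      min_eq_left (by omega)]
    change _ ≤ ((f ((⟨n⟩, adjBits G, _, _), ρ) : ℕ) : ℝ) ∧
      ((f ((⟨n⟩, adjBits G, _, _), ρ) : ℕ) : ℝ) ≤ _
    exact ⟨by linarith [h.1], by linarith [h.2]⟩

end Vale.Agent.P308
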