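import Vale.Agent.P308.ADefs

/-!
The laws of the coin driven chain: two body step, population step, stage, thread.
-/

namespace Vale.Agent.P308

open Finset Vale.Agent.Lib.PTM Vale.Agent.Lib.PolyTime

namespace CL

theorem KK_app {V : Type} [Fintype V] [DecidableEq V] (om : V → V → ℝ) (ρ : ℝ)
    (p : PM V × PM V) (g : PM V × PM V → ℝ) :
    ∑ q, KK om ρ p q * g q = g p + ρ / 4 * ∑ u, (g (sig u p) - g p) +
      ρ ^ 2 / 4 * ∑ b, ∑ c, acc om p.1 b c * (g (sw1 b c p) - g p) := by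
  have h1 : ∑ q, (∑ u, if q = sig u p then (1 : ℝ) else 0) * g q = ∑ u, g (sig u p) := by
    simp only [sum_mul, ite_mul, one_mul, zero_mul]
    rw [sum_comm]
    simp
  have h2 : ∑ q, (∑ b, ∑ c, if q = sw1 b c p then acc om p.1 b c else 0) * g q =
      ∑ b, ∑ c, acc om p.1 b c * g (sw1 b c p) := by
    simp only [sum_mul, ite_mul, zero_mul]
    rw [sum_comm]
    refine sum_congr rfl fun b _ => ?_
    rw [sum_comm]
    simp
  simp only [KK, add_mul, sum_add_distrib, mul_assoc, ← mul_sum, h1, h2, ite_mul, zero_mul,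
    sum_ite_eq', mem_univ, if_true, mul_sub, sum_sub_distrib, ← sum_mul, sum_const, card_univ,
    nsmul_eq_mul]
  ring

theorem sum_range_fin {v K : ℕ} (h : v ≤ K) (F : ℕ → ℝ) (hF : ∀ x, v ≤ x → F x = 0) :
    ∑ x ∈ range K, F x = ∑ u : Fin v, F u := by
  rw [Fin.sum_univ_eq_sum_range F v]
  symm
  refine sum_subset (range_mono h) fun x _ hx => hF x ?_
  simpa using hx

variable {v : ℕ}

theorem W_omc (q : ℝ) (c : Fin v → Fin v → ℕ) (M : PM (Fin v)) :
    W (omc q c) M = q ^ cost c M := by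
  simp only [W, omc, cost, prod_pow_eq_pow_sum]

theorem acc_omc {q : ℝ} (h0 : 0 < q) (h1 : q ≤ 1) (c : Fin v → Fin v → ℕ) (M : PM (Fin v))
    (x y : Fin v) : acc (omc q c) M x y = q ^ (cost c (M.sw x y) - cost c M) := by
  rw [acc, W_omc, W_omc]
  rcases le_total (cost c (M.sw x y)) (cost c M) with h | h
  · rw [Nat.sub_eq_zero_of_le h, pow_zero, min_eq_left]
    rw [one_le_div (pow_pos h0 _)]
    exact pow_le_pow_of_le_one h0.le h1 h
  · rw [pow_sub₀ _ h0.ne' h, ← div_eq_mul_inv, min_eq_right]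
    rw [div_le_one (pow_pos h0 _)]
    exact pow_le_pow_of_le_one h0.le h1 h

theorem cost_le {C : ℕ} {c : Fin v → Fin v → ℕ} (hc : ∀ x y, c x y ≤ C) (M : PM (Fin v)) :
    cost c M ≤ v * C := by
  calc cost c M ≤ ∑ _x : Fin v, C := sum_le_sum fun x _ => hc _ _
    _ = v * C := by simp

theorem mv2_three {b C m : ℕ} {c : Fin v → Fin v → ℕ} (hc : ∀ x y, c x y ≤ C)
    (hm : b * (v * C) ≤ m) (p : PM (Fin v) × PM (Fin v)) (x y : ℕ)
    (g : PM (Fin v) × PM (Fin v) → ℝ) :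
    Ex m (fun ρ => g (mv2 b c p 3 x y ρ)) = g p +
      (((2 : ℝ) ^ b - 1) / 2 ^ b) ^ (cost c (swN x y p.1) - cost c p.1) *
        (g (swN x y p.1, p.2) - g p) := by
  have h1 : cost c (swN x y p.1) - cost c p.1 ≤ v * C := (Nat.sub_le _ _).trans (cost_le hc _)
  have h2 : ∀ ρ, g (mv2 b c p 3 x y ρ) =
      if val (ρ.take (b * (cost c (swN x y p.1) - cost c p.1))) <
        (2 ^ b - 1) ^ (cost c (swN x y p.1) - cost c p.1) then g (swN x y p.1, p.2) else g p := by
    intro ρ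
    simp only [mv2, show ¬ (3 = 2) by decide, if_false, true_and]
    split_ifs <;> rfl
  simp only [h2]
  generalize cost c (swN x y p.1) - cost c p.1 = d at h1
  rw [Ex_lt ((Nat.mul_le_mul_left b h1).trans hm)
    (by rw [pow_mul]; exact Nat.pow_le_pow_left (Nat.sub_le _ _) d)]
  rw [Nat.cast_pow, Nat.cast_sub Nat.one_le_two_pow, pow_mul, div_pow]
  push_cast
  rfl

end CL

open CL

variable {v : ℕ}

/-- the law of the two body step -/
theorem two_law {k b C m D : ℕ} (hk : v ≤ 2 ^ k) (hb : 0 < b) (hD : D = 2 ^ b)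
    {c : Fin v → Fin v → ℕ} (hc : ∀ x y, c x y ≤ C) (hm : 2 + 2 * k + b * (v * C) ≤ m)
    (p : PM (Fin v) × PM (Fin v)) (g : PM (Fin v) × PM (Fin v) → ℝ) :
    Ex m (fun ρ => g (twoA k b c p ρ)) =
      ∑ q, KK (omc (((D : ℝ) - 1) / D) c) (1 / 2 ^ k) p q * g q := by
  have hq : ((D : ℝ) - 1) / D = ((2 : ℝ) ^ b - 1) / 2 ^ b := by rw [hD]; push_cast; rfl
  have h2b : (1 : ℝ) < 2 ^ b := one_lt_pow₀ one_lt_two hb.ne'
  have q0 : 0 < ((2 : ℝ) ^ b - 1) / 2 ^ b := div_pos (by linarith) (by linarith)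
  have q1 : ((2 : ℝ) ^ b - 1) / 2 ^ b ≤ 1 := by rw [div_le_one (by linarith)]; linarith
  rw [KK_app, hq]
  have e1 : ∀ ty : ℕ, Ex (m - 2) (fun ρ => g (mv2 b c p ty (val (ρ.take k))
      (val ((ρ.drop k).take k)) ((ρ.drop k).drop k))) =
      (∑ x ∈ range (2 ^ k), (∑ y ∈ range (2 ^ k),
        Ex (m - 2 - k - k) fun ρ => g (mv2 b c p ty x y ρ)) / 2 ^ k) / 2 ^ k := by
    intro ty
    rw [Ex_read (show k ≤ m - 2 by omega)
      fun x ρ => g (mv2 b c p ty x (val (ρ.take k)) (ρ.drop k))]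
    congr 1
    refine sum_congr rfl fun x _ => ?_
    exact Ex_read (show k ≤ m - 2 - k by omega) fun y ρ => g (mv2 b c p ty x y ρ)
  unfold twoA
  rw [Ex_read (show 2 ≤ m by omega) fun ty ρ => g (mv2 b c p ty (val (ρ.take k))
      (val ((ρ.drop k).take k)) ((ρ.drop k).drop k))]
  simp only [e1]
  rw [show (2 : ℕ) ^ 2 = 0 + 1 + 1 + 1 + 1 by norm_num, sum_range_succ, sum_range_succ,
    sum_range_succ, sum_range_succ, sum_range_zero]
  have hK : (0 : ℝ) < 2 ^ k := by positivity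
  have m0 : ∀ x y ρ, mv2 b c p 0 x y ρ = p := fun x y ρ => by simp [mv2]
  have m1 : ∀ x y ρ, mv2 b c p (0 + 1) x y ρ = p := fun x y ρ => by simp [mv2]
  have m2 : ∀ x y ρ, mv2 b c p (0 + 1 + 1) x y ρ = sigN x p := fun x y ρ => by simp [mv2]
  have m3 : ∀ x y, Ex (m - 2 - k - k) (fun ρ => g (mv2 b c p (0 + 1 + 1 + 1) x y ρ)) = _ :=
    fun x y => mv2_three hc (by omega) p x y g
  simp only [m0, m1, m2, m3, Ex_const]
  have s2 : ∑ x ∈ range (2 ^ k), g (sigN x p) = 2 ^ k * g p + ∑ u, (g (sig u p) - g p) := by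
    have := sum_range_fin hk (fun x => g (sigN x p) - g p) fun x hx => by
      simp [sigN, not_lt.2 hx]
    rw [sum_sub_distrib] at this
    simp only [sum_const, card_range, nsmul_eq_mul, Nat.cast_pow, Nat.cast_ofNat] at this
    simp only [sigN, Fin.is_lt, dif_pos, Fin.eta] at this ⊢
    linarith
  have s3 : ∑ x ∈ range (2 ^ k), ∑ y ∈ range (2 ^ k),
      (((2 : ℝ) ^ b - 1) / 2 ^ b) ^ (cost c (swN x y p.1) - cost c p.1) *
        (g (swN x y p.1, p.2) - g p) =
      ∑ x, ∑ y, acc (omc (((2 : ℝ) ^ b - 1) / 2 ^ b) c) p.1 x y * (g (sw1 x y p) - g p) := by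
    rw [sum_range_fin hk _ fun x hx => sum_eq_zero fun y _ => by simp [swN, not_lt.2 hx]]
    refine sum_congr rfl fun x _ => ?_
    rw [sum_range_fin hk _ fun y hy => by simp [swN, not_lt.2 hy]]
    refine sum_congr rfl fun y _ => ?_
    rw [acc_omc q0 q1]
    simp only [swN, Fin.is_lt, and_self, dif_pos, Fin.eta]
    rfl
  simp only [sum_add_distrib, sum_const, card_range, nsmul_eq_mul, Nat.cast_pow, Nat.cast_ofNat,
    ← sum_div, ← mul_sum, s2, s3]
  field_simp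
  ring

/-- the law of one step of the population -/
theorem step_law {a k b C m D : ℕ} (hk : v ≤ 2 ^ k) (hb : 0 < b) (hD : D = 2 ^ b)
    {c : Fin v → Fin v → ℕ} (hc : ∀ x y, c x y ≤ C) (hm : 2 * a + 2 + 2 * k + b * (v * C) ≤ m)
    {N : ℕ} (hN : N = 2 ^ a) (G : (Fin N → PM (Fin v)) → ℝ) (X : Fin N → PM (Fin v)) :
    Ex m (fun ρ => G (stepA a k b c X ρ)) =
      PP (KK (omc (((D : ℝ) - 1) / D) c) (1 / 2 ^ k)) N G X := by
  unfold stepA PP
  rw [Ex_read (show a ≤ m by omega) fun i ρ => G (mvN k b c X i (val (ρ.take a)) (ρ.drop a))]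
  have e1 : ∀ i : ℕ, Ex (m - a) (fun ρ => G (mvN k b c X i (val (ρ.take a)) (ρ.drop a))) =
      (∑ j ∈ range (2 ^ a), Ex (m - a - a) fun ρ => G (mvN k b c X i j ρ)) / 2 ^ a :=
    fun i => Ex_read (show a ≤ m - a by omega) fun j ρ => G (mvN k b c X i j ρ)
  simp only [e1]
  rw [← sum_div, div_div, ← hN, ← Fin.sum_univ_eq_sum_range
    (fun i => ∑ j ∈ range N, Ex (m - a - a) fun ρ => G (mvN k b c X i j ρ))]
  have e2 : (2 : ℝ) ^ a * 2 ^ a = (N : ℝ) ^ 2 := by rw [hN]; push_cast; ring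
  rw [e2]
  congr 1
  refine sum_congr rfl fun i _ => ?_
  rw [← Fin.sum_univ_eq_sum_range (fun j => Ex (m - a - a) fun ρ => G (mvN k b c X i j ρ))]
  refine sum_congr rfl fun j _ => ?_
  split_ifs with hij
  · have : ∀ ρ, mvN k b c X i j ρ = X := fun ρ => by simp [mvN, hij]
    simp only [this, Ex_const]
  · have hij' : (i : ℕ) ≠ j := fun e => hij (Fin.ext e)
    have : ∀ ρ, mvN k b c X i j ρ = Function.update (Function.update X i
        (twoA k b c (X i, X j) ρ).1) j (twoA k b c (X i, X j) ρ).2 := fun ρ => by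
      rw [mvN, dif_pos ⟨i.2, j.2, hij'⟩]
    simp only [this]
    exact two_law hk hb hD hc (by omega) (X i, X j)
      fun q => G (Function.update (Function.update X i q.1) j q.2)

/-- the law of a stage -/
theorem stage_law {a k b C t B m D : ℕ} (hk : v ≤ 2 ^ k) (hb : 0 < b) (hD : D = 2 ^ b)
    {c : Fin v → Fin v → ℕ} (hc : ∀ x y, c x y ≤ C) (hB : 2 * a + 2 + 2 * k + b * (v * C) ≤ B)
    (hm : t * B ≤ m) {N : ℕ} (hN : N = 2 ^ a) (G : (Fin N → PM (Fin v)) → ℝ)
    (X : Fin N → PM (Fin v)) :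
    Ex m (fun ρ => G (stageA a k b t B c X ρ)) =
      (PP (KK (omc (((D : ℝ) - 1) / D) c) (1 / 2 ^ k)) N)^[t] G X := by
  unfold stageA
  rw [Ex_runL B _ G _ X (by simpa using hm)]
  have e : ∀ G : (Fin N → PM (Fin v)) → ℝ, op B (stepA a k b c) G =
      PP (KK (omc (((D : ℝ) - 1) / D) c) (1 / 2 ^ k)) N G := fun G =>
    funext fun X => step_law hk hb hD hc hB hN G X
  simp only [e]
  have e2 : ∀ (f : ((Fin N → PM (Fin v)) → ℝ) → (Fin N → PM (Fin v)) → ℝ) (l : List ℕ),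
      l.foldr (fun _ g => f g) G = f^[l.length] G := by
    intro f l
    induction l with
    | nil => rfl
    | cons x l ih => rw [List.foldr_cons, ih, List.length_cons, Function.iterate_succ_apply']
  rw [e2, List.length_range]

/-- the law of a thread -/
theorem thr_law {n K a k b C t B m D : ℕ} (hk : 2 * n ≤ 2 ^ k) (hb : 0 < b) (hD : D = 2 ^ b)
    {hist : List (Fin (2 * n) → Fin (2 * n) → ℕ)} (hc : ∀ c ∈ hist, ∀ x y, c x y ≤ C)
    (hB : 2 * a + 2 + 2 * k + b * (2 * n * C) ≤ B) {N : ℕ} (hN : N = 2 ^ a)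
    (hm : N * (n * K) + hist.length * (t * B) ≤ m) (G : (Fin N → PM (Fin (2 * n))) → ℝ) :
    Ex m (fun ρ => G (thrA n K N a k b t B hist ρ)) =
      Ex (N * (n * K)) fun ρ =>
        ops (fun c => KK (omc (((D : ℝ) - 1) / D) c) (1 / 2 ^ k)) N t hist G (popA n K N ρ) := by
  unfold thrA
  rw [Ex_split' (show N * (n * K) ≤ m by omega)
    fun x y => G (runL (t * B) (stageA a k b t B) hist (popA n K N x) y)]
  refine Ex_congr fun ρ _ => ?_
  rw [Ex_runL (t * B) _ G hist _ (by omega)]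
  refine congrFun ?_ _
  unfold ops
  clear hm
  induction hist with
  | nil => rfl
  | cons c l ih =>
    rw [List.foldr_cons, List.foldr_cons, ih fun c' h' => hc c' (List.mem_cons_of_mem _ h')]
    exact funext fun X => stage_law hk hb hD (hc c List.mem_cons_self) hB le_rfl hN _ X

end Vale.Agent.P308
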