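import Vale.Agent.P308.ADefs

/-!
Independent blocks of coins, a Chernoff bound, and the accuracy of the counts.
-/

namespace Vale.Agent.P308

open Finset Vale.Agent.Lib.PTM Vale.Agent.Lib.PolyTime

theorem blk_zero_eq (B : ℕ) (ρ : List Bool) : blk B ρ 0 = ρ.take B := by simp [blk]

theorem blk_succ_eq (B : ℕ) (ρ : List Bool) (i : ℕ) : blk B ρ (i + 1) = blk B (ρ.drop B) i := by
  rw [blk, blk, List.drop_drop, show B + i * B = (i + 1) * B by ring]

theorem Ex_blk_prod (m B : ℕ) (G : List Bool → ℝ) :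
    Ex (m * B) (fun ρ => ∏ i ∈ range m, G (blk B ρ i)) = Ex B G ^ m := by
  induction m with
  | zero => simp [Ex]
  | succ m ih =>
    simp only [prod_range_succ', blk_succ_eq, blk_zero_eq]
    rw [show (m + 1) * B = B + m * B by ring,
      Ex_split B (m * B) fun x y => (∏ i ∈ range m, G (blk B y i)) * G x]
    simp only [Ex_mul', ih]
    rw [Ex_mul, pow_succ]

theorem chernoff_one (m B : ℕ) (Y : List Bool → ℝ) (hY : ∀ ρ, |Y ρ| ≤ 1) (h0 : Ex B Y = 0) {s : ℝ}
    (hs0 : 0 ≤ s) (hs1 : s ≤ 1) :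
    Ex (m * B) (fun ρ => ind (m * s < ∑ i ∈ range m, Y (blk B ρ i))) ≤
      Real.exp (-(m * s ^ 2 / 4)) := by
  have h1 : Ex B (fun ρ => Real.exp (s / 2 * Y ρ)) ≤ Real.exp (s ^ 2 / 4) := by
    have h2 : Ex B (fun ρ => Real.exp (s / 2 * Y ρ)) ≤
        Ex B fun ρ => (1 + s ^ 2 / 4) + s / 2 * Y ρ := by
      refine Ex_mono fun ρ _ => ?_
      have h3 : |s / 2 * Y ρ| ≤ s / 2 := by
        rw [abs_mul, abs_of_nonneg (by linarith : 0 ≤ s / 2)]
        exact mul_le_of_le_one_right (by linarith) (hY ρ)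
      have h4 := Real.abs_exp_sub_one_sub_id_le (h3.trans (by linarith))
      have h5 : (s / 2 * Y ρ) ^ 2 ≤ (s / 2) ^ 2 := by
        rw [← sq_abs]
        exact pow_le_pow_left₀ (abs_nonneg _) h3 2
      have h6 := (abs_le.1 h4).2
      nlinarith
    rw [Ex_add, Ex_const, Ex_mul, h0] at h2
    have := Real.add_one_le_exp (s ^ 2 / 4)
    linarith
  have h7 : Ex (m * B) (fun ρ => ind (m * s < ∑ i ∈ range m, Y (blk B ρ i))) ≤
      Ex (m * B) fun ρ => Real.exp (-(s / 2 * (m * s))) *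
        ∏ i ∈ range m, Real.exp (s / 2 * Y (blk B ρ i)) := by
    refine Ex_mono fun ρ _ => ?_
    rw [← Real.exp_sum, ← Real.exp_add, ← mul_sum]
    by_cases h : m * s < ∑ i ∈ range m, Y (blk B ρ i)
    · rw [ind_of h]
      refine Real.one_le_exp ?_
      have := mul_le_mul_of_nonneg_left h.le (by linarith : 0 ≤ s / 2)
      linarith
    · rw [ind_of_not h]
      exact (Real.exp_pos _).le
  rw [Ex_mul, Ex_blk_prod m B fun ρ => Real.exp (s / 2 * Y ρ)] at h7
  refine h7.trans ?_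
  have h8 := pow_le_pow_left₀ (Ex_nonneg fun ρ => (Real.exp_pos (s / 2 * Y ρ)).le) h1 m
  refine (mul_le_mul_of_nonneg_left h8 (Real.exp_pos _).le).trans (le_of_eq ?_)
  rw [← Real.exp_nat_mul, ← Real.exp_add]
  congr 1
  ring

theorem chernoff (m B : ℕ) (X : List Bool → ℝ) (hX0 : ∀ ρ, 0 ≤ X ρ) (hX1 : ∀ ρ, X ρ ≤ 1) {s : ℝ}
    (hs0 : 0 ≤ s) (hs1 : s ≤ 1) :
    Ex (m * B) (fun ρ => ind (m * s < |∑ i ∈ range m, X (blk B ρ i) - m * Ex B X|)) ≤
      2 * Real.exp (-(m * s ^ 2 / 4)) := by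
  have m0 : 0 ≤ Ex B X := Ex_nonneg hX0
  have m1 : Ex B X ≤ 1 := Ex_le hX1
  have a1 := chernoff_one m B (fun ρ => X ρ - Ex B X)
    (fun ρ => abs_le.2 ⟨by linarith [hX0 ρ], by linarith [hX1 ρ]⟩)
    (by rw [Ex_sub, Ex_const, sub_self]) hs0 hs1
  have a2 := chernoff_one m B (fun ρ => Ex B X - X ρ)
    (fun ρ => abs_le.2 ⟨by linarith [hX1 ρ], by linarith [hX0 ρ]⟩)
    (by rw [Ex_sub, Ex_const, sub_self]) hs0 hs1
  refine le_trans ?_ ((add_le_add a1 a2).trans (le_of_eq (two_mul _).symm))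
  rw [← Ex_add]
  refine Ex_mono fun ρ _ => ?_
  simp only [sum_sub_distrib, sum_const, card_range, nsmul_eq_mul]
  by_cases h : m * s < |∑ i ∈ range m, X (blk B ρ i) - m * Ex B X|
  · rw [ind_of h]
    rcases lt_abs.1 h with h' | h'
    · rw [ind_of h']
      linarith [ind_nonneg (m * s < m * Ex B X - ∑ i ∈ range m, X (blk B ρ i))]
    · rw [neg_sub] at h'
      rw [ind_of h']
      linarith [ind_nonneg (m * s < ∑ i ∈ range m, X (blk B ρ i) - m * Ex B X)]
  · rw [ind_of_not h]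
    exact add_nonneg (ind_nonneg _) (ind_nonneg _)

theorem accu_law {v : ℕ} (P : AP) (hm : 0 < P.m) (om : Fin v → Fin v → ℝ)
    (S : List Bool → PM (Fin v)) {τ : ℝ} (hτ0 : 0 ≤ τ) (hτ1 : τ ≤ 1) (B : ℕ)
    (hS : ∀ x y, x ≠ y → |Ex B (fun ρ => if (S ρ).f x = y then 1 else 0) - xm om x y| ≤ τ / 2) :
    1 - 2 * v ^ 2 * Real.exp (-(P.m * τ ^ 2 / 16)) ≤
      Ex (P.m * B) fun ρ => ind (Accu P τ om (cntA P.m fun i => S (blk B ρ i))) := by
  set X : Fin v × Fin v → List Bool → ℝ := fun q ρ => if (S ρ).f q.1 = q.2 then 1 else 0 with hX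
  have hm' : (0 : ℝ) < P.m := by exact_mod_cast hm
  have h1 : Ex (P.m * B) (fun ρ => 1 - ∑ q : Fin v × Fin v,
      ind (P.m * (τ / 2) < |∑ i ∈ range P.m, X q (blk B ρ i) - P.m * Ex B (X q)|)) ≤
      Ex (P.m * B) fun ρ => ind (Accu P τ om (cntA P.m fun i => S (blk B ρ i))) := by
    refine Ex_mono fun ρ _ => ?_
    by_cases h : ∃ q : Fin v × Fin v,
        P.m * (τ / 2) < |∑ i ∈ range P.m, X q (blk B ρ i) - P.m * Ex B (X q)|
    · obtain ⟨q, hq⟩ := h
      have := single_le_sum (f := fun q : Fin v × Fin v =>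
        ind (P.m * (τ / 2) < |∑ i ∈ range P.m, X q (blk B ρ i) - P.m * Ex B (X q)|))
        (fun _ _ => ind_nonneg _) (mem_univ q)
      rw [ind_of hq] at this
      linarith [ind_nonneg (Accu P τ om (cntA P.m fun i => S (blk B ρ i)))]
    · have hA : Accu P τ om (cntA P.m fun i => S (blk B ρ i)) := by
        refine ⟨fun a b => ?_, fun a b => ?_, fun a b hab => ?_⟩
        · exact sum_congr rfl fun i _ => if_congr (PM.eq_comm _) rfl rfl
        · refine (sum_le_card_nsmul _ _ 1 fun i _ => ?_).trans (by simp)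
          split_ifs <;> omega
        · have h2 : |∑ i ∈ range P.m, X (a, b) (blk B ρ i) - P.m * Ex B (X (a, b))| ≤
              P.m * (τ / 2) := not_lt.1 fun hh => h ⟨(a, b), hh⟩
          have h3 : ((cntA P.m (fun i => S (blk B ρ i)) a b : ℕ) : ℝ) =
              ∑ i ∈ range P.m, X (a, b) (blk B ρ i) := by
            simp only [cntA, hX]
            push_cast
            rfl
          have h4 : |Ex B (X (a, b)) - xm om a b| ≤ τ / 2 := hS a b hab
          have h5 : |(∑ i ∈ range P.m, X (a, b) (blk B ρ i)) / P.m - Ex B (X (a, b))| ≤ τ / 2 := by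
            rw [div_sub' hm'.ne', abs_div, abs_of_pos hm', div_le_iff₀' hm']
            exact h2
          rw [h3]
          have := abs_sub_le ((∑ i ∈ range P.m, X (a, b) (blk B ρ i)) / P.m) (Ex B (X (a, b)))
            (xm om a b)
          linarith
      rw [ind_of hA]
      exact sub_le_self _ (sum_nonneg fun _ _ => ind_nonneg _)
  refine le_trans ?_ h1
  rw [Ex_sub, Ex_const, Ex_sum]
  have h6 : ∀ q : Fin v × Fin v, Ex (P.m * B) (fun ρ =>
      ind (P.m * (τ / 2) < |∑ i ∈ range P.m, X q (blk B ρ i) - P.m * Ex B (X q)|)) ≤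
      2 * Real.exp (-(P.m * τ ^ 2 / 16)) := by
    intro q
    have := chernoff P.m B (X q) (fun ρ => by simp only [hX]; split_ifs <;> norm_num)
      (fun ρ => by simp only [hX]; split_ifs <;> norm_num) (s := τ / 2) (by linarith) (by linarith)
    rwa [show (P.m : ℝ) * (τ / 2) ^ 2 / 4 = P.m * τ ^ 2 / 16 by ring] at this
  have h7 := sum_le_card_nsmul univ _ _ fun q _ => h6 q
  rw [card_univ, Fintype.card_prod, Fintype.card_fin, nsmul_eq_mul] at h7
  push_cast at h7
  nlinarith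

end Vale.Agent.P308
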