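import Vale.Agent.P308.Prog

/-!
The program on lists follows the abstract algorithm: matchings and populations.
-/

namespace Vale.Agent.P308

open Finset Vale.Agent.Lib.PTM Vale.Agent.Lib.PolyTime

variable {v : ℕ}

theorem mk_eq {α : Type} (v : ℕ) (g : ℕ → α) : mk v g = List.ofFn fun i : Fin v => g i := by
  unfold mk
  apply List.ext_getElem <;> simp

theorem mk_eq_ofFn {α : Type} {g : ℕ → α} {f : Fin v → α} (h : ∀ i : Fin v, g i = f i) :
    mk v g = List.ofFn f := by
  rw [mk_eq, funext h]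

theorem getD_ofFn {α : Type} (f : Fin v → α) (i : Fin v) (d : α) :
    (List.ofFn f).getD i d = f i := by
  simp [List.getD_eq_getElem?_getD]

theorem getD_ofFn' {α : Type} (f : Fin v → α) {i : ℕ} (h : i < v) (d : α) :
    (List.ofFn f).getD i d = f ⟨i, h⟩ := getD_ofFn f ⟨i, h⟩ d

/-- the code of a matching -/
def encM (M : PM (Fin v)) : List ℕ := List.ofFn fun x => (M.f x : ℕ)

/-- the code of a pair of matchings -/
def encP (p : PM (Fin v) × PM (Fin v)) : List ℕ × List ℕ := (encM p.1, encM p.2)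

/-- the code of a population -/
def encX {N : ℕ} (X : Fin N → PM (Fin v)) : List (List ℕ) := List.ofFn fun i => encM (X i)

/-- the code of a table -/
def encC (c : Fin v → Fin v → ℕ) : List (List ℕ) := List.ofFn fun x => List.ofFn fun y => c x y

theorem getD_encM (M : PM (Fin v)) (x : Fin v) : (encM M).getD x 0 = M.f x := getD_ofFn _ x 0

theorem at2_encC (c : Fin v → Fin v → ℕ) (x y : Fin v) : at2 (encC c) x y = c x y := by
  unfold at2 encC
  rw [getD_ofFn, getD_ofFn]

theorem nrmL_encM (M : PM (Fin v)) : nrmL v (encM M) = encM M :=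
  mk_eq_ofFn fun x => by rw [getD_encM, min_eq_left (M.f x).2.le]

theorem swp_val (x y w : Fin v) : swp x y w = (Equiv.swap x y w : Fin v) := by
  unfold swp
  rw [Equiv.swap_apply_def]
  simp only [Fin.val_inj]
  split_ifs <;> rfl

theorem swL_encM (x y : ℕ) (M : PM (Fin v)) : swL v x y (encM M) = encM (swN x y M) := by
  unfold swL swN
  by_cases h : x < v ∧ y < v
  · rw [if_pos h, dif_pos h]
    refine mk_eq_ofFn fun w => ?_
    rw [PM.sw_f, ← swp_val, ← getD_encM, ← swp_val]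
  · rw [if_neg h, dif_neg h]

theorem orb_spec (p : PM (Fin v) × PM (Fin v)) (x : Fin v) (j : ℕ) :
    ((fun s : List ℕ => (encM p.1).getD ((encM p.2).getD (s.headD 0) 0) 0 :: s)^[j] [x]).headD 0 =
        ((fun y => p.1.f (p.2.f y))^[j] x : Fin v) ∧
      ∀ w : Fin v, (w : ℕ) ∈ (fun s : List ℕ =>
        (encM p.1).getD ((encM p.2).getD (s.headD 0) 0) 0 :: s)^[j] [x] ↔
          ∃ i ≤ j, (fun y => p.1.f (p.2.f y))^[i] x = w := by
  induction j with
  | zero => simp [Fin.val_inj, eq_comm]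
  | succ j ih =>
    rw [Function.iterate_succ_apply', Function.iterate_succ_apply', ih.1, getD_encM, getD_encM]
    refine ⟨rfl, fun w => ?_⟩
    rw [List.mem_cons, ih.2, Fin.val_inj]
    constructor
    · rintro (h | ⟨i, hi, h⟩)
      · exact ⟨j + 1, le_rfl, by rw [Function.iterate_succ_apply', h]⟩
      · exact ⟨i, by omega, h⟩
    · rintro ⟨i, hi, h⟩
      rcases Nat.le_succ_iff.1 hi with hi | rfl
      · exact Or.inr ⟨i, hi, h⟩
      · exact Or.inl (by rw [← h, Function.iterate_succ_apply'])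

theorem mem_cyc_iff (p : PM (Fin v) × PM (Fin v)) (x w : Fin v) :
    w ∈ cyc p x ↔ (∃ i ≤ v, (fun y => p.1.f (p.2.f y))^[i] x = w) ∨
      ∃ i ≤ v, (fun y => p.1.f (p.2.f y))^[i] x = p.2.f w := by
  set φ : Fin v → Fin v := fun y => p.1.f (p.2.f y) with hφ
  have hinj : Function.Injective φ := p.1.inj.comp p.2.inj
  have hper : x ∈ Function.periodicPts φ := hinj.mem_periodicPts x
  have h0 := Function.minimalPeriod_pos_of_mem_periodicPts hper
  have h1 : Function.minimalPeriod φ x ≤ v :=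
    Function.minimalPeriod_le_card.trans (Fintype.card_fin v).le
  have hb : ∀ z, (∃ i ≤ v, φ^[i] x = z) ↔ ∃ i, φ^[i] x = z := fun z =>
    ⟨fun ⟨i, _, h⟩ => ⟨i, h⟩, fun ⟨i, h⟩ => ⟨i % Function.minimalPeriod φ x,
      (Nat.mod_lt _ h0).le.trans h1, by rw [Function.iterate_mod_minimalPeriod_eq, h]⟩⟩
  rw [hb, hb]
  constructor
  · intro hw
    classical
    have hcl : Cl p (univ.filter fun z => (∃ i, φ^[i] x = z) ∨ ∃ i, φ^[i] x = p.2.f z) := by
      intro z hz
      simp only [mem_filter, mem_univ, true_and] at hz ⊢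
      rcases hz with ⟨i, h⟩ | ⟨i, h⟩
      · refine ⟨Or.inr ⟨i + Function.minimalPeriod φ x - 1, ?_⟩, Or.inr ⟨i, by rw [p.2.inv, h]⟩⟩
        apply hinj
        rw [← Function.iterate_succ_apply' φ, show (i + Function.minimalPeriod φ x - 1).succ =
          i + Function.minimalPeriod φ x by omega, Function.iterate_add_minimalPeriod_eq, h, hφ]
        simp only [p.1.inv, p.2.inv]
      · refine ⟨Or.inl ⟨i + 1, ?_⟩, Or.inl ⟨i, h⟩⟩
        rw [Function.iterate_succ_apply', h, hφ]
        simp only [p.2.inv]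
    exact (mem_filter.1 (cyc_subset hcl (mem_filter.2 ⟨mem_univ _, Or.inl ⟨0, rfl⟩⟩) hw)).2
  · have key : ∀ i, φ^[i] x ∈ cyc p x := by
      intro i
      induction i with
      | zero => exact self_mem_cyc p x
      | succ i ih =>
        rw [Function.iterate_succ_apply']
        exact (cl_cyc p x _ (cl_cyc p x _ ih).2).1
    rintro (⟨i, h⟩ | ⟨i, h⟩)
    · exact h ▸ key i
    · have := (cl_cyc p x _ (key i)).2
      rwa [h, p.2.inv] at this

theorem sigL_encP (x : ℕ) (p : PM (Fin v) × PM (Fin v)) :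
    sigL v x (encP p) = encP (sigN x p) := by
  unfold sigL sigN
  by_cases h : x < v
  · rw [if_pos h, dif_pos h]
    have key : ∀ w : Fin v, ((w : ℕ) ∈ orb v (encM p.1) (encM p.2) x ∨
        (p.2.f w : ℕ) ∈ orb v (encM p.1) (encM p.2) x) ↔ w ∈ cyc p ⟨x, h⟩ := fun w => by
      rw [mem_cyc_iff, ← (orb_spec p ⟨x, h⟩ v).2, ← (orb_spec p ⟨x, h⟩ v).2]
      rfl
    refine Prod.ext (mk_eq_ofFn fun w => ?_) (mk_eq_ofFn fun w => ?_)
    · simp only [encP, getD_encM, key, sig_fst]
      split_ifs <;> rfl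
    · simp only [encP, getD_encM, key, sig_snd]
      split_ifs <;> rfl
  · rw [if_neg h, dif_neg h]

theorem costL_enc (c : Fin v → Fin v → ℕ) (M : PM (Fin v)) :
    costL v (encC c) (encM M) = cost c M := by
  unfold costL cost
  rw [mk_eq, List.sum_ofFn]
  exact sum_congr rfl fun x _ => by rw [getD_encM, at2_encC]

theorem cost_le' {c : Fin v → Fin v → ℕ} {C : ℕ} (hc : ∀ x y, c x y ≤ C) (M : PM (Fin v)) :
    cost c M ≤ C * v := by
  unfold cost
  refine (sum_le_card_nsmul _ _ C fun x _ => hc _ _).trans ?_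
  simp [mul_comm]

section

variable {P : Par} {c : Fin (2 * P.n) → Fin (2 * P.n) → ℕ}

theorem twoL_enc (hc : ∀ x y, c x y ≤ 2 * P.T) (p : PM (Fin (2 * P.n)) × PM (Fin (2 * P.n)))
    (ρ : List Bool) : twoL P (encC c) (encP p) ρ = encP (twoA P.k P.b c p ρ) := by
  unfold twoL twoA
  generalize val (ρ.take 2) = ty
  generalize val ((ρ.drop 2).take P.k) = x
  generalize val (((ρ.drop 2).drop P.k).take P.k) = y
  generalize ((ρ.drop 2).drop P.k).drop P.k = ρ'
  have e : dlt P (encC c) (encM p.1) x y = cost c (swN x y p.1) - cost c p.1 := by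
    unfold dlt
    rw [swL_encM, costL_enc, costL_enc, min_eq_left ((Nat.sub_le _ _).trans (cost_le' hc _))]
  unfold mv2L mv2
  rw [sigL_encP, show (encP p).1 = encM p.1 from rfl, e, swL_encM]
  split_ifs <;> rfl

theorem stepL_enc (hc : ∀ x y, c x y ≤ 2 * P.T) (X : Fin P.N → PM (Fin (2 * P.n)))
    (ρ : List Bool) : stepL P (encC c) (encX X) ρ = encX (stepA P.a P.k P.b c X ρ) := by
  unfold stepL stepA
  generalize val (ρ.take P.a) = i
  generalize val ((ρ.drop P.a).take P.a) = j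
  generalize (ρ.drop P.a).drop P.a = ρ'
  unfold mvNL mvN
  by_cases h : i < P.N ∧ j < P.N ∧ i ≠ j
  · rw [if_pos h, dif_pos h]
    have e : ((encX X).getD i [], (encX X).getD j []) = encP (X ⟨i, h.1⟩, X ⟨j, h.2.1⟩) := by
      unfold encX
      rw [getD_ofFn' _ h.1, getD_ofFn' _ h.2.1]
      rfl
    rw [e, twoL_enc hc]
    generalize twoA P.k P.b c (X ⟨i, h.1⟩, X ⟨j, h.2.1⟩) ρ' = q
    refine mk_eq_ofFn fun r => ?_
    rw [encX, getD_ofFn, Function.update_apply, Function.update_apply]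
    simp only [Fin.ext_iff]
    split_ifs <;> exact nrmL_encM _
  · rw [if_neg h, dif_neg h]

theorem stageL_enc (hc : ∀ x y, c x y ≤ 2 * P.T) (X : Fin P.N → PM (Fin (2 * P.n)))
    (ρ : List Bool) :
    stageL P (encC c) (encX X) ρ = encX (stageA P.a P.k P.b P.t P.B c X ρ) := by
  unfold stageL stageA
  rw [← runL_map (φ := id) (ψ := encX) (step' := fun _ : ℕ => stepL P (encC c))
    (fun _ _ s ρ => stepL_enc hc s ρ), List.map_id]

theorem initL_enc (P : Par) (ρ : List Bool) : initL P ρ = encM (initA P.n P.K ρ) := by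
  unfold initL initA
  rw [← runL_map (φ := id) (ψ := encM) (step' := fun j L ρ =>
    nrmL (2 * P.n) (swL (2 * P.n) (2 * j) (val ρ % (2 * j + 1)) L))
    (fun _ _ s ρ => by rw [swL_encM, nrmL_encM]; rfl), List.map_id,
    show mk (2 * P.n) mate = encM (M0 P.n) from mk_eq_ofFn fun _ => rfl]

theorem popL_enc (P : Par) (ρ : List Bool) : popL P ρ = encX (popA P.n P.K P.N ρ) :=
  mk_eq_ofFn fun _ => initL_enc P _

theorem thrL_enc {hist : List (Fin (2 * P.n) → Fin (2 * P.n) → ℕ)}
    (hc : ∀ c ∈ hist, ∀ x y, c x y ≤ 2 * P.T) (ρ : List Bool) :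
    thrL P (hist.map encC) ρ = encX (thrA P.n P.K P.N P.a P.k P.b P.t P.B hist ρ) := by
  unfold thrL thrA
  rw [popL_enc, runL_map fun c h s ρ => stageL_enc (hc c h) s ρ]

theorem cntL_enc (hN : 0 < P.N) {hist : List (Fin (2 * P.n) → Fin (2 * P.n) → ℕ)}
    (hc : ∀ c ∈ hist, ∀ x y, c x y ≤ 2 * P.T) (ρ : List Bool) :
    cntL P (smpL P (hist.map encC) ρ) = encC (cntA P.m fun i =>
      thrA P.n P.K P.N P.a P.k P.b P.t P.B hist (blk P.Bt ρ i) ⟨0, hN⟩) := by
  refine mk_eq_ofFn fun x => mk_eq_ofFn fun y => ?_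
  unfold smpL cntA
  rw [mk, List.map_map]
  refine (show _ = ∑ i ∈ range P.m, _ from rfl).trans (sum_congr rfl fun i _ => ?_)
  simp only [Function.comp, thrL_enc hc, encX, getD_ofFn' _ hN, getD_encM, Fin.val_inj]

end

end Vale.Agent.P308
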