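import Mathlib.Analysis.InnerProductSpace.Basic
import Mathlib.Algebra.QuadraticDiscriminant
import Mathlib.Tactic

/-!
Many body lemma, abstract part: commuting projections `E i`, two body operators `R i j`, and the
decay of one body vectors under the averaged operator.
-/

set_option linter.unusedSectionVars false

namespace Vale.Agent.P308.MB

open Finset
open scoped RealInnerProductSpace

variable {V : Type*} [NormedAddCommGroup V] [InnerProductSpace ℝ V]
variable {ι : Type*} [Fintype ι] [DecidableEq ι]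

/-- symmetric operator -/
def Sy (T : Module.End ℝ V) : Prop := ∀ x y, ⟪T x, y⟫ = ⟪x, T y⟫

theorem Sy.one : Sy (1 : Module.End ℝ V) := fun _ _ => rfl

theorem Sy.add {S T : Module.End ℝ V} (hS : Sy S) (hT : Sy T) : Sy (S + T) := fun x y => by
  simp only [LinearMap.add_apply, inner_add_left, inner_add_right, hS x y, hT x y]

theorem Sy.sub {S T : Module.End ℝ V} (hS : Sy S) (hT : Sy T) : Sy (S - T) := fun x y => by
  simp only [LinearMap.sub_apply, inner_sub_left, inner_sub_right, hS x y, hT x y]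

theorem Sy.smul {S : Module.End ℝ V} (hS : Sy S) (c : ℝ) : Sy (c • S) := fun x y => by
  simp only [LinearMap.smul_apply, real_inner_smul_left, real_inner_smul_right, hS x y]

theorem Sy.mul {S T : Module.End ℝ V} (hS : Sy S) (hT : Sy T) (h : S * T = T * S) :
    Sy (S * T) := fun x y => by
  rw [Module.End.mul_apply, hS, hT, ← Module.End.mul_apply, ← h]

theorem Sy.sum {κ : Type*} (s : Finset κ) {T : κ → Module.End ℝ V} (h : ∀ k ∈ s, Sy (T k)) :
    Sy (∑ k ∈ s, T k) := fun x y => by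
  simp only [LinearMap.sum_apply, sum_inner, inner_sum]
  exact Finset.sum_congr rfl fun k hk => h k hk x y

theorem Sy.pow {S : Module.End ℝ V} (hS : Sy S) : ∀ t : ℕ, Sy (S ^ t)
  | 0 => by rw [pow_zero]; exact Sy.one
  | t + 1 => by
    rw [pow_succ]
    exact (hS.pow t).mul hS (by rw [← pow_succ, ← pow_succ'])

theorem Sy.proj {S : Module.End ℝ V} (hS : Sy S) (h : S * S = S) (x : V) :
    ‖S x‖ ^ 2 = ⟪x, S x⟫ := by
  rw [← real_inner_self_eq_norm_sq, hS, ← Module.End.mul_apply, h]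

/-- Cauchy-Schwarz inequality for a positive symmetric operator -/
theorem Sy.cs {T : Module.End ℝ V} (hT : Sy T) (h0 : ∀ x, 0 ≤ ⟪x, T x⟫) (x y : V) :
    ⟪x, T y⟫ ^ 2 ≤ ⟪x, T x⟫ * ⟪y, T y⟫ := by
  have h : ∀ s : ℝ, 0 ≤ ⟪y, T y⟫ * (s * s) + (2 * ⟪x, T y⟫) * s + ⟪x, T x⟫ := by
    intro s
    have h1 := h0 (x + s • y)
    have h2 : ⟪y, T x⟫ = ⟪x, T y⟫ := by rw [← hT, real_inner_comm]
    simp only [map_add, map_smul, inner_add_left, inner_add_right, real_inner_smul_left,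
      real_inner_smul_right, h2] at h1
    nlinarith
  have := discrim_le_zero h
  rw [discrim] at this
  nlinarith

theorem Sy.le_of {T : Module.End ℝ V} (hT : Sy T) (h0 : ∀ x, 0 ≤ ⟪x, T x⟫) {θ : ℝ} (hθ : 0 ≤ θ)
    {x y : V} (hx : ⟪x, T x⟫ ≤ θ * ‖x‖ ^ 2) (hy : ⟪y, T y⟫ ≤ θ * ‖y‖ ^ 2) :
    ⟪x, T y⟫ ≤ θ * ‖x‖ * ‖y‖ := by
  have h1 := hT.cs h0 x y
  have h2 : ⟪x, T x⟫ * ⟪y, T y⟫ ≤ (θ * ‖x‖ * ‖y‖) ^ 2 := by
    calc ⟪x, T x⟫ * ⟪y, T y⟫ ≤ (θ * ‖x‖ ^ 2) * (θ * ‖y‖ ^ 2) :=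
          mul_le_mul hx hy (h0 y) (by positivity)
      _ = _ := by ring
  exact le_trans (le_abs_self _) (abs_le_of_sq_le_sq (h1.trans h2) (by positivity))

theorem norm_le_of_sq {x : V} {c : ℝ} (hc : 0 ≤ c) (h : ‖x‖ ^ 2 ≤ c * ‖x‖) : ‖x‖ ≤ c := by
  rcases (norm_nonneg x).eq_or_lt with h0 | h0
  · rw [← h0]; exact hc
  · nlinarith

/-- the hypotheses -/
structure Sys (E : ι → Module.End ℝ V) (R : ι → ι → Module.End ℝ V) (γ : ℝ) : Prop where
  Esy : ∀ i, Sy (E i)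
  Eidem : ∀ i, E i * E i = E i
  Ecomm : ∀ i j, E i * E j = E j * E i
  Rsy : ∀ i j, i ≠ j → Sy (R i j)
  Rcomm : ∀ i j k, i ≠ j → k ≠ i → k ≠ j → R i j * E k = E k * R i j
  Rfix : ∀ i j, i ≠ j → R i j * (E i * E j) = E i * E j
  Rpos : ∀ i j, i ≠ j → ∀ x, 0 ≤ ⟪x, R i j x⟫
  Rle : ∀ i j, i ≠ j → ∀ x, ⟪x, R i j x⟫ ≤ ‖x‖ ^ 2
  gap : ∀ i j, i ≠ j → ∀ u v, E j u = u → E i u = 0 → E i v = v → E j v = 0 →
    γ * (‖u‖ ^ 2 + ‖v‖ ^ 2) ≤ ‖u + v‖ ^ 2 - ⟪u + v, R i j (u + v)⟫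

/-- the complementary projection -/
def D (E : ι → Module.End ℝ V) (i : ι) : Module.End ℝ V := 1 - E i

/-- the number operator -/
def Nn (E : ι → Module.End ℝ V) : Module.End ℝ V := ∑ i, D E i

/-- local degree zero -/
def Z0 (E : ι → Module.End ℝ V) (i j : ι) : Module.End ℝ V := E i * E j

/-- local degree one -/
def Z1 (E : ι → Module.End ℝ V) (i j : ι) : Module.End ℝ V := D E i * E j + E i * D E j

/-- local degree two -/
def Z2 (E : ι → Module.End ℝ V) (i j : ι) : Module.End ℝ V := D E i * D E j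

/-- sum over ordered pairs of distinct indices -/
def S2 {M : Type*} [AddCommMonoid M] (f : ι → ι → M) : M := ∑ i, ∑ j ∈ univ.erase i, f i j

/-- the averaged operator -/
noncomputable def P (R : ι → ι → Module.End ℝ V) : Module.End ℝ V :=
  (1 / (Fintype.card ι : ℝ) ^ 2) • ∑ i, ∑ j, if i = j then 1 else R i j

/-- the raising part -/
noncomputable def Ap (E : ι → Module.End ℝ V) (R : ι → ι → Module.End ℝ V) : Module.End ℝ V :=
  (1 / (Fintype.card ι : ℝ) ^ 2) • S2 fun i j => Z2 E i j * R i j * Z1 E i j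

/-- the lowering part -/
noncomputable def Am (E : ι → Module.End ℝ V) (R : ι → ι → Module.End ℝ V) : Module.End ℝ V :=
  (1 / (Fintype.card ι : ℝ) ^ 2) • S2 fun i j => Z1 E i j * R i j * Z2 E i j

/-- the part that keeps the degree -/
noncomputable def A0 (E : ι → Module.End ℝ V) (R : ι → ι → Module.End ℝ V) : Module.End ℝ V :=
  (1 / (Fintype.card ι : ℝ) ^ 2) • ((Fintype.card ι : ℝ) • 1 +
    S2 fun i j => Z0 E i j + Z1 E i j * R i j * Z1 E i j + Z2 E i j * R i j * Z2 E i j)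

theorem S2_congr {M : Type*} [AddCommMonoid M] {f g : ι → ι → M}
    (h : ∀ i j, i ≠ j → f i j = g i j) : S2 f = S2 g :=
  Finset.sum_congr rfl fun i _ => Finset.sum_congr rfl fun j hj =>
    h i j (Finset.ne_of_mem_erase hj).symm

theorem S2_le {f g : ι → ι → ℝ} (h : ∀ i j, i ≠ j → f i j ≤ g i j) : S2 f ≤ S2 g :=
  Finset.sum_le_sum fun i _ => Finset.sum_le_sum fun j hj =>
    h i j (Finset.ne_of_mem_erase hj).symm

theorem S2_add {M : Type*} [AddCommMonoid M] (f g : ι → ι → M) :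
    S2 (fun i j => f i j + g i j) = S2 f + S2 g := by
  simp only [S2, Finset.sum_add_distrib]

theorem S2_apply (f : ι → ι → Module.End ℝ V) (x : V) : S2 f x = S2 fun i j => f i j x := by
  simp only [S2, LinearMap.sum_apply]

theorem inner_S2 (f : ι → ι → V) (x : V) : ⟪x, S2 f⟫ = S2 fun i j => ⟪x, f i j⟫ := by
  simp only [S2, inner_sum]

theorem map_S2 (T : Module.End ℝ V) (f : ι → ι → V) : T (S2 f) = S2 fun i j => T (f i j) := by
  simp only [S2, map_sum]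

theorem smul_S2 (c : ℝ) (f : ι → ι → V) : c • S2 f = S2 fun i j => c • f i j := by
  simp only [S2, Finset.smul_sum]

theorem S2_cs (f g : ι → ι → ℝ) :
    S2 (fun i j => f i j * g i j) ^ 2 ≤ S2 (fun i j => f i j ^ 2) * S2 fun i j => g i j ^ 2 := by
  simp only [S2, Finset.sum_sigma']
  exact Finset.sum_mul_sq_le_sq_mul_sq _ _ _

theorem P_eq (R : ι → ι → Module.End ℝ V) :
    P R = (1 / (Fintype.card ι : ℝ) ^ 2) • ((Fintype.card ι : ℝ) • 1 + S2 R) := by
  unfold P S2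
  congr 1
  have : ∀ i : ι, (∑ j, if i = j then (1 : Module.End ℝ V) else R i j) =
      1 + ∑ j ∈ univ.erase i, R i j := by
    intro i
    rw [← Finset.add_sum_erase _ _ (Finset.mem_univ i), if_pos rfl]
    congr 1
    exact Finset.sum_congr rfl fun j hj => if_neg (Finset.ne_of_mem_erase hj).symm
  simp only [this, Finset.sum_add_distrib, Finset.sum_const, Finset.card_univ,
    Nat.cast_smul_eq_nsmul]

namespace Sys

variable {E : ι → Module.End ℝ V} {R : ι → ι → Module.End ℝ V} {γ : ℝ}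

theorem Dsy (h : Sys E R γ) (i : ι) : Sy (D E i) := Sy.one.sub (h.Esy i)

theorem DE (h : Sys E R γ) (i j : ι) : D E i * E j = E j * D E i := by
  simp only [D, sub_mul, mul_sub, one_mul, mul_one, h.Ecomm i j]

theorem DD (h : Sys E R γ) (i j : ι) : D E i * D E j = D E j * D E i := by
  simp only [D, sub_mul, mul_sub, one_mul, mul_one, h.Ecomm i j]
  abel

theorem Didem (h : Sys E R γ) (i : ι) : D E i * D E i = D E i := by
  simp only [D, sub_mul, mul_sub, one_mul, mul_one, h.Eidem i]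
  abel

theorem Nsy (h : Sys E R γ) : Sy (Nn E) := Sy.sum _ fun i _ => h.Dsy i

theorem Z0sy (h : Sys E R γ) (i j : ι) : Sy (Z0 E i j) := (h.Esy i).mul (h.Esy j) (h.Ecomm i j)

theorem Z1sy (h : Sys E R γ) (i j : ι) : Sy (Z1 E i j) :=
  ((h.Dsy i).mul (h.Esy j) (h.DE i j)).add ((h.Esy i).mul (h.Dsy j) (h.DE j i).symm)

theorem Z2sy (h : Sys E R γ) (i j : ι) : Sy (Z2 E i j) := (h.Dsy i).mul (h.Dsy j) (h.DD i j)

/-- the algebra generated by two commuting idempotents -/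
theorem alg (h : Sys E R γ) (i j : ι) :
    E i * E i = E i ∧ E j * E j = E j ∧ E j * E i = E i * E j ∧ E i * (E i * E j) = E i * E j ∧
      E j * (E i * E j) = E i * E j ∧ E i * E j * E i = E i * E j ∧
      E i * E j * E j = E i * E j ∧ E i * E j * (E i * E j) = E i * E j := by
  have a := h.Eidem i
  have b := h.Eidem j
  have c := (h.Ecomm i j).symm
  have d : E i * (E i * E j) = E i * E j := by rw [← mul_assoc, a]
  have e : E j * (E i * E j) = E i * E j := by rw [← mul_assoc, c, mul_assoc, b]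
  have f : E i * E j * E i = E i * E j := by rw [mul_assoc, c, d]
  have g : E i * E j * E j = E i * E j := by rw [mul_assoc, b]
  exact ⟨a, b, c, d, e, f, g, by rw [mul_assoc, e, d]⟩

theorem Z1_eq (i j : ι) : Z1 E i j = E i + E j - (E i * E j + E i * E j) := by
  simp only [Z1, D, sub_mul, mul_sub, one_mul, mul_one]
  abel

theorem Z2_eq (i j : ι) : Z2 E i j = 1 - E i - E j + E i * E j := by
  simp only [Z2, D, sub_mul, mul_sub, one_mul, mul_one]
  abel

theorem Zsum (i j : ι) : Z0 E i j + Z1 E i j + Z2 E i j = 1 := by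
  rw [Z1_eq, Z2_eq, Z0]
  abel

theorem Z1idem (h : Sys E R γ) (i j : ι) : Z1 E i j * Z1 E i j = Z1 E i j := by
  obtain ⟨a, b, c, d, e, f, g, k⟩ := h.alg i j
  simp only [Z1_eq, sub_mul, mul_sub, add_mul, mul_add, a, b, c, d, e, f, g, k]
  abel

theorem Z2idem (h : Sys E R γ) (i j : ι) : Z2 E i j * Z2 E i j = Z2 E i j := by
  obtain ⟨a, b, c, d, e, f, g, k⟩ := h.alg i j
  simp only [Z2_eq, sub_mul, mul_sub, add_mul, mul_add, one_mul, mul_one, a, b, c, d, e, f, g, k]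
  abel

theorem Z01 (h : Sys E R γ) (i j : ι) : Z0 E i j * (Z1 E i j + Z2 E i j) = 0 := by
  obtain ⟨a, b, c, d, e, f, g, k⟩ := h.alg i j
  simp only [Z0, Z1_eq, Z2_eq, mul_sub, mul_add, mul_one, f, g, k]
  abel

theorem Z10 (h : Sys E R γ) (i j : ι) : (Z1 E i j + Z2 E i j) * Z0 E i j = 0 := by
  obtain ⟨a, b, c, d, e, f, g, k⟩ := h.alg i j
  simp only [Z0, Z1_eq, Z2_eq, sub_mul, add_mul, one_mul, d, e, k]
  abel

theorem Z0idem (h : Sys E R γ) (i j : ι) : Z0 E i j * Z0 E i j = Z0 E i j :=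
  (h.alg i j).2.2.2.2.2.2.2

theorem n0 (h : Sys E R γ) (i j : ι) : (D E i + D E j) * Z0 E i j = (0 : ℝ) • Z0 E i j := by
  obtain ⟨a, b, c, d, e, f, g, k⟩ := h.alg i j
  simp only [Z0, D, sub_mul, add_mul, one_mul, d, e, zero_smul]
  abel

theorem n1 (h : Sys E R γ) (i j : ι) : (D E i + D E j) * Z1 E i j = (1 : ℝ) • Z1 E i j := by
  obtain ⟨a, b, c, d, e, f, g, k⟩ := h.alg i j
  simp only [Z1_eq, D, sub_mul, mul_sub, add_mul, mul_add, one_mul, a, b, c, d, e, one_smul]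
  abel

theorem n2 (h : Sys E R γ) (i j : ι) : (D E i + D E j) * Z2 E i j = (2 : ℝ) • Z2 E i j := by
  obtain ⟨a, b, c, d, e, f, g, k⟩ := h.alg i j
  simp only [Z2_eq, D, sub_mul, mul_sub, add_mul, mul_add, one_mul, mul_one, a, b, c, d, e,
    two_smul]
  abel

theorem ND (h : Sys E R γ) (i : ι) : Nn E * E i = E i * Nn E := by
  simp only [Nn, Finset.sum_mul, Finset.mul_sum, h.DE]

theorem c0 {T : Module.End ℝ V} {i j : ι} (hi : T * E i = E i * T)
    (hj : T * E j = E j * T) :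
    T * Z0 E i j = Z0 E i j * T ∧ T * Z1 E i j = Z1 E i j * T ∧ T * Z2 E i j = Z2 E i j * T := by
  have h0 : T * (E i * E j) = E i * E j * T := by
    rw [← mul_assoc, hi, mul_assoc, hj, mul_assoc]
  refine ⟨h0, ?_, ?_⟩
  · simp only [Z1_eq, sub_mul, mul_sub, add_mul, mul_add, hi, hj, h0]
  · simp only [Z2_eq, sub_mul, mul_sub, add_mul, mul_add, one_mul, mul_one, hi, hj, h0]

theorem RN (h : Sys E R γ) {i j : ι} (hij : i ≠ j) :
    (Nn E - (D E i + D E j)) * R i j = R i j * (Nn E - (D E i + D E j)) := by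
  have e : Nn E - (D E i + D E j) = ∑ k ∈ (univ.erase i).erase j, D E k := by
    rw [Nn, ← Finset.add_sum_erase _ _ (Finset.mem_univ i),
      ← Finset.add_sum_erase _ _ (Finset.mem_erase.2 ⟨hij.symm, Finset.mem_univ j⟩)]
    abel
  rw [e, Finset.sum_mul, Finset.mul_sum]
  refine Finset.sum_congr rfl fun k hk => ?_
  have h1 := Finset.ne_of_mem_erase hk
  have h2 := Finset.ne_of_mem_erase (Finset.mem_of_mem_erase hk)
  simp only [D, sub_mul, mul_sub, one_mul, mul_one, h.Rcomm i j k hij h2 h1]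

/-- the degree of `A R B x` -/
theorem deg (h : Sys E R γ) {i j : ι} (hij : i ≠ j) {A B : Module.End ℝ V} {a b k : ℝ}
    (hA : (D E i + D E j) * A = a • A) (hB : (D E i + D E j) * B = b • B)
    (hA' : Nn E * A = A * Nn E) (hB' : Nn E * B = B * Nn E)
    (hA'' : (D E i + D E j) * A = A * (D E i + D E j))
    {x : V} (hx : Nn E x = k • x) :
    Nn E ((A * R i j * B) x) = (k - b + a) • (A * R i j * B) x := by
  have e1 : (Nn E - (D E i + D E j)) * (A * R i j * B) =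
      A * R i j * ((Nn E - (D E i + D E j)) * B) := by
    have : (Nn E - (D E i + D E j)) * A = A * (Nn E - (D E i + D E j)) := by
      rw [sub_mul, mul_sub, hA', hA'']
    rw [← mul_assoc, ← mul_assoc, this, mul_assoc A, h.RN hij]
    simp only [mul_assoc]
  have e2 : ((Nn E - (D E i + D E j)) * B) x = (k - b) • B x := by
    rw [sub_mul, hB', hB, LinearMap.sub_apply, Module.End.mul_apply, hx, map_smul,
      LinearMap.smul_apply, sub_smul]
  have e3 : (D E i + D E j) * (A * R i j * B) = a • (A * R i j * B) := by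
    rw [← mul_assoc, ← mul_assoc, hA, smul_mul_assoc, smul_mul_assoc]
  have e4 : Nn E * (A * R i j * B) = (Nn E - (D E i + D E j)) * (A * R i j * B) +
      (D E i + D E j) * (A * R i j * B) := by rw [← add_mul, sub_add_cancel]
  rw [← Module.End.mul_apply, e4, e1, e3, LinearMap.add_apply, Module.End.mul_apply, e2, map_smul,
    LinearMap.smul_apply, add_smul]
  rfl

theorem cN (h : Sys E R γ) (i j : ι) : Nn E * Z0 E i j = Z0 E i j * Nn E ∧
    Nn E * Z1 E i j = Z1 E i j * Nn E ∧ Nn E * Z2 E i j = Z2 E i j * Nn E :=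
  c0 (h.ND i) (h.ND j)

theorem cD (h : Sys E R γ) (i j : ι) :
    (D E i + D E j) * Z0 E i j = Z0 E i j * (D E i + D E j) ∧
    (D E i + D E j) * Z1 E i j = Z1 E i j * (D E i + D E j) ∧
    (D E i + D E j) * Z2 E i j = Z2 E i j * (D E i + D E j) :=
  c0 (by rw [add_mul, mul_add, h.DE, h.DE]) (by rw [add_mul, mul_add, h.DE, h.DE])

theorem Ap_deg (h : Sys E R γ) {k : ℝ} {x : V} (hx : Nn E x = k • x) :
    Nn E (Ap E R x) = (k + 1) • Ap E R x := by
  rw [Ap, LinearMap.smul_apply, map_smul, smul_comm, S2_apply, map_S2, smul_S2 (k + 1)]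
  congr 1
  refine S2_congr fun i j hij => ?_
  rw [h.deg hij (h.n2 i j) (h.n1 i j) (h.cN i j).2.2 (h.cN i j).2.1 (h.cD i j).2.2 hx]
  congr 1
  ring

theorem Am_deg (h : Sys E R γ) {k : ℝ} {x : V} (hx : Nn E x = k • x) :
    Nn E (Am E R x) = (k - 1) • Am E R x := by
  rw [Am, LinearMap.smul_apply, map_smul, smul_comm, S2_apply, map_S2, smul_S2 (k - 1)]
  congr 1
  refine S2_congr fun i j hij => ?_
  rw [h.deg hij (h.n1 i j) (h.n2 i j) (h.cN i j).2.1 (h.cN i j).2.2 (h.cD i j).2.1 hx]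
  congr 1
  ring

theorem A0_deg (h : Sys E R γ) {k : ℝ} {x : V} (hx : Nn E x = k • x) :
    Nn E (A0 E R x) = k • A0 E R x := by
  rw [A0, LinearMap.smul_apply, map_smul, smul_comm, LinearMap.add_apply, map_add, smul_add k,
    S2_apply, map_S2, smul_S2 k]
  congr 2
  · rw [LinearMap.smul_apply, Module.End.one_apply, map_smul, hx, smul_comm]
  refine S2_congr fun i j hij => ?_
  rw [LinearMap.add_apply, LinearMap.add_apply, map_add, map_add, smul_add, smul_add,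
    h.deg hij (h.n1 i j) (h.n1 i j) (h.cN i j).2.1 (h.cN i j).2.1 (h.cD i j).2.1 hx,
    h.deg hij (h.n2 i j) (h.n2 i j) (h.cN i j).2.2 (h.cN i j).2.2 (h.cD i j).2.2 hx,
    ← Module.End.mul_apply, (h.cN i j).1, Module.End.mul_apply, hx, map_smul, sub_add_cancel,
    sub_add_cancel]

theorem Z0R (h : Sys E R γ) {i j : ι} (hij : i ≠ j) : Z0 E i j * R i j = Z0 E i j := by
  ext x
  refine ext_inner_left ℝ fun y => ?_
  rw [Module.End.mul_apply, ← h.Z0sy, ← h.Rsy i j hij, ← Module.End.mul_apply, Z0,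
    h.Rfix i j hij, ← Z0, h.Z0sy]

theorem R_split (h : Sys E R γ) {i j : ι} (hij : i ≠ j) :
    R i j = Z0 E i j + (Z1 E i j + Z2 E i j) * R i j * (Z1 E i j + Z2 E i j) := by
  have e : Z1 E i j + Z2 E i j = 1 - Z0 E i j := by rw [← Zsum (E := E) i j]; abel
  have f : R i j * Z0 E i j = Z0 E i j := h.Rfix i j hij
  rw [e]
  simp only [sub_mul, mul_sub, one_mul, mul_one, h.Z0R hij, f, h.Z0idem]
  abel

theorem P_split (h : Sys E R γ) : P R = A0 E R + Ap E R + Am E R := by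
  rw [P_eq, A0, Ap, Am, ← smul_add, ← smul_add, add_assoc, add_assoc, ← S2_add, ← S2_add]
  congr 2
  refine S2_congr fun i j hij => ?_
  conv_lhs => rw [h.R_split hij]
  simp only [add_mul, mul_add]
  abel

theorem Psy (h : Sys E R γ) : Sy (P R) := by
  rw [P_eq]
  refine Sy.smul (Sy.add (Sy.one.smul _) ?_) _
  exact Sy.sum _ fun i _ => Sy.sum _ fun j hj => h.Rsy i j (Finset.ne_of_mem_erase hj).symm

theorem S2_Z2 (h : Sys E R γ) : S2 (Z2 E) = Nn E * Nn E - Nn E := by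
  have : ∀ i : ι, ∑ j ∈ univ.erase i, Z2 E i j = D E i * Nn E - D E i := by
    intro i
    rw [Nn, ← Finset.add_sum_erase _ _ (Finset.mem_univ i), mul_add, h.Didem, Finset.mul_sum]
    simp only [Z2]
    abel
  simp only [S2, this, Finset.sum_sub_distrib, ← Finset.sum_mul]
  rfl

theorem S2_Z1 (h : Sys E R γ) : S2 (Z1 E) =
    (2 * ((Fintype.card ι : ℝ) - 1)) • Nn E - (2 : ℝ) • (Nn E * Nn E - Nn E) := by
  have e : ∀ i j : ι, Z1 E i j + (Z2 E i j + Z2 E i j) = D E i + D E j := by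
    intro i j
    rw [Z1_eq, Z2_eq, D, D]
    abel
  have e1 : S2 (fun i _ : ι => D E i) = ((Fintype.card ι : ℝ) - 1) • Nn E := by
    rw [S2, Nn, Finset.smul_sum]
    refine Finset.sum_congr rfl fun i _ => ?_
    have : 0 < Fintype.card ι := Fintype.card_pos_iff.2 ⟨i⟩
    rw [Finset.sum_const, Finset.card_erase_of_mem (Finset.mem_univ i), Finset.card_univ,
      ← Nat.cast_smul_eq_nsmul ℝ, Nat.cast_sub this, Nat.cast_one]
  have e2 : S2 (fun _ j : ι => D E j) = ((Fintype.card ι : ℝ) - 1) • Nn E := by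
    have : ∀ i : ι, ∑ j ∈ univ.erase i, D E j = Nn E - D E i := by
      intro i
      rw [Nn, ← Finset.add_sum_erase _ _ (Finset.mem_univ i)]
      abel
    simp only [S2, this, Finset.sum_sub_distrib, Finset.sum_const, Finset.card_univ]
    rw [sub_smul, one_smul, Nat.cast_smul_eq_nsmul]
    rfl
  have e3 : S2 (Z1 E) + (S2 (Z2 E) + S2 (Z2 E)) =
      S2 (fun i _ : ι => D E i) + S2 (fun _ j : ι => D E j) := by
    rw [← S2_add, ← S2_add, ← S2_add]
    exact S2_congr fun i j _ => e i j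
  rw [e1, e2, h.S2_Z2] at e3
  rw [eq_sub_of_add_eq e3, mul_smul, two_smul, two_smul]

theorem sum_Z2 (h : Sys E R γ) (x : V) :
    S2 (fun i j => ‖Z2 E i j x‖ ^ 2) = ‖Nn E x‖ ^ 2 - ⟪x, Nn E x⟫ := by
  have : S2 (fun i j => ‖Z2 E i j x‖ ^ 2) = ⟪x, S2 (Z2 E) x⟫ := by
    rw [S2_apply, inner_S2]
    exact S2_congr fun i j _ => (h.Z2sy i j).proj (h.Z2idem i j) x
  rw [this, h.S2_Z2, LinearMap.sub_apply, inner_sub_right, Module.End.mul_apply, ← h.Nsy,
    real_inner_self_eq_norm_sq]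

theorem sum_Z1 (h : Sys E R γ) (x : V) :
    S2 (fun i j => ‖Z1 E i j x‖ ^ 2) = 2 * ((Fintype.card ι : ℝ) - 1) * ⟪x, Nn E x⟫ -
      2 * (‖Nn E x‖ ^ 2 - ⟪x, Nn E x⟫) := by
  have : S2 (fun i j => ‖Z1 E i j x‖ ^ 2) = ⟪x, S2 (Z1 E) x⟫ := by
    rw [S2_apply, inner_S2]
    exact S2_congr fun i j _ => (h.Z1sy i j).proj (h.Z1idem i j) x
  rw [this, h.S2_Z1, LinearMap.sub_apply, inner_sub_right, LinearMap.smul_apply,
    LinearMap.smul_apply, real_inner_smul_right, real_inner_smul_right, LinearMap.sub_apply,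
    inner_sub_right, Module.End.mul_apply, ← h.Nsy x (Nn E x), real_inner_self_eq_norm_sq]

theorem orth (h : Sys E R γ) {k l : ℝ} (hkl : k ≠ l) {x y : V} (hx : Nn E x = k • x)
    (hy : Nn E y = l • y) : ⟪x, y⟫ = 0 := by
  have := h.Nsy x y
  rw [hx, hy, real_inner_smul_left, real_inner_smul_right] at this
  have h2 : (k - l) * ⟪x, y⟫ = 0 := by linarith
  exact (mul_eq_zero.1 h2).resolve_left (sub_ne_zero.2 hkl)

theorem inner_P (x : V) : ⟪x, P R x⟫ = 1 / (Fintype.card ι : ℝ) ^ 2 *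
    ((Fintype.card ι : ℝ) * ‖x‖ ^ 2 + S2 fun i j => ⟪x, R i j x⟫) := by
  rw [P_eq, LinearMap.smul_apply, real_inner_smul_right, LinearMap.add_apply, inner_add_right,
    LinearMap.smul_apply, real_inner_smul_right, Module.End.one_apply, real_inner_self_eq_norm_sq,
    S2_apply, inner_S2]

theorem S2_const (c : ℝ) :
    S2 (fun _ _ : ι => c) = (Fintype.card ι : ℝ) * ((Fintype.card ι : ℝ) - 1) * c := by
  have : ∀ i : ι, ∑ _j ∈ univ.erase i, c = ((Fintype.card ι : ℝ) - 1) * c := by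
    intro i
    have : 0 < Fintype.card ι := Fintype.card_pos_iff.2 ⟨i⟩
    rw [Finset.sum_const, Finset.card_erase_of_mem (Finset.mem_univ i), Finset.card_univ,
      nsmul_eq_mul, Nat.cast_sub this, Nat.cast_one]
  simp only [S2, this, Finset.sum_const, Finset.card_univ, nsmul_eq_mul]
  ring

theorem Ppos (h : Sys E R γ) (x : V) : 0 ≤ ⟪x, P R x⟫ := by
  rw [inner_P]
  have : S2 (fun _ _ : ι => (0 : ℝ)) ≤ S2 fun i j => ⟪x, R i j x⟫ :=
    S2_le fun i j hij => h.Rpos i j hij x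
  rw [S2_const, mul_zero] at this
  positivity

theorem Ple (h : Sys E R γ) (hN : 0 < Fintype.card ι) (x : V) : ⟪x, P R x⟫ ≤ 1 * ‖x‖ ^ 2 := by
  rw [inner_P]
  have : (S2 fun i j => ⟪x, R i j x⟫) ≤ S2 (fun _ _ : ι => ‖x‖ ^ 2) :=
    S2_le fun i j hij => h.Rle i j hij x
  rw [S2_const] at this
  have hN' : (0 : ℝ) < Fintype.card ι := by exact_mod_cast hN
  rw [one_div, inv_mul_le_iff₀ (by positivity)]
  nlinarith

theorem P_norm (h : Sys E R γ) (hN : 0 < Fintype.card ι) (x : V) : ‖P R x‖ ≤ ‖x‖ := by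
  refine norm_le_of_sq (norm_nonneg _) ?_
  have := h.Psy.le_of h.Ppos zero_le_one (h.Ple hN (P R x)) (h.Ple hN x)
  rw [real_inner_self_eq_norm_sq] at this
  nlinarith

theorem P_pow_norm (h : Sys E R γ) (hN : 0 < Fintype.card ι) (x : V) :
    ∀ t : ℕ, ‖(P R ^ t) x‖ ≤ ‖x‖
  | 0 => by simp
  | t + 1 => by
    rw [pow_succ', Module.End.mul_apply]
    exact (h.P_norm hN _).trans (h.P_pow_norm hN x t)

/-- the local Dirichlet form bound -/
theorem local_gap (h : Sys E R γ) {i j : ι} (hij : i ≠ j) (x : V) :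
    ⟪x, R i j x⟫ ≤ ‖x‖ ^ 2 - γ / 2 * ‖Z1 E i j x‖ ^ 2 + ‖Z2 E i j x‖ ^ 2 := by
  obtain ⟨a, b, c, d, e, f, g, k⟩ := h.alg i j
  set T : Module.End ℝ V := 1 - R i j with hT
  have Tsy : Sy T := Sy.one.sub (h.Rsy i j hij)
  have Tq : ∀ y, ⟪y, T y⟫ = ‖y‖ ^ 2 - ⟪y, R i j y⟫ := fun y => by
    rw [hT, LinearMap.sub_apply, inner_sub_right, Module.End.one_apply,
      real_inner_self_eq_norm_sq]
  have T0 : ∀ y, 0 ≤ ⟪y, T y⟫ := fun y => by rw [Tq]; linarith [h.Rle i j hij y]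
  set u := Z1 E i j x with hu
  set v := Z2 E i j x with hv
  set z := Z0 E i j x with hz
  have hx : x = z + (u + v) := by
    rw [hz, hu, hv, ← LinearMap.add_apply, ← LinearMap.add_apply, ← add_assoc, Zsum,
      Module.End.one_apply]
  have Tz : T z = 0 := by
    rw [hT, hz, LinearMap.sub_apply, ← Module.End.mul_apply (R i j), Z0, h.Rfix i j hij,
      Module.End.one_apply, sub_self]
  have e1 : ⟪x, T x⟫ = ⟪u + v, T (u + v)⟫ := by
    conv_lhs => rw [hx]
    rw [map_add, Tz, zero_add, inner_add_left, ← Tsy, Tz, inner_zero_left, zero_add]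
  have e2 : γ * ‖u‖ ^ 2 ≤ ⟪u, T u⟫ := by
    have hg := h.gap i j hij ((D E i * E j) x) ((E i * D E j) x)
      (by rw [← Module.End.mul_apply, ← mul_assoc, ← h.DE, mul_assoc, b])
      (by
        rw [← Module.End.mul_apply, D, sub_mul, one_mul, mul_sub, d, sub_self]; rfl)
      (by rw [← Module.End.mul_apply, ← mul_assoc, a])
      (by
        rw [← Module.End.mul_apply, D, mul_sub, mul_one, mul_sub, e, c, sub_self]; rfl)
    have hu' : (D E i * E j) x + (E i * D E j) x = u := by rw [hu, Z1, LinearMap.add_apply]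
    have ho : ⟪(D E i * E j) x, (E i * D E j) x⟫ = 0 := by
      rw [Module.End.mul_apply (E i), ← h.Esy, ← Module.End.mul_apply, D, sub_mul, one_mul,
        mul_sub, d, sub_self, LinearMap.zero_apply, inner_zero_left]
    have hn : ‖u‖ ^ 2 = ‖(D E i * E j) x‖ ^ 2 + ‖(E i * D E j) x‖ ^ 2 := by
      rw [← hu', norm_add_sq_real, ho]
      ring
    rw [hu', ← hn, ← Tq] at hg
    exact hg
  have e3 : ⟪v, T v⟫ ≤ ‖v‖ ^ 2 := by rw [Tq]; linarith [h.Rpos i j hij v]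
  have e4 : ⟪u, T u⟫ ≤ 2 * ⟪u + v, T (u + v)⟫ + 2 * ⟪v, T v⟫ := by
    have h1 := T0 (u + (2 : ℝ) • v)
    simp only [map_add, map_smul, inner_add_left, inner_add_right, real_inner_smul_left,
      real_inner_smul_right] at h1 ⊢
    linarith
  have e5 := Tq x
  linarith

theorem gap12 (h : Sys E R γ) (hγ0 : 0 < γ) (hγ1 : γ ≤ 1) (hN : 6 ≤ γ * Fintype.card ι)
    {a b : V} (ha : Nn E a = (1 : ℝ) • a) (hb : Nn E b = (2 : ℝ) • b) :
    ⟪a + b, P R (a + b)⟫ ≤ (1 - γ / (2 * Fintype.card ι)) * ‖a + b‖ ^ 2 := by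
  set N : ℝ := (Fintype.card ι : ℝ) with hNdef
  have hN6 : 6 ≤ N := by nlinarith [(Nat.cast_nonneg (Fintype.card ι) : (0 : ℝ) ≤ _)]
  have ho := h.orth (by norm_num) ha hb
  have ho' : ⟪b, a⟫ = 0 := by rw [real_inner_comm, ho]
  have n0 : ‖a + b‖ ^ 2 = ‖a‖ ^ 2 + ‖b‖ ^ 2 := by rw [norm_add_sq_real, ho]; ring
  have n1 : ⟪a + b, Nn E (a + b)⟫ = ‖a‖ ^ 2 + 2 * ‖b‖ ^ 2 := by
    simp only [map_add, ha, hb, inner_add_left, inner_add_right, real_inner_smul_right, ho, ho',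
      real_inner_self_eq_norm_sq]
    ring
  have n2 : ‖Nn E (a + b)‖ ^ 2 = ‖a‖ ^ 2 + 4 * ‖b‖ ^ 2 := by
    rw [map_add, ha, hb, one_smul, norm_add_sq_real, real_inner_smul_right, ho, norm_smul,
      Real.norm_two]
    ring
  have s1 := h.sum_Z1 (a + b)
  have s2 := h.sum_Z2 (a + b)
  rw [n1, n2] at s1 s2
  have s3 : (S2 fun i j => ⟪a + b, R i j (a + b)⟫) ≤ S2 fun i j : ι =>
      ‖a + b‖ ^ 2 + (-(γ / 2) * ‖Z1 E i j (a + b)‖ ^ 2 + ‖Z2 E i j (a + b)‖ ^ 2) :=
    S2_le fun i j hij => by linarith [h.local_gap hij (a + b)]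
  have s4 : (S2 fun i j : ι => -(γ / 2) * ‖Z1 E i j (a + b)‖ ^ 2) =
      -(γ / 2) * S2 fun i j : ι => ‖Z1 E i j (a + b)‖ ^ 2 := by
    simp only [S2, Finset.mul_sum]
  rw [S2_add, S2_add, S2_const, s4, s1, s2, ← hNdef] at s3
  rw [inner_P, ← hNdef, one_div, inv_mul_le_iff₀ (by positivity)]
  have e : N ^ 2 * ((1 - γ / (2 * N)) * ‖a + b‖ ^ 2) = (N ^ 2 - γ * N / 2) * ‖a + b‖ ^ 2 := by
    field_simp
  rw [e]
  rw [n0] at s3 ⊢
  have pa : 0 ≤ ‖a‖ ^ 2 := by positivity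
  have pb : 0 ≤ ‖b‖ ^ 2 := by positivity
  have q1 : 0 ≤ (γ * N / 2 - γ) * ‖a‖ ^ 2 := mul_nonneg (by nlinarith) pa
  have q2 : 0 ≤ (3 * (γ * N) / 2 - 4 * γ - 2) * ‖b‖ ^ 2 := mul_nonneg (by nlinarith) pb
  nlinarith

theorem Ap_sq (h : Sys E R γ) {k : ℝ} {x : V} (hx : Nn E x = k • x) :
    (‖Ap E R x‖ ^ 2) ^ 2 ≤ (1 / (Fintype.card ι : ℝ) ^ 2) ^ 2 * (((k + 1) * k * ‖Ap E R x‖ ^ 2) *
      ((2 * ((Fintype.card ι : ℝ) - 1) * k - 2 * (k ^ 2 - k)) * ‖x‖ ^ 2)) := by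
  have hy := h.Ap_deg hx
  set y := Ap E R x with hydef
  have s1 := h.sum_Z1 x
  have s2 := h.sum_Z2 y
  rw [hx, norm_smul, real_inner_smul_right, real_inner_self_eq_norm_sq, mul_pow, Real.norm_eq_abs,
    sq_abs] at s1
  rw [hy, norm_smul, real_inner_smul_right, real_inner_self_eq_norm_sq, mul_pow, Real.norm_eq_abs,
    sq_abs] at s2
  have e1 : ‖y‖ ^ 2 = 1 / (Fintype.card ι : ℝ) ^ 2 *
      S2 fun i j => ⟪Z2 E i j y, R i j (Z1 E i j x)⟫ := by
    rw [← real_inner_self_eq_norm_sq]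
    have : ⟪y, y⟫ = ⟪y, Ap E R x⟫ := rfl
    rw [this, Ap, LinearMap.smul_apply, real_inner_smul_right, S2_apply, inner_S2]
    congr 1
    refine S2_congr fun i j _ => ?_
    rw [h.Z2sy i j]
    rfl
  have e2 : (S2 fun i j => ⟪Z2 E i j y, R i j (Z1 E i j x)⟫) ≤
      S2 fun i j => ‖Z2 E i j y‖ * ‖Z1 E i j x‖ := S2_le fun i j hij => by
    have := (h.Rsy i j hij).le_of (h.Rpos i j hij) zero_le_one (x := Z2 E i j y)
      (y := Z1 E i j x) (by rw [one_mul]; exact h.Rle i j hij _)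
      (by rw [one_mul]; exact h.Rle i j hij _)
    rwa [one_mul] at this
  have e3 := S2_cs (fun i j => ‖Z2 E i j y‖) (fun i j => ‖Z1 E i j x‖)
  rw [s1, s2] at e3
  have e4 : ‖y‖ ^ 2 ≤ 1 / (Fintype.card ι : ℝ) ^ 2 *
      S2 fun i j => ‖Z2 E i j y‖ * ‖Z1 E i j x‖ := by
    rw [e1]
    exact mul_le_mul_of_nonneg_left e2 (by positivity)
  calc (‖y‖ ^ 2) ^ 2 ≤ (1 / (Fintype.card ι : ℝ) ^ 2 *
        S2 fun i j => ‖Z2 E i j y‖ * ‖Z1 E i j x‖) ^ 2 :=
        pow_le_pow_left₀ (by positivity) e4 2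
    _ ≤ _ := by
        rw [mul_pow]
        refine mul_le_mul_of_nonneg_left (e3.trans (le_of_eq ?_)) (by positivity)
        ring

theorem Ap_le (h : Sys E R γ) {k c : ℝ} (hk : 1 ≤ k) (hc : 0 ≤ c)
    (hkc : 2 * (k + 1) * k ^ 2 ≤ c ^ 2) (hN : 0 < Fintype.card ι) {x : V}
    (hx : Nn E x = k • x) :
    ‖Ap E R x‖ ≤ c * (√(Fintype.card ι : ℝ) / (Fintype.card ι : ℝ) ^ 2) * ‖x‖ := by
  have h1 := h.Ap_sq hx
  set N : ℝ := (Fintype.card ι : ℝ) with hNdef
  have hN' : 0 < N := by rw [hNdef]; exact_mod_cast hN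
  set y := ‖Ap E R x‖ with hy
  have hy0 : 0 ≤ y := norm_nonneg _
  have hs : √N ^ 2 = N := Real.sq_sqrt hN'.le
  rcases hy0.eq_or_lt with h0 | h0
  · rw [← h0]; positivity
  refine abs_le_of_sq_le_sq' ?_ (by positivity) |>.2
  have h2 : (k + 1) * k * (2 * (N - 1) * k - 2 * (k ^ 2 - k)) ≤ c ^ 2 * N := by
    have : (k + 1) * k * (2 * (N - 1) * k - 2 * (k ^ 2 - k)) ≤ 2 * (k + 1) * k ^ 2 * N := by
      have : 0 ≤ (k + 1) * k * (2 * k ^ 2) := by positivity
      nlinarith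
    nlinarith
  have h3 : y ^ 2 * y ^ 2 ≤ y ^ 2 * ((1 / N ^ 2) ^ 2 * (c ^ 2 * N) * ‖x‖ ^ 2) := by
    have h4 : (1 / N ^ 2) ^ 2 * ((k + 1) * k * y ^ 2 *
        ((2 * (N - 1) * k - 2 * (k ^ 2 - k)) * ‖x‖ ^ 2)) =
        ((1 / N ^ 2) ^ 2 * y ^ 2 * ‖x‖ ^ 2) *
          ((k + 1) * k * (2 * (N - 1) * k - 2 * (k ^ 2 - k))) := by ring
    have h5 := mul_le_mul_of_nonneg_left h2
      (show 0 ≤ (1 / N ^ 2) ^ 2 * y ^ 2 * ‖x‖ ^ 2 by positivity)
    nlinarith
  have h6 := le_of_mul_le_mul_left h3 (by positivity)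
  refine h6.trans (le_of_eq ?_)
  rw [mul_pow, mul_pow, div_pow (√N), hs]
  ring

theorem Am_one (h : Sys E R γ) {x : V} (hx : Nn E x = (1 : ℝ) • x) : Am E R x = 0 := by
  have s2 := h.sum_Z2 x
  rw [hx, one_smul, real_inner_self_eq_norm_sq, sub_self] at s2
  have hz : ∀ i j, i ≠ j → Z2 E i j x = 0 := by
    intro i j hij
    have h1 := (Finset.sum_eq_zero_iff_of_nonneg fun i _ =>
      Finset.sum_nonneg fun j _ => sq_nonneg ‖Z2 E i j x‖).1 s2 i (Finset.mem_univ i)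
    have h2 := (Finset.sum_eq_zero_iff_of_nonneg fun j _ => sq_nonneg ‖Z2 E i j x‖).1 h1 j
      (Finset.mem_erase.2 ⟨hij.symm, Finset.mem_univ j⟩)
    exact norm_eq_zero.1 (pow_eq_zero_iff two_ne_zero |>.1 h2)
  rw [Am, LinearMap.smul_apply, S2_apply, S2_congr (g := fun _ _ => (0 : V)) fun i j hij => by
    rw [Module.End.mul_apply, hz i j hij, map_zero]]
  simp [S2]

/-- **Decay of one body vectors.** -/
theorem decay (h : Sys E R γ) (hγ0 : 0 < γ) (hγ1 : γ ≤ 1) (hN : 6 ≤ γ * Fintype.card ι)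
    {x : V} (hx : Nn E x = x) (t : ℕ) :
    ‖(P R ^ t) x‖ ≤ ((1 - γ / (2 * Fintype.card ι)) ^ t + 40 / (γ ^ 2 * Fintype.card ι)) * ‖x‖ := by
  have hN6 : (6 : ℝ) ≤ Fintype.card ι := by
    nlinarith [(Nat.cast_nonneg (Fintype.card ι) : (0 : ℝ) ≤ _)]
  have hNpos : 0 < Fintype.card ι := by
    have : (0 : ℝ) < Fintype.card ι := by linarith
    exact_mod_cast this
  have G := fun a b => h.gap12 hγ0 hγ1 hN (a := a) (b := b)
  have A1 := fun a => h.Ap_le (k := 1) (c := 2) le_rfl (by norm_num) (by norm_num) hNpos (x := a)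
  have A2 := fun a => h.Ap_le (k := 2) (c := 5) (by norm_num) (by norm_num) (by norm_num) hNpos
    (x := a)
  set N : ℝ := (Fintype.card ι : ℝ) with hNdef
  set g : ℝ := γ / (2 * N) with hg
  set β : ℝ := √N / N ^ 2 with hβ
  have hg0 : 0 < g := by positivity
  have hg1 : 0 ≤ 1 - g := by
    rw [hg, sub_nonneg, div_le_one (by positivity)]
    linarith
  have hβ0 : 0 ≤ β := by positivity
  have key : ∀ t : ℕ, ∃ a b r : V, Nn E a = (1 : ℝ) • a ∧ Nn E b = (2 : ℝ) • b ∧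
      (P R ^ t) x = a + b + r ∧ ‖a + b‖ ≤ (1 - g) ^ t * ‖x‖ ∧
      ‖r‖ + 5 * β / g * ‖b‖ + 10 * β ^ 2 / g ^ 2 * ‖a + b‖ ≤ 10 * β ^ 2 / g ^ 2 * ‖x‖ := by
    intro t
    induction t with
    | zero => exact ⟨x, 0, 0, by rw [hx, one_smul], by simp, by simp, by simp, by simp⟩
    | succ t ih =>
      obtain ⟨a, b, r, ha, hb, e, n1, n2⟩ := ih
      have ha' : Nn E (A0 E R a + Am E R b) = (1 : ℝ) • (A0 E R a + Am E R b) := by
        rw [map_add, h.A0_deg ha, h.Am_deg hb, smul_add]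
        norm_num
      have hb0 := h.A0_deg hb
      have hb' : Nn E (Ap E R a + A0 E R b) = (2 : ℝ) • (Ap E R a + A0 E R b) := by
        rw [map_add, h.Ap_deg ha, hb0, smul_add]
        norm_num
      have hc := h.Ap_deg hb
      have eP : P R (a + b) = A0 E R a + Am E R b + (Ap E R a + A0 E R b) + Ap E R b := by
        simp only [h.P_split, LinearMap.add_apply, map_add, h.Am_one ha]
        abel
      have m1 : ‖A0 E R a + Am E R b + (Ap E R a + A0 E R b)‖ ≤ (1 - g) * ‖a + b‖ := by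
        refine norm_le_of_sq (by positivity) ?_
        have := h.Psy.le_of h.Ppos hg1 (G _ _ ha' hb') (G _ _ ha hb)
        rw [eP, inner_add_right, real_inner_self_eq_norm_sq, inner_add_left,
          h.orth (by norm_num) ha' hc, h.orth (by norm_num) hb' hc] at this
        linarith
      have m2 : ‖A0 E R b‖ ≤ (1 - g) * ‖b‖ := by
        refine norm_le_of_sq (by positivity) ?_
        have z : Nn E (0 : V) = (1 : ℝ) • (0 : V) := by simp
        have g1 := G _ _ z hb0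
        have g2 := G _ _ z hb
        rw [zero_add] at g1 g2
        have := h.Psy.le_of h.Ppos hg1 g1 g2
        rw [h.P_split, LinearMap.add_apply, LinearMap.add_apply, inner_add_right, inner_add_right,
          real_inner_self_eq_norm_sq, h.orth (by norm_num) hb0 hc,
          h.orth (by norm_num) hb0 (h.Am_deg hb)] at this
        linarith
      have m3 : ‖a‖ ≤ ‖a + b‖ := by
        refine abs_le_of_sq_le_sq' ?_ (norm_nonneg _) |>.2
        rw [norm_add_sq_real, h.orth (by norm_num) ha hb]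
        nlinarith [sq_nonneg ‖b‖]
      have m4 : ‖Ap E R a + A0 E R b‖ ≤ 2 * β * ‖a + b‖ + (1 - g) * ‖b‖ :=
        (norm_add_le _ _).trans (add_le_add ((A1 a ha).trans
          (mul_le_mul_of_nonneg_left m3 (by positivity))) m2)
      have m5 : ‖P R r + Ap E R b‖ ≤ ‖r‖ + 5 * β * ‖b‖ :=
        (norm_add_le _ _).trans (add_le_add (h.P_norm hNpos r) (A2 b hb))
      refine ⟨_, _, P R r + Ap E R b, ha', hb', ?_, ?_, ?_⟩
      · rw [pow_succ', Module.End.mul_apply, e, map_add, eP]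
        abel
      · rw [pow_succ', mul_assoc]
        exact m1.trans (mul_le_mul_of_nonneg_left n1 hg1)
      · refine le_trans ?_ n2
        have k1 := mul_le_mul_of_nonneg_left m4 (show 0 ≤ 5 * β / g by positivity)
        have k2 := mul_le_mul_of_nonneg_left m1 (show 0 ≤ 10 * β ^ 2 / g ^ 2 by positivity)
        have k3 : 5 * β * ‖b‖ + 5 * β / g * (2 * β * ‖a + b‖ + (1 - g) * ‖b‖) +
            10 * β ^ 2 / g ^ 2 * ((1 - g) * ‖a + b‖) =
            5 * β / g * ‖b‖ + 10 * β ^ 2 / g ^ 2 * ‖a + b‖ := by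
          field_simp
          ring
        linarith
  obtain ⟨a, b, r, -, -, e, n1, n2⟩ := key t
  have c1 : 10 * β ^ 2 / g ^ 2 = 40 / (γ ^ 2 * N) := by
    rw [hβ, hg, div_pow (√N), Real.sq_sqrt (by linarith)]
    field_simp
    ring
  have c2 : 0 ≤ 5 * β / g * ‖b‖ := by positivity
  have c3 : 0 ≤ 10 * β ^ 2 / g ^ 2 * ‖a + b‖ := by positivity
  rw [e, add_mul, ← c1]
  exact (norm_add_le _ _).trans (by linarith)

end Sys

end Vale.Agent.P308.MB
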