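import Vale.Agent.P308.MDefs
import Vale.Agent.P308.ManyBodyAbs

/-!
The many body lemma: a population of `N` particles follows the linearised two body dynamics.
-/

set_option linter.unusedSectionVars false

namespace Vale.Agent.P308

open Finset
open scoped RealInnerProductSpace

variable {Ω : Type} [Fintype Ω] [DecidableEq Ω]

/-- the error of one stage (independent of an upper bound for `t`) -/
noncomputable def stErr2 (γ η : ℝ) (N t : ℕ) : ℝ :=
  ((1 - γ / (2 * N)) ^ t + 40 / (γ ^ 2 * N)) * η * Real.sqrt N + N * η ^ 2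

namespace MB

/-- positive weights -/
structure PW (X : Type) where
  w : X → ℝ
  pos : ∀ x, 0 < w x

/-- functions with the weighted scalar product -/
def L2 {X : Type} (_ : PW X) : Type := X → ℝ

section L2

variable {X : Type} [Fintype X] (p : PW X)

instance : AddCommGroup (L2 p) := inferInstanceAs (AddCommGroup (X → ℝ))

noncomputable instance : Module ℝ (L2 p) := inferInstanceAs (Module ℝ (X → ℝ))

/-- the scalar product -/
@[reducible] noncomputable def core : InnerProductSpace.Core ℝ (L2 p) where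
  inner F G := ∑ x, p.w x * (F x * G x)
  conj_inner_symm F G := by
    simp only [conj_trivial]
    exact Finset.sum_congr rfl fun x _ => by ring
  re_inner_nonneg F := Finset.sum_nonneg fun x _ => mul_nonneg (p.pos x).le (mul_self_nonneg _)
  add_left F G H := by
    rw [← Finset.sum_add_distrib]
    refine Finset.sum_congr rfl fun x _ => ?_
    change p.w x * ((F x + G x) * H x) = _
    ring
  smul_left F G r := by
    simp only [conj_trivial]
    rw [Finset.mul_sum]
    refine Finset.sum_congr rfl fun x _ => ?_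
    change p.w x * ((r * F x) * G x) = _
    ring
  definite F h := by
    funext x
    have h1 := (Finset.sum_eq_zero_iff_of_nonneg fun x _ =>
      mul_nonneg (p.pos x).le (mul_self_nonneg (F x))).1 h x (Finset.mem_univ x)
    exact mul_self_eq_zero.1 ((mul_eq_zero.1 h1).resolve_left (p.pos x).ne')

noncomputable instance : NormedAddCommGroup (L2 p) :=
  @InnerProductSpace.Core.toNormedAddCommGroup ℝ (L2 p) _ _ _ (core p)

noncomputable instance : InnerProductSpace ℝ (L2 p) := InnerProductSpace.ofCore (core p).toCore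

theorem inner_def (F G : L2 p) : ⟪F, G⟫ = ∑ x, p.w x * (F x * G x) := rfl

theorem norm_sq_def (F : L2 p) : ‖F‖ ^ 2 = ∑ x, p.w x * F x ^ 2 := by
  rw [← real_inner_self_eq_norm_sq, inner_def]
  exact Finset.sum_congr rfl fun x _ => by ring

end L2

section two

variable {μ : Ω → ℝ} {K : Ω × Ω → Ω × Ω → ℝ} {γ : ℝ}

theorem form_sub (h : Good μ K γ) (g : Ω × Ω → ℝ) (s : ℝ) :
    ∑ p : Ω × Ω, ∑ q : Ω × Ω, μ p.1 * μ p.2 * K p q * (g p + s * g q) ^ 2 =
      (1 + s ^ 2) * ∑ p : Ω × Ω, μ p.1 * μ p.2 * g p ^ 2 +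
        2 * s * ∑ p : Ω × Ω, μ p.1 * μ p.2 * (g p * ∑ q, K p q * g q) := by
  have e1 : ∑ p : Ω × Ω, ∑ q : Ω × Ω, μ p.1 * μ p.2 * K p q * g p ^ 2 =
      ∑ p : Ω × Ω, μ p.1 * μ p.2 * g p ^ 2 := by
    refine Finset.sum_congr rfl fun p _ => ?_
    rw [← Finset.sum_mul, ← Finset.mul_sum, h.row, mul_one]
  have e2 : ∑ p : Ω × Ω, ∑ q : Ω × Ω, μ p.1 * μ p.2 * K p q * g q ^ 2 =
      ∑ p : Ω × Ω, μ p.1 * μ p.2 * g p ^ 2 := by
    rw [Finset.sum_comm, ← e1]
    exact Finset.sum_congr rfl fun p _ => Finset.sum_congr rfl fun q _ => by rw [h.rev]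
  have e3 : ∑ p : Ω × Ω, μ p.1 * μ p.2 * (g p * ∑ q, K p q * g q) =
      ∑ p : Ω × Ω, ∑ q : Ω × Ω, μ p.1 * μ p.2 * K p q * (g p * g q) := by
    refine Finset.sum_congr rfl fun p _ => ?_
    rw [Finset.mul_sum, Finset.mul_sum]
    exact Finset.sum_congr rfl fun q _ => by ring
  rw [add_mul, one_mul, e3]
  nth_rewrite 1 [← e1]
  rw [← e2]
  simp only [Finset.mul_sum, ← Finset.sum_add_distrib]
  exact Finset.sum_congr rfl fun p _ => Finset.sum_congr rfl fun q _ => by ring

theorem form_le (h : Good μ K γ) (g : Ω × Ω → ℝ) :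
    ∑ p : Ω × Ω, μ p.1 * μ p.2 * (g p * ∑ q, K p q * g q) ≤
      ∑ p : Ω × Ω, μ p.1 * μ p.2 * g p ^ 2 := by
  have h1 := form_sub h g (-1)
  have h2 : 0 ≤ ∑ p : Ω × Ω, ∑ q : Ω × Ω, μ p.1 * μ p.2 * K p q * (g p + -1 * g q) ^ 2 :=
    Finset.sum_nonneg fun p _ => Finset.sum_nonneg fun q _ =>
      mul_nonneg (mul_nonneg (mul_pos (h.pos _) (h.pos _)).le (h.nn p q)) (sq_nonneg _)
  linarith

theorem form_nonneg (h : Good μ K γ) (g : Ω × Ω → ℝ) :
    0 ≤ ∑ p : Ω × Ω, μ p.1 * μ p.2 * (g p * ∑ q, K p q * g q) := by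
  have h1 := form_sub h g 1
  have h2 : 2 * ∑ p : Ω × Ω, μ p.1 * μ p.2 * g p ^ 2 ≤
      ∑ p : Ω × Ω, ∑ q : Ω × Ω, μ p.1 * μ p.2 * K p q * (g p + 1 * g q) ^ 2 := by
    rw [Finset.mul_sum]
    refine Finset.sum_le_sum fun p _ => ?_
    refine le_trans ?_ (Finset.single_le_sum (f := fun q : Ω × Ω =>
      μ p.1 * μ p.2 * K p q * (g p + 1 * g q) ^ 2) (fun q _ =>
      mul_nonneg (mul_nonneg (mul_pos (h.pos _) (h.pos _)).le (h.nn p q)) (sq_nonneg _))
      (Finset.mem_univ p))
    have h3 : 0 ≤ μ p.1 * μ p.2 * g p ^ 2 * (K p p - 1 / 2) :=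
      mul_nonneg (mul_nonneg (mul_pos (h.pos _) (h.pos _)).le (sq_nonneg _))
        (sub_nonneg.2 (h.lazy p))
    nlinarith
  linarith

theorem form_gap (h : Good μ K γ) (a b : Ω → ℝ) (ha : ∑ x, μ x * a x = 0)
    (hb : ∑ x, μ x * b x = 0) :
    γ * (∑ x, μ x * a x ^ 2 + ∑ x, μ x * b x ^ 2) ≤
      ∑ p : Ω × Ω, μ p.1 * μ p.2 * (a p.1 + b p.2) ^ 2 -
        ∑ p : Ω × Ω, μ p.1 * μ p.2 * ((a p.1 + b p.2) * ∑ q, K p q * (a q.1 + b q.2)) := by
  have h1 := form_sub h (fun p => a p.1 + b p.2) (-1)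
  have h2 := h.gap a b ha hb
  simp only [neg_mul, one_mul, ← sub_eq_add_neg] at h1
  rw [h1] at h2
  linarith

end two

section many

variable {N : ℕ} {μ : Ω → ℝ} {K : Ω × Ω → Ω × Ω → ℝ} {γ : ℝ}

theorem pw_update (μ : Ω → ℝ) (x : Fin N → Ω) (i : Fin N) (a : Ω) :
    pw μ (Function.update x i a) * μ (x i) = pw μ x * μ a := by
  unfold pw
  rw [← Finset.mul_prod_erase _ _ (Finset.mem_univ i),
    ← Finset.mul_prod_erase _ (fun k => μ (x k)) (Finset.mem_univ i), Function.update_self]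
  have : ∏ k ∈ univ.erase i, μ (Function.update x i a k) = ∏ k ∈ univ.erase i, μ (x k) :=
    Finset.prod_congr rfl fun k hk => by rw [Function.update_of_ne (Finset.ne_of_mem_erase hk)]
  rw [this]
  ring

/-- the involution on pairs (population, new value) -/
def flip1 (i : Fin N) : (Fin N → Ω) × Ω ≃ (Fin N → Ω) × Ω where
  toFun z := (Function.update z.1 i z.2, z.1 i)
  invFun z := (Function.update z.1 i z.2, z.1 i)
  left_inv z := by simp
  right_inv z := by simp

theorem sum_flip1 (μ : Ω → ℝ) (i : Fin N) (Φ : (Fin N → Ω) → Ω → ℝ) :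
    ∑ x, ∑ a, pw μ x * μ a * Φ x a =
      ∑ x, ∑ a, pw μ x * μ a * Φ (Function.update x i a) (x i) := by
  rw [← Finset.sum_product', ← Finset.sum_product', Finset.univ_product_univ,
    ← (flip1 i).sum_comp]
  refine Finset.sum_congr rfl fun z _ => ?_
  change pw μ (Function.update z.1 i z.2) * μ (z.1 i) * Φ (Function.update z.1 i z.2) (z.1 i) = _
  rw [pw_update]

theorem sum_resample (hμ : ∑ a, μ a = 1) (i : Fin N) (Φ : (Fin N → Ω) → ℝ) :
    ∑ x, pw μ x * Φ x = ∑ x, pw μ x * ∑ a, μ a * Φ (Function.update x i a) := by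
  have h1 := sum_flip1 μ i fun x _ => Φ x
  have h2 : ∀ x : Fin N → Ω, ∑ a, pw μ x * μ a * Φ x = pw μ x * Φ x := fun x => by
    rw [← Finset.sum_mul, ← Finset.mul_sum, hμ, mul_one]
  simp only [h2] at h1
  rw [h1]
  refine Finset.sum_congr rfl fun x _ => ?_
  rw [Finset.mul_sum]
  exact Finset.sum_congr rfl fun a _ => by ring

/-- change of two coordinates -/
def up2 (x : Fin N → Ω) (i j : Fin N) (q : Ω × Ω) : Fin N → Ω :=
  Function.update (Function.update x i q.1) j q.2

theorem up2_left (x : Fin N → Ω) {i j : Fin N} (hij : i ≠ j) (q : Ω × Ω) :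
    up2 x i j q i = q.1 := by
  rw [up2, Function.update_of_ne hij, Function.update_self]

theorem up2_right (x : Fin N → Ω) (i j : Fin N) (q : Ω × Ω) : up2 x i j q j = q.2 := by
  rw [up2, Function.update_self]

theorem up2_up2 (x : Fin N → Ω) {i j : Fin N} (hij : i ≠ j) (p q : Ω × Ω) :
    up2 (up2 x i j p) i j q = up2 x i j q := by
  unfold up2
  rw [Function.update_comm hij.symm p.2 q.1 (Function.update x i p.1), Function.update_idem,
    Function.update_idem]

theorem sum_resample2 (hμ : ∑ a, μ a = 1) (i j : Fin N) (Φ : (Fin N → Ω) → ℝ) :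
    ∑ x, pw μ x * Φ x = ∑ x, pw μ x * ∑ p : Ω × Ω, μ p.1 * μ p.2 * Φ (up2 x i j p) := by
  rw [sum_resample hμ j, sum_resample hμ i]
  refine Finset.sum_congr rfl fun x _ => ?_
  congr 1
  rw [Fintype.sum_prod_type]
  refine Finset.sum_congr rfl fun a _ => ?_
  rw [Finset.mul_sum]
  exact Finset.sum_congr rfl fun b _ => by rw [up2]; ring

/-- the weights of the population -/
def pN (h : Good μ K γ) (N : ℕ) : PW (Fin N → Ω) :=
  ⟨pw μ, fun _ => Finset.prod_pos fun _ _ => h.pos _⟩

/-- resampling of one particle -/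
noncomputable def EE (h : Good μ K γ) (i : Fin N) : Module.End ℝ (L2 (pN h N)) where
  toFun F := fun x => ∑ a, μ a * F (Function.update x i a)
  map_add' F G := by
    funext x
    change ∑ a, μ a * (F _ + G _) = (∑ a, _) + ∑ a, _
    simp only [mul_add, Finset.sum_add_distrib]
  map_smul' c F := by
    funext x
    change ∑ a, μ a * (c * F _) = c * ∑ a, _
    rw [Finset.mul_sum]
    exact Finset.sum_congr rfl fun a _ => by ring

/-- the two body operator -/
noncomputable def RR (h : Good μ K γ) (i j : Fin N) : Module.End ℝ (L2 (pN h N)) where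
  toFun F := fun x => ∑ q : Ω × Ω, K (x i, x j) q * F (up2 x i j q)
  map_add' F G := by
    funext x
    change ∑ a, K _ a * (F _ + G _) = (∑ a, _) + ∑ a, _
    simp only [mul_add, Finset.sum_add_distrib]
  map_smul' c F := by
    funext x
    change ∑ a, K _ a * (c * F _) = c * ∑ a, _
    rw [Finset.mul_sum]
    exact Finset.sum_congr rfl fun a _ => by ring

theorem EE_apply (h : Good μ K γ) (i : Fin N) (F : L2 (pN h N)) (x : Fin N → Ω) :
    EE h i F x = ∑ a, μ a * F (Function.update x i a) := rfl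

theorem RR_apply (h : Good μ K γ) (i j : Fin N) (F : L2 (pN h N)) (x : Fin N → Ω) :
    RR h i j F x = ∑ q : Ω × Ω, K (x i, x j) q * F (up2 x i j q) := rfl

theorem inner_pN (h : Good μ K γ) (F G : L2 (pN h N)) :
    ⟪F, G⟫ = ∑ x, pw μ x * (F x * G x) := rfl

theorem inner_RR (h : Good μ K γ) {i j : Fin N} (hij : i ≠ j) (F G : L2 (pN h N)) :
    ⟪F, RR h i j G⟫ = ∑ x, pw μ x * ∑ p : Ω × Ω, μ p.1 * μ p.2 *
      (F (up2 x i j p) * ∑ q, K p q * G (up2 x i j q)) := by
  rw [inner_pN, sum_resample2 h.sum i j]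
  simp only [RR_apply, up2_left _ hij, up2_right, up2_up2 _ hij]

theorem norm_sq_2 (h : Good μ K γ) (i j : Fin N) (F : L2 (pN h N)) :
    ‖F‖ ^ 2 = ∑ x, pw μ x * ∑ p : Ω × Ω, μ p.1 * μ p.2 * F (up2 x i j p) ^ 2 := by
  rw [norm_sq_def, ← sum_resample2 h.sum i j fun x => F x ^ 2]
  rfl

theorem EE_update (h : Good μ K γ) (i : Fin N) (F : L2 (pN h N)) (x : Fin N → Ω) (a : Ω) :
    EE h i F (Function.update x i a) = EE h i F x := by
  simp only [EE_apply, Function.update_idem]

theorem sys (h : Good μ K γ) (N : ℕ) : Sys (EE h (N := N)) (RR h) γ where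
  Esy i F G := by
    rw [inner_pN, inner_pN]
    have h1 := sum_flip1 μ i fun x a => F (Function.update x i a) * G x
    simp only [Function.update_idem, Function.update_eq_self] at h1
    simp only [EE_apply, Finset.mul_sum, Finset.sum_mul]
    convert h1 using 1
    · exact Finset.sum_congr rfl fun x _ => Finset.sum_congr rfl fun a _ => by ring
    · exact Finset.sum_congr rfl fun x _ => Finset.sum_congr rfl fun a _ => by ring
  Eidem i := by
    ext F
    funext x
    rw [Module.End.mul_apply, EE_apply]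
    simp only [EE_update]
    rw [← Finset.sum_mul, h.sum, one_mul]
  Ecomm i j := by
    by_cases hij : i = j
    · rw [hij]
    ext F
    funext x
    simp only [Module.End.mul_apply, EE_apply, Finset.mul_sum]
    rw [Finset.sum_comm]
    refine Finset.sum_congr rfl fun a _ => Finset.sum_congr rfl fun b _ => ?_
    rw [Function.update_comm hij]
    ring
  Rsy i j hij F G := by
    rw [real_inner_comm, inner_RR h hij, inner_RR h hij]
    refine Finset.sum_congr rfl fun x _ => ?_
    congr 1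
    simp only [Finset.mul_sum]
    rw [Finset.sum_comm]
    refine Finset.sum_congr rfl fun p _ => Finset.sum_congr rfl fun q _ => ?_
    have := h.rev p q
    linear_combination (-(F (up2 x i j p) * G (up2 x i j q))) * this
  Rcomm i j k hij hki hkj := by
    ext F
    funext x
    simp only [Module.End.mul_apply, EE_apply, RR_apply, Finset.mul_sum,
      Function.update_of_ne hki.symm, Function.update_of_ne hkj.symm]
    rw [Finset.sum_comm]
    refine Finset.sum_congr rfl fun a _ => Finset.sum_congr rfl fun q _ => ?_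
    rw [up2, up2, Function.update_comm hki, Function.update_comm hkj]
    ring
  Rfix i j hij := by
    ext F
    funext x
    rw [Module.End.mul_apply, RR_apply]
    have : ∀ q : Ω × Ω, (EE h i * EE h j) F (up2 x i j q) = (EE h i * EE h j) F x := by
      intro q
      simp only [Module.End.mul_apply, EE_apply h i, up2]
      refine Finset.sum_congr rfl fun a _ => ?_
      rw [Function.update_comm hij.symm, EE_update, Function.update_idem]
    simp only [this]
    rw [← Finset.sum_mul, h.row, one_mul]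
  Rpos i j hij F := by
    rw [inner_RR h hij]
    exact Finset.sum_nonneg fun x _ => mul_nonneg ((pN h N).pos x).le
      (form_nonneg h fun p => F (up2 x i j p))
  Rle i j hij F := by
    rw [inner_RR h hij, norm_sq_2 h i j]
    exact Finset.sum_le_sum fun x _ => mul_le_mul_of_nonneg_left
      (form_le h fun p => F (up2 x i j p)) ((pN h N).pos x).le
  gap i j hij u v hu1 hu2 hv1 hv2 := by
    have eu : ∀ x (p : Ω × Ω), u (up2 x i j p) = u (Function.update x i p.1) := by
      intro x p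
      rw [← hu1, up2, EE_update]
    have ev : ∀ x (p : Ω × Ω), v (up2 x i j p) = v (Function.update x j p.2) := by
      intro x p
      rw [← hv1, up2, Function.update_comm hij, EE_update]
    have euv : ∀ x (p : Ω × Ω), (u + v) (up2 x i j p) =
        u (Function.update x i p.1) + v (Function.update x j p.2) := by
      intro x p
      rw [← eu, ← ev]
      rfl
    rw [inner_RR h hij, norm_sq_2 h i j (u + v), norm_sq_def, norm_sq_def]
    change γ * (∑ x, pw μ x * u x ^ 2 + ∑ x, pw μ x * v x ^ 2) ≤ _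
    rw [sum_resample h.sum i fun x => u x ^ 2, sum_resample h.sum j fun x => v x ^ 2,
      ← Finset.sum_add_distrib, ← Finset.sum_sub_distrib, Finset.mul_sum]
    refine Finset.sum_le_sum fun x _ => ?_
    simp only [euv]
    have := form_gap h (fun a => u (Function.update x i a)) (fun a => v (Function.update x j a))
      (congrFun hu2 x) (congrFun hv2 x)
    have h2 := mul_le_mul_of_nonneg_left this ((pN h N).pos x).le
    change pw μ x * _ ≤ pw μ x * _ at h2
    linarith

theorem sum_apply' {X : Type} [Fintype X] (p : PW X) {κ : Type} (s : Finset κ) (f : κ → L2 p)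
    (x : X) : (∑ k ∈ s, f k) x = ∑ k ∈ s, f k x :=
  Finset.sum_apply x s f

theorem P_apply (h : Good μ K γ) (F : L2 (pN h N)) : P (RR h) F = PP K N F := by
  funext x
  unfold PP
  rw [P, LinearMap.smul_apply, Fintype.card_fin, one_div, div_eq_inv_mul _ ((N : ℝ) ^ 2)]
  change ((N : ℝ) ^ 2)⁻¹ * _ = _
  congr 1
  rw [LinearMap.sum_apply, sum_apply']
  refine Finset.sum_congr rfl fun i _ => ?_
  rw [LinearMap.sum_apply, sum_apply']
  refine Finset.sum_congr rfl fun j _ => ?_
  split_ifs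
  · rfl
  · rfl

theorem P_pow_apply (h : Good μ K γ) (F : L2 (pN h N)) (t : ℕ) :
    (P (RR h) ^ t) F = (PP K N)^[t] F := by
  induction t with
  | zero => rfl
  | succ t ih =>
    rw [pow_succ', Module.End.mul_apply, P_apply, ih]
    exact (Function.iterate_succ_apply' _ _ _).symm

theorem sum_pw (φ : Ω → ℝ) : ∑ x : Fin N → Ω, pw φ x = (∑ a, φ a) ^ N := by
  unfold pw
  rw [Finset.sum_pow', Fintype.piFinset_univ]

theorem PP_abs_le (hnn : ∀ p q, 0 ≤ K p q) (hrow : ∀ p, ∑ q, K p q = 1) (hN : 0 < N)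
    {G : (Fin N → Ω) → ℝ} (hG : ∀ x, |G x| ≤ 1) (x : Fin N → Ω) : |PP K N G x| ≤ 1 := by
  have hN' : (0 : ℝ) < N := by exact_mod_cast hN
  rw [PP, abs_div, abs_of_pos (show (0 : ℝ) < (N : ℝ) ^ 2 by positivity),
    div_le_one (by positivity)]
  refine (Finset.abs_sum_le_sum_abs _ _).trans ?_
  calc _ ≤ ∑ _i : Fin N, ∑ _j : Fin N, (1 : ℝ) := Finset.sum_le_sum fun i _ =>
        (Finset.abs_sum_le_sum_abs _ _).trans (Finset.sum_le_sum fun j _ => ?_)
    _ = _ := by simp [sq]
  split_ifs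
  · exact hG x
  · refine (Finset.abs_sum_le_sum_abs _ _).trans ?_
    rw [← hrow (x i, x j)]
    refine Finset.sum_le_sum fun q _ => ?_
    rw [abs_mul, abs_of_nonneg (hnn _ _)]
    exact mul_le_of_le_one_right (hnn _ _) (hG _)

theorem PP_iter_abs_le (hnn : ∀ p q, 0 ≤ K p q) (hrow : ∀ p, ∑ q, K p q = 1) (hN : 0 < N)
    {G : (Fin N → Ω) → ℝ} (hG : ∀ x, |G x| ≤ 1) (t : ℕ) : ∀ x, |(PP K N)^[t] G x| ≤ 1 := by
  induction t with
  | zero => exact hG
  | succ t ih => rw [Function.iterate_succ_apply']; exact PP_abs_le hnn hrow hN ih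

theorem PP_one (hrow : ∀ p, ∑ q, K p q = 1) (hN : 0 < N) :
    PP K N (fun _ => 1) = fun _ => 1 := by
  funext x
  have hN' : (0 : ℝ) < N := by exact_mod_cast hN
  simp only [PP, mul_one, hrow, ite_self]
  rw [div_eq_one_iff_eq (by positivity)]
  simp [sq]

end many

end MB

open MB

theorem pw_marginal {μ : Ω → ℝ} (hμ : ∑ a, μ a = 1) {N : ℕ} (i : Fin N) (g : Ω → ℝ) :
    ∑ x : Fin N → Ω, pw μ x * g (x i) = ∑ a, μ a * g a := by
  rw [sum_resample hμ i]
  simp only [Function.update_self]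
  rw [← Finset.sum_mul, sum_pw, hμ, one_pow, one_mul]

theorem many_body {μ ν : Ω → ℝ} {K : Ω × Ω → Ω × Ω → ℝ} {γ η : ℝ} {N : ℕ} (h : Good μ K γ)
    (hγ : γ ≤ 1) (hN : 6 ≤ γ * N) (hν : ∑ a, ν a = 1) (hη : 0 ≤ η) (hc : Close η ν μ)
    (hNη : N * η ^ 2 ≤ 1) (t : ℕ) (G : (Fin N → Ω) → ℝ) (hG : ∀ x, |G x| ≤ 1) :
    |∑ x, pw ν x * (PP K N)^[t] G x - ∑ x, pw μ x * G x| ≤ stErr2 γ η N t := by
  have hN0 : (0 : ℝ) ≤ N := Nat.cast_nonneg N
  have hγ0 : 0 < γ := by
    by_contra hh
    nlinarith [mul_nonneg (neg_nonneg.2 (not_lt.1 hh)) hN0]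
  have hN6 : (6 : ℝ) ≤ N := by nlinarith
  have hNpos : 0 < N := by
    have : (0 : ℝ) < N := by linarith
    exact_mod_cast this
  have S := sys h N
  set d : Ω → ℝ := fun a => ν a / μ a - 1 with hd
  have hd1 : ∀ a, μ a * (1 + d a) = ν a := fun a => by
    have := (h.pos a).ne'
    rw [hd]
    field_simp
    ring
  have hd0 : ∑ a, μ a * d a = 0 := by
    have : ∀ a, μ a * d a = ν a - μ a := fun a => by linarith [hd1 a]
    simp only [this, Finset.sum_sub_distrib, hν, h.sum, sub_self]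
  have hd2 : ∀ a, d a ^ 2 ≤ η ^ 2 := fun a => by
    have h1 := hc a
    have h2 : ν a - μ a = μ a * d a := by linarith [hd1 a]
    rw [h2, abs_mul, abs_of_pos (h.pos a), mul_comm] at h1
    exact sq_le_sq' (by linarith [neg_abs_le (d a), le_of_mul_le_mul_right h1 (h.pos a)])
      ((le_abs_self _).trans (le_of_mul_le_mul_right h1 (h.pos a)))
  set m : ℝ := ∑ a, μ a * d a ^ 2 with hm
  have hm0 : 0 ≤ m := Finset.sum_nonneg fun a _ => mul_nonneg (h.pos a).le (sq_nonneg _)
  have hm1 : m ≤ η ^ 2 := by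
    calc m ≤ ∑ a, μ a * η ^ 2 :=
          Finset.sum_le_sum fun a _ => mul_le_mul_of_nonneg_left (hd2 a) (h.pos a).le
      _ = η ^ 2 := by rw [← Finset.sum_mul, h.sum, one_mul]
  let o : L2 (pN h N) := fun _ => 1
  let ρ : L2 (pN h N) := pw fun a => 1 + d a
  let f : Fin N → L2 (pN h N) := fun i x => d (x i)
  let G' : L2 (pN h N) := G
  have hρ : ∀ x, pw μ x * ρ x = pw ν x := fun x => by
    change pw μ x * pw (fun a => 1 + d a) x = _
    simp only [pw, ← Finset.prod_mul_distrib, hd1]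
  have Ef : ∀ i, EE h i (f i) = 0 := fun i => by
    funext x
    rw [EE_apply]
    simp only [f, Function.update_self]
    exact hd0
  have Ef' : ∀ i j, i ≠ j → EE h i (f j) = f j := fun i j hij => by
    funext x
    rw [EE_apply]
    simp only [f, Function.update_of_ne hij.symm]
    rw [← Finset.sum_mul, h.sum, one_mul]
  have Nf : ∀ j, Nn (EE h) (f j) = f j := fun j => by
    rw [Nn, LinearMap.sum_apply, Finset.sum_eq_single j]
    · rw [D, LinearMap.sub_apply, Ef, sub_zero, Module.End.one_apply]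
    · intro i _ hij
      rw [D, LinearMap.sub_apply, Ef' i j hij, Module.End.one_apply, sub_self]
    · intro hh
      exact absurd (Finset.mem_univ j) hh
  set F : L2 (pN h N) := ∑ i, f i with hF
  have NF : Nn (EE h) F = F := by rw [hF, map_sum]; simp only [Nf]
  have ff : ∀ i j, ⟪f i, f j⟫ = if i = j then m else 0 := fun i j => by
    split_ifs with hij
    · rw [hij, inner_pN, hm, ← pw_marginal h.sum j fun a => d a ^ 2]
      exact Finset.sum_congr rfl fun x _ => by simp only [f]; ring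
    · rw [← Ef' i j hij, ← S.Esy, Ef, inner_zero_left]
  have FF : ‖F‖ ^ 2 = N * m := by
    rw [← real_inner_self_eq_norm_sq, hF, sum_inner]
    simp only [inner_sum, ff, Finset.sum_ite_eq, Finset.mem_univ, if_true, Finset.sum_const,
      Finset.card_univ, Fintype.card_fin, nsmul_eq_mul]
  have oo : ⟪o, o⟫ = 1 := by
    rw [inner_pN]
    simp only [o, mul_one]
    rw [sum_pw, h.sum, one_pow]
  have ρo : ⟪ρ, o⟫ = 1 := by
    rw [inner_pN]
    simp only [o, mul_one, hρ]
    rw [sum_pw, hν, one_pow]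
  have oF : ⟪o, F⟫ = 0 := by
    rw [hF, inner_sum]
    refine Finset.sum_eq_zero fun i _ => ?_
    rw [inner_pN, ← hd0, ← pw_marginal h.sum i d]
    exact Finset.sum_congr rfl fun x _ => by simp only [o, f, one_mul]
  have ρF : ⟪ρ, F⟫ = N * m := by
    have : ∀ i, ⟪ρ, f i⟫ = m := fun i => by
      rw [inner_pN]
      simp only [← mul_assoc, hρ, f]
      rw [pw_marginal hν i d, hm, ← add_zero (∑ a, μ a * d a ^ 2), ← hd0,
        ← Finset.sum_add_distrib]
      exact Finset.sum_congr rfl fun a _ => by rw [← hd1]; ring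
    rw [hF, inner_sum]
    simp only [this, Finset.sum_const, Finset.card_univ, Fintype.card_fin, nsmul_eq_mul]
  have ρρ : ⟪ρ, ρ⟫ = (1 + m) ^ N := by
    have e : ∑ a, ν a * (1 + d a) = 1 + m := by
      have : ∀ a, ν a * (1 + d a) = μ a + 2 * (μ a * d a) + μ a * d a ^ 2 := fun a => by
        rw [← hd1]; ring
      simp only [this, Finset.sum_add_distrib, ← Finset.mul_sum, h.sum, hd0, ← hm]
      ring
    rw [inner_pN, ← e, ← sum_pw]
    refine Finset.sum_congr rfl fun x _ => ?_
    rw [← mul_assoc, hρ]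
    change pw ν x * pw (fun a => 1 + d a) x = _
    simp only [pw, ← Finset.prod_mul_distrib]
  have rest : ‖ρ - o - F‖ ≤ N * η ^ 2 := by
    have e : ‖ρ - o - F‖ ^ 2 = (1 + m) ^ N - 1 - N * m := by
      rw [norm_sub_sq_real, norm_sub_sq_real, inner_sub_left, FF, ← real_inner_self_eq_norm_sq,
        ← real_inner_self_eq_norm_sq, ρρ, oo, ρo, oF, ρF]
      ring
    have h1 : (1 + m) ^ N ≤ Real.exp (N * m) := by
      rw [Real.exp_nat_mul]
      exact pow_le_pow_left₀ (by linarith) (by linarith [Real.add_one_le_exp m]) N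
    have h2 : N * m ≤ N * η ^ 2 := mul_le_mul_of_nonneg_left hm1 hN0
    have h3 : 0 ≤ N * m := mul_nonneg hN0 hm0
    have h4 := Real.abs_exp_sub_one_sub_id_le (x := N * m) (by rw [abs_of_nonneg h3]; linarith)
    have h5 := (abs_le.1 h4).2
    refine abs_le_of_sq_le_sq' ?_ (by positivity) |>.2
    rw [e]
    nlinarith
  have nF : ‖F‖ ≤ η * √N := by
    refine abs_le_of_sq_le_sq' ?_ (by positivity) |>.2
    rw [FF, mul_pow, Real.sq_sqrt hN0]
    nlinarith
  have nG : ‖G'‖ ≤ 1 := by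
    refine abs_le_of_sq_le_sq' ?_ zero_le_one |>.2
    rw [norm_sq_def]
    calc _ ≤ ∑ x : Fin N → Ω, pw μ x := Finset.sum_le_sum fun x _ =>
          mul_le_of_le_one_right ((pN h N).pos x).le ((sq_le_one_iff_abs_le_one _).2 (hG x))
      _ = _ := by rw [sum_pw, h.sum, one_pow, one_pow]
  have Po : (P (RR h) ^ t) o = o := by
    rw [P_pow_apply]
    exact Function.iterate_fixed (PP_one h.row hNpos) t
  have e1 : ∑ x, pw ν x * (PP K N)^[t] G x = ⟪ρ, (P (RR h) ^ t) G'⟫ := by
    rw [inner_pN, P_pow_apply]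
    exact Finset.sum_congr rfl fun x _ => by rw [← mul_assoc, hρ]
  have e2 : ∑ x, pw μ x * G x = ⟪o, G'⟫ := by
    rw [inner_pN]
    exact Finset.sum_congr rfl fun x _ => by simp only [o, one_mul, G']
  have e3 : ⟪ρ, (P (RR h) ^ t) G'⟫ - ⟪o, G'⟫ =
      ⟪(P (RR h) ^ t) F + (P (RR h) ^ t) (ρ - o - F), G'⟫ := by
    rw [← S.Psy.pow t, ← inner_sub_left, ← map_add, add_sub_cancel, map_sub, Po]
  have hcard : Fintype.card (Fin N) = N := Fintype.card_fin N
  have d1 := S.decay hγ0 hγ (by rw [hcard]; exact hN) NF t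
  have d2 := S.P_pow_norm (by rw [hcard]; exact hNpos) (ρ - o - F) t
  rw [hcard] at d1
  have hg1 : 0 ≤ 1 - γ / (2 * N) := by
    rw [sub_nonneg, div_le_one (by positivity)]
    linarith
  have d3 := mul_le_mul_of_nonneg_left nF
    (show 0 ≤ (1 - γ / (2 * N)) ^ t + 40 / (γ ^ 2 * N) by positivity)
  rw [e1, e2, e3]
  refine (abs_real_inner_le_norm _ _).trans ((mul_le_of_le_one_right (norm_nonneg _) nG).trans
    ((norm_add_le _ _).trans ?_))
  rw [stErr2, mul_assoc]
  linarith

theorem ops_abs_le {σ : Type} {μ : σ → Ω → ℝ} {K : σ → Ω × Ω → Ω × Ω → ℝ} {γ : ℝ} {N : ℕ}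
    (hN : 0 < N) (t : ℕ) {G : (Fin N → Ω) → ℝ} (hG : ∀ x, |G x| ≤ 1) :
    ∀ hist : List σ, (∀ c ∈ hist, Good (μ c) (K c) γ) → ∀ x, |ops K N t hist G x| ≤ 1
  | [], _ => hG
  | c :: rest, hg => by
    have hc := hg c List.mem_cons_self
    exact PP_iter_abs_le hc.nn hc.row hN
      (ops_abs_le hN t hG rest fun c' h' => hg c' (List.mem_cons_of_mem _ h')) t

theorem many_stages {σ : Type} {μ : σ → Ω → ℝ} {K : σ → Ω × Ω → Ω × Ω → ℝ} {γ η : ℝ} {N : ℕ}
    (hγ : γ ≤ 1) (hN : 6 ≤ γ * N) (hη : 0 ≤ η) (hNη : N * η ^ 2 ≤ 1) (t : ℕ) (hist : List σ)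
    (c₀ c₁ : σ) (h0 : hist.head? = some c₀) (h1 : hist.getLast? = some c₁)
    (hg : ∀ c ∈ hist, Good (μ c) (K c) γ)
    (hch : hist.IsChain fun c c' => Close η (μ c) (μ c')) {ν : Ω → ℝ} (hν : ∑ a, ν a = 1)
    (hc : Close η ν (μ c₀)) (G : (Fin N → Ω) → ℝ) (hG : ∀ x, |G x| ≤ 1) :
    |∑ x, pw ν x * ops K N t hist G x - ∑ x, pw (μ c₁) x * G x| ≤
      hist.length * stErr2 γ η N t := by
  have hNpos : 0 < N := by
    rcases Nat.eq_zero_or_pos N with h | h
    · rw [h, Nat.cast_zero, mul_zero] at hN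
      norm_num at hN
    · exact h
  induction hist generalizing c₀ ν with
  | nil => simp at h0
  | cons c rest ih =>
    obtain rfl : c = c₀ := by simpa using h0
    have hg0 := hg c List.mem_cons_self
    have hg' : ∀ c' ∈ rest, Good (μ c') (K c') γ := fun c' h' => hg c' (List.mem_cons_of_mem _ h')
    have m1 := many_body hg0 hγ hN hν hη hc hNη t (ops K N t rest G)
      (ops_abs_le hNpos t hG rest hg')
    have e : ops K N t (c :: rest) G = (PP (K c) N)^[t] (ops K N t rest G) := rfl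
    rw [e]
    cases rest with
    | nil =>
      obtain rfl : c = c₁ := by simpa using h1
      simpa [ops] using m1
    | cons c' rest' =>
      have m2 := ih c' rfl (by simpa using h1) hg' (List.isChain_cons_cons.1 hch).2 hg0.sum
        (List.isChain_cons_cons.1 hch).1
      have := abs_sub_le (∑ x, pw ν x * (PP (K c) N)^[t] (ops K N t (c' :: rest') G) x)
        (∑ x, pw (μ c) x * ops K N t (c' :: rest') G x) (∑ x, pw (μ c₁) x * G x)
      rw [List.length_cons, Nat.cast_succ]
      linarith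

end Vale.Agent.P308
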