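import Vale.Agent.P308.Prog
import Vale.Agent.P308.Many

/-!
The conditions on the parameters of the program.
-/

namespace Vale.Agent.P308

/-- the parameters of the annealing -/
def Par.ap (P : Par) : AP := ⟨P.Θ, P.m, P.T⟩

/-- accuracy of the estimates of the probabilities of the pairs -/
noncomputable def Par.τ (P : Par) (e : ℕ) : ℝ := 1 / (1000 * ((2 * P.n : ℕ) : ℝ) ^ 4 * P.Θ * e)

/-- the linearised gap -/
noncomputable def Par.γ (P : Par) : ℝ :=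
  (1 / (4 * (P.Θ : ℝ)) / (2 * ((2 * P.n : ℕ) : ℝ) ^ 2)) ^ 53

/-- the change of the distribution in one stage -/
noncomputable def Par.η (P : Par) : ℝ := 8 * ((2 * P.n : ℕ) : ℝ) / ((2 ^ P.b : ℕ) : ℝ)

/-- conditions on the parameters for accuracy `e` and confidence `l` -/
structure PCond (P : Par) (e l : ℕ) : Prop where
  hA : ACond P.ap (2 * P.n) e (2 ^ P.b) (P.τ e)
  τ1 : P.τ e ≤ 1
  hb : 0 < P.b
  hK : 2 * P.n ≤ 2 ^ P.K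
  hk1 : 2 * P.n ≤ 2 ^ P.k
  hk2 : 2 ^ P.k ≤ 2 * (2 * P.n)
  hN : P.N = 2 ^ P.a
  hB : 2 * P.a + 2 + 2 * P.k + P.b * (2 * P.n * (2 * P.T)) ≤ P.B
  hBt : P.N * (P.n * P.K) + P.T * (P.t * P.B) ≤ P.Bt
  γ1 : P.γ ≤ 1
  hγ : 6 ≤ P.γ * P.N
  hη : P.N * P.η ^ 2 ≤ 1
  err : P.T * stErr2 P.γ P.η P.N P.t + 4 * (P.n : ℝ) ^ 2 * P.N / 2 ^ P.K ≤ P.τ e / 2
  fail : P.T * (2 * ((2 * P.n : ℕ) : ℝ) ^ 2 * Real.exp (-(P.m * P.τ e ^ 2 / 16))) ≤ (1 / 2) ^ l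

end Vale.Agent.P308
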