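import Vale.Agent.Lib.PTM.Defs
import Mathlib.Combinatorics.SimpleGraph.Basic
import Mathlib.SetTheory.Cardinal.Finite

/-!
The number of perfect matchings of a graph, and the input of the approximation scheme.
-/

namespace Vale.Agent.P308

open Vale.Agent.Lib.PTM

/-- The number of perfect matchings of `G`: sets `M` of edges of `G` such that every vertex lies
in exactly one edge of `M`. -/
noncomputable def numPM {n : ℕ} (G : SimpleGraph (Fin n)) : ℕ :=
  Nat.card {M : Set (Sym2 (Fin n)) // M ⊆ G.edgeSet ∧ ∀ v : Fin n, ∃! e, e ∈ M ∧ v ∈ e}

open Classical in
/-- The adjacency matrix of `G`, written row after row. -/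
noncomputable def adjBits {n : ℕ} (G : SimpleGraph (Fin n)) : List Bool :=
  (List.finRange n).flatMap fun i => (List.finRange n).map fun j => decide (G.Adj i j)

/-- The input: the number of vertices in binary, the adjacency matrix, and the numerators and
denominators of `ε` and `δ` in binary. -/
noncomputable def code {n : ℕ} (G : SimpleGraph (Fin n)) (ε δ : ℚ) : List Bool :=
  pair n.bits (pair (adjBits G) (pair ε.num.natAbs.bits (pair ε.den.bits
    (pair δ.num.natAbs.bits δ.den.bits))))

end Vale.Agent.P308
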