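import Vale.Agent.P308.MDefs
import Vale.Agent.P308.Defs

/-!
The uniform distribution on the perfect matchings of the complete graph.
-/

set_option linter.unusedSectionVars false

namespace Vale.Agent.P308

open Finset

variable {V : Type} [Fintype V] [DecidableEq V]

theorem mu_const {r : ℝ} (hr : 0 < r) (M : PM V) :
    mu (fun _ _ : V => r) M = 1 / Fintype.card (PM V) := by
  have h : (0 : ℝ) < r ^ Fintype.card V := pow_pos hr _
  have h2 : (0 : ℝ) < Fintype.card (PM V) := by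
    exact_mod_cast Fintype.card_pos_iff.2 ⟨M⟩
  simp only [mu, Z, W, prod_const, card_univ, sum_const, nsmul_eq_mul]
  field_simp

theorem xm_const_eq {r : ℝ} (hr : 0 < r) {a b c : V} (hab : a ≠ b) (hac : a ≠ c) :
    xm (fun _ _ : V => r) a b = xm (fun _ _ : V => r) a c := by
  unfold xm
  refine Finset.sum_nbij' (fun M => M.sw b c) (fun M => M.sw b c) (fun _ _ => mem_univ _)
    (fun _ _ => mem_univ _) (fun M _ => M.sw_sw b c) (fun M _ => M.sw_sw b c) fun M _ => ?_
  rw [mu_const hr, mu_const hr, PM.sw_f, Equiv.swap_apply_of_ne_of_ne hab hac]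
  refine if_congr ?_ rfl rfl
  rw [← Equiv.eq_symm_apply, Equiv.symm_swap, Equiv.swap_apply_right]

theorem xm_const {r : ℝ} (hr : 0 < r) (M₀ : PM V) {a b : V} (hab : a ≠ b) :
    xm (fun _ _ : V => r) a b = 1 / ((Fintype.card V : ℝ) - 1) := by
  have hW : Wt (fun _ _ : V => r) := ⟨fun _ _ => rfl, fun _ _ => hr⟩
  have h1 : ∑ c ∈ univ.erase a, xm (fun _ _ : V => r) a c = 1 := by
    unfold xm
    rw [sum_comm, ← sum_mu hW M₀]
    refine sum_congr rfl fun M _ => ?_
    rw [sum_ite_eq, if_pos (mem_erase.2 ⟨M.ne a, mem_univ _⟩)]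
  rw [sum_congr rfl fun c hc => xm_const_eq hr (mem_erase.1 hc).1.symm hab, sum_const,
    card_erase_of_mem (mem_univ a), card_univ, nsmul_eq_mul,
    Nat.cast_sub (Fintype.card_pos_iff.2 ⟨a⟩), Nat.cast_one] at h1
  have h2 : (Fintype.card V : ℝ) - 1 ≠ 0 := fun h => by simp [h] at h1
  field_simp
  linarith

theorem isEmpty_PM_of_odd (h : Odd (Fintype.card V)) : IsEmpty (PM V) := by
  refine ⟨fun M => ?_⟩
  have h1 : ∑ _x : V, (1 : ZMod 2) = 0 :=
    Finset.sum_involution (fun x _ => M.f x) (fun _ _ => by decide) (fun x _ _ => M.ne x)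
      (fun _ _ => mem_univ _) fun x _ => M.inv x
  rw [sum_const, card_univ, nsmul_eq_mul, mul_one, ZMod.natCast_eq_zero_iff_even] at h1
  exact Nat.not_even_iff_odd.2 h h1

open Classical in
theorem numPM_eq {n : ℕ} (G : SimpleGraph (Fin n)) :
    numPM G = nPM fun a b : Fin n => decide (G.Adj a b) := by
  unfold numPM nPM
  rw [← Fintype.card_subtype, ← Nat.card_eq_fintype_card]
  symm
  refine Nat.card_eq_of_bijective (fun M => ⟨{e | ∃ x, e = s(x, M.1.f x)}, ?_, fun v => ?_⟩)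
    ⟨fun M M' h => ?_, fun E => ?_⟩
  · rintro _ ⟨x, rfl⟩
    simpa using M.2 x
  · refine ⟨s(v, M.1.f v), ⟨⟨v, rfl⟩, Sym2.mem_mk_left _ _⟩, ?_⟩
    rintro _ ⟨⟨x, rfl⟩, hv⟩
    rcases Sym2.mem_iff.1 hv with rfl | rfl
    · rfl
    · rw [M.1.inv, Sym2.eq_swap]
  · refine Subtype.ext (PM.ext (funext fun x => ?_))
    have h1 : s(x, M.1.f x) ∈ {e | ∃ x, e = s(x, M'.1.f x)} := by
      have h2 := congrArg Subtype.val h
      simp only at h2
      rw [← h2]
      exact ⟨x, rfl⟩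
    obtain ⟨y, hy⟩ := h1
    rcases Sym2.eq_iff.1 hy with ⟨rfl, h3⟩ | ⟨rfl, h3⟩
    · exact h3
    · rw [M'.1.inv, h3]
  · obtain ⟨E, hE, hu⟩ := E
    have h1 : ∀ x, ∃ y, s(x, y) ∈ E := fun x => by
      obtain ⟨e, ⟨he, hx⟩, -⟩ := hu x
      exact ⟨Sym2.Mem.other hx, by rwa [Sym2.other_spec]⟩
    choose f hf using h1
    have hadj : ∀ x, G.Adj x (f x) := fun x => hE (hf x)
    have huniq : ∀ x y, s(x, y) ∈ E → f x = y := fun x y h => by
      have := (hu x).unique ⟨hf x, Sym2.mem_mk_left _ _⟩ ⟨h, Sym2.mem_mk_left _ _⟩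
      exact Sym2.congr_right.1 this
    refine ⟨⟨⟨f, fun x => huniq _ _ (by rw [Sym2.eq_swap]; exact hf x), fun x => (hadj x).ne'⟩,
      fun x => by simpa using hadj x⟩, Subtype.ext (Set.ext fun e => ⟨?_, fun he => ?_⟩)⟩
    · rintro ⟨x, rfl⟩
      exact hf x
    · induction e using Sym2.ind with
      | h x y => exact ⟨x, by rw [← huniq x y he]⟩

/-! ### the sequential construction of a uniform matching -/

/-- the standard matching `{0,1}, {2,3}, ...` -/
def stdPM (n : ℕ) : PM (Fin (2 * n)) where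
  f x := ⟨if x.val % 2 = 0 then x.val + 1 else x.val - 1, by split_ifs <;> omega⟩
  inv x := by
    ext
    simp only
    split_ifs <;> omega
  ne x h := by
    have := congrArg Fin.val h
    simp only at this
    split_ifs at this <;> omega

theorem stdPM_val (n : ℕ) (x : Fin (2 * n)) :
    ((stdPM n).f x).val = if x.val % 2 = 0 then x.val + 1 else x.val - 1 := rfl

open Classical in
/-- the matchings which contain the first `i` edges of the standard matching -/
noncomputable def UU (n i : ℕ) : Finset (PM (Fin (2 * n))) :=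
  univ.filter fun M => ∀ x : Fin (2 * n), x.val % 2 = 0 → x.val < 2 * i → (M.f x).val = x.val + 1

theorem mem_UU {n i : ℕ} {M : PM (Fin (2 * n))} : M ∈ UU n i ↔
    ∀ x : Fin (2 * n), x.val % 2 = 0 → x.val < 2 * i → (M.f x).val = x.val + 1 := by
  simp [UU]

theorem UU_zero (n : ℕ) : UU n 0 = univ := by
  ext M
  simp [mem_UU]

theorem UU_self (n : ℕ) : UU n n = {stdPM n} := by
  ext M
  rw [mem_UU, mem_singleton]
  constructor
  · intro h
    ext x
    rw [stdPM_val]
    split_ifs with hx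
    · exact h x hx x.2
    · have h1 := h ⟨x.val - 1, by omega⟩ (by simp only; omega) (by simp only; omega)
      have h2 : M.f ⟨x.val - 1, by omega⟩ = x := Fin.ext (by simp only at h1; omega)
      rw [M.eq_comm.1 h2]
  · rintro rfl x hx -
    rw [stdPM_val, if_pos hx]

theorem sw_mem_UU {n i : ℕ} (hi : i < n) {M : PM (Fin (2 * n))} (hM : M ∈ UU n i)
    {r : Fin (2 * n)} (hr : 2 * i + 1 ≤ r.val) : M.sw ⟨2 * i + 1, by omega⟩ r ∈ UU n i := by
  rw [mem_UU] at hM ⊢
  intro x h1 h2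
  have h3 := hM x h1 h2
  have e1 : Equiv.swap (⟨2 * i + 1, by omega⟩ : Fin (2 * n)) r x = x :=
    Equiv.swap_apply_of_ne_of_ne (Fin.ne_of_val_ne (by simp only; omega))
      (Fin.ne_of_val_ne (by omega))
  have e2 : Equiv.swap (⟨2 * i + 1, by omega⟩ : Fin (2 * n)) r (M.f x) = M.f x :=
    Equiv.swap_apply_of_ne_of_ne (Fin.ne_of_val_ne (by simp only; omega))
      (Fin.ne_of_val_ne (by omega))
  rw [PM.sw_f, e1, e2, h3]

theorem sw_apply_even {n i : ℕ} (hi : i < n) (M : PM (Fin (2 * n))) {r : Fin (2 * n)}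
    (hr : 2 * i + 1 ≤ r.val) : (M.sw ⟨2 * i + 1, by omega⟩ r).f ⟨2 * i, by omega⟩ =
      Equiv.swap ⟨2 * i + 1, by omega⟩ r (M.f ⟨2 * i, by omega⟩) := by
  have e1 : Equiv.swap (⟨2 * i + 1, by omega⟩ : Fin (2 * n)) r ⟨2 * i, by omega⟩ =
      ⟨2 * i, by omega⟩ :=
    Equiv.swap_apply_of_ne_of_ne (Fin.ne_of_val_ne (by simp only; omega))
      (Fin.ne_of_val_ne (by simp only; omega))
  rw [PM.sw_f, e1]

theorem mem_UU_succ {n i : ℕ} (hi : i < n) {M : PM (Fin (2 * n))} :
    M ∈ UU n (i + 1) ↔ M ∈ UU n i ∧ M.f ⟨2 * i, by omega⟩ = ⟨2 * i + 1, by omega⟩ := by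
  rw [mem_UU, mem_UU]
  constructor
  · intro h
    exact ⟨fun x h1 h2 => h x h1 (by omega),
      Fin.ext (h ⟨2 * i, by omega⟩ (by simp only; omega) (by simp only; omega))⟩
  · rintro ⟨h, h'⟩ x h1 h2
    by_cases h3 : x.val < 2 * i
    · exact h x h1 h3
    · have : x = ⟨2 * i, by omega⟩ := Fin.ext (by simp only; omega)
      rw [this, h']

theorem le_partner {n i : ℕ} (hi : i < n) {M : PM (Fin (2 * n))} (hM : M ∈ UU n i) :
    2 * i + 1 ≤ (M.f ⟨2 * i, by omega⟩).val := by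
  rw [mem_UU] at hM
  by_contra hc
  set r := M.f ⟨2 * i, by omega⟩ with hr
  have h0 : r.val ≠ 2 * i := fun h => M.ne ⟨2 * i, by omega⟩ (Fin.ext h)
  have h1 : M.f r = ⟨2 * i, by omega⟩ := M.inv _
  by_cases h2 : r.val % 2 = 0
  · have := hM r h2 (by omega)
    rw [h1] at this
    simp only at this
    omega
  · have h3 := hM ⟨r.val - 1, by omega⟩ (by simp only; omega) (by simp only; omega)
    have h4 : M.f ⟨r.val - 1, by omega⟩ = r := Fin.ext (by simp only at h3; omega)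
    have h5 := congrArg Fin.val (M.inj (h4.trans hr))
    simp only at h5
    omega

/-- one step of the construction -/
theorem sum_UU {n i : ℕ} (hi : i < n) {β : Type} [AddCommMonoid β] (g : PM (Fin (2 * n)) → β) :
    ∑ M ∈ UU n i, g M = ∑ M ∈ UU n (i + 1),
      ∑ r ∈ univ.filter (fun r : Fin (2 * n) => 2 * i + 1 ≤ r.val),
        g (M.sw ⟨2 * i + 1, by omega⟩ r) := by
  rw [← Finset.sum_product']
  refine Finset.sum_nbij'
    (fun M => (M.sw ⟨2 * i + 1, by omega⟩ (M.f ⟨2 * i, by omega⟩), M.f ⟨2 * i, by omega⟩))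
    (fun p => p.1.sw ⟨2 * i + 1, by omega⟩ p.2) (fun M hM => ?_) (fun p hp => ?_)
    (fun M _ => M.sw_sw _ _) (fun p hp => ?_) fun M _ => by rw [PM.sw_sw]
  · have h := le_partner hi hM
    refine mem_product.2 ⟨(mem_UU_succ hi).2 ⟨sw_mem_UU hi hM h, ?_⟩,
      mem_filter.2 ⟨mem_univ _, h⟩⟩
    rw [sw_apply_even hi M h, Equiv.swap_apply_right]
  · obtain ⟨h1, h2⟩ := mem_product.1 hp
    exact sw_mem_UU hi ((mem_UU_succ hi).1 h1).1 (mem_filter.1 h2).2
  · obtain ⟨h1, h2⟩ := mem_product.1 hp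
    have h3 : (p.1.sw ⟨2 * i + 1, by omega⟩ p.2).f ⟨2 * i, by omega⟩ = p.2 := by
      rw [sw_apply_even hi _ (mem_filter.1 h2).2, ((mem_UU_succ hi).1 h1).2,
        Equiv.swap_apply_left]
    simp only [h3, PM.sw_sw]

theorem card_filter_ge (m k : ℕ) :
    (univ.filter fun r : Fin m => k ≤ r.val).card = m - k := by
  rw [← Nat.card_Ico k m]
  refine Finset.card_nbij Fin.val (fun r hr => ?_) (fun _ _ _ _ h => Fin.ext h) fun x hx => ?_
  · simp only [coe_filter, mem_univ, true_and, Set.mem_ofPred_eq] at hr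
    simp only [coe_Ico, Set.mem_Ico]
    exact ⟨hr, r.2⟩
  · simp only [coe_Ico, Set.mem_Ico] at hx
    exact ⟨⟨x, hx.2⟩, by simpa using hx.1, rfl⟩

theorem card_UU_succ {n i : ℕ} (hi : i < n) :
    (UU n i).card = (UU n (i + 1)).card * (2 * n - (2 * i + 1)) := by
  have h := sum_UU hi (fun _ => (1 : ℕ))
  simpa only [sum_const, card_filter_ge, smul_eq_mul, mul_one] using h

theorem card_UU (n k : ℕ) (hk : k ≤ n) : (UU n (n - k)).card = ∏ i ∈ range k, (2 * i + 1) := by
  induction k with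
  | zero => simp [UU_self]
  | succ k ih =>
    rw [card_UU_succ (by omega), show n - (k + 1) + 1 = n - k by omega, ih (by omega),
      prod_range_succ]
    congr 1
    omega

theorem card_PM (n : ℕ) : Fintype.card (PM (Fin (2 * n))) = ∏ i ∈ range n, (2 * i + 1) := by
  rw [← card_UU n n le_rfl, Nat.sub_self, UU_zero, card_univ]

/-- averages: the average over `UU n i` is obtained from the average over `UU n (i+1)` by a
uniform switch -/
theorem avg_UU {n i : ℕ} (hi : i < n) (g : PM (Fin (2 * n)) → ℝ) :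
    (∑ M ∈ UU n i, g M) / (UU n i).card =
      (∑ M ∈ UU n (i + 1), (∑ r ∈ univ.filter (fun r : Fin (2 * n) => 2 * i + 1 ≤ r.val),
        g (M.sw ⟨2 * i + 1, by omega⟩ r)) / ((2 * n - (2 * i + 1) : ℕ) : ℝ)) /
          (UU n (i + 1)).card := by
  rw [sum_UU hi, card_UU_succ hi, ← sum_div, div_div, Nat.cast_mul,
    mul_comm ((UU n (i + 1)).card : ℝ)]

end Vale.Agent.P308
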