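import Vale.Agent.P308.Comm1
import Vale.Agent.P308.PCond
import Vale.Agent.P308.Unif

/-!
The program on lists follows the abstract algorithm: the annealing.
-/

namespace Vale.Agent.P308

open Finset Vale.Agent.Lib.PTM Vale.Agent.Lib.PolyTime

variable {v : ℕ}

/-- the code of a state of the main loop -/
def encS (hist : List (Fin v → Fin v → ℕ)) (s : AS (Fin v)) : St :=
  (hist.map encC, s.up, s.dn, s.done)

theorem anyL_iff {f : ℕ → ℕ → Bool} {p : Fin v → Fin v → Prop}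
    (h : ∀ x y : Fin v, f x y = true ↔ p x y) : anyL v f = true ↔ ∃ x y, p x y := by
  unfold anyL
  simp only [List.any_eq_true, List.mem_range]
  exact ⟨fun ⟨x, hx, y, hy, e⟩ => ⟨⟨x, hx⟩, ⟨y, hy⟩, (h ⟨x, hx⟩ ⟨y, hy⟩).1 e⟩,
    fun ⟨x, y, e⟩ => ⟨x, x.2, y, y.2, (h x y).2 e⟩⟩

theorem sumL_eq {f : ℕ → ℕ → Bool} {p : Fin v → Fin v → Prop} [∀ x y, Decidable (p x y)]
    (h : ∀ x y : Fin v, f x y = true ↔ p x y) (cnt : Fin v → Fin v → ℕ) :
    sumL v f (encC cnt) = ∑ x, ∑ y, if p x y then cnt x y else 0 := by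
  unfold sumL
  simp only [mk_eq, List.sum_ofFn, h, at2_encC]

theorem reach_up {V : Type} [Fintype V] [DecidableEq V] {P : AP} {adj : V → V → Bool} {q τ : ℝ}
    {k : ℕ} {s : AS V} (h : Reach P adj q τ k s) :
    s.up ≤ k * Fintype.card V ^ 2 * P.m ∧ s.dn ≤ k * Fintype.card V ^ 2 * P.m := by
  induction h with
  | zero => simp [ainit]
  | @succ k s cnt _ ha ih =>
    have e : ∀ (p : V → V → Prop) [∀ x y, Decidable (p x y)],
        (∑ x, ∑ y, if p x y then cnt x y else 0) ≤ Fintype.card V ^ 2 * P.m := by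
      intro p _
      refine (sum_le_card_nsmul _ _ (Fintype.card V * P.m) fun x _ =>
        sum_le_card_nsmul _ _ P.m fun y _ => ?_).trans (by simp [sq, mul_assoc])
      split_ifs
      · exact ha.2.1 x y
      · exact Nat.zero_le _
    have e1 := e (lowP P cnt)
    have e2 := e (highP P adj s.c cnt)
    rw [add_mul, add_mul, one_mul]
    unfold astep
    split_ifs
    · omega
    all_goals dsimp only; omega

variable {P : Par}

theorem tabL_eq {f : ℕ → ℕ → ℕ} {c : Fin (2 * P.n) → Fin (2 * P.n) → ℕ}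
    (h : ∀ x y : Fin (2 * P.n), f x y = c x y) (hc : ∀ x y, c x y ≤ 2 * P.T) :
    tabL P f = encC c :=
  mk_eq_ofFn fun x => mk_eq_ofFn fun y => by rw [h, min_eq_left (hc x y)]

theorem updL_enc {adjL : List Bool} {adj : Fin (2 * P.n) → Fin (2 * P.n) → Bool}
    (hadj : ∀ x y : Fin (2 * P.n), adjL.getD (x * (2 * P.n) + y) false = adj x y)
    (hist : List (Fin (2 * P.n) → Fin (2 * P.n) → ℕ)) (s : AS (Fin (2 * P.n)))
    (cnt : Fin (2 * P.n) → Fin (2 * P.n) → ℕ)
    (hc : ∀ x y, (astep P.ap adj s cnt).c x y ≤ 2 * P.T) :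
    updL P adjL (encS hist s) (encC s.c) (encC cnt) =
      encS (hist ++ [(astep P.ap adj s cnt).c]) (astep P.ap adj s cnt) := by
  have hl : ∀ x y : Fin (2 * P.n), lowL P (encC cnt) x y = true ↔ lowP P.ap cnt x y := by
    intro x y
    simp [lowL, lowP, at2_encC, Par.ap, Fin.val_inj]
  have hh : ∀ x y : Fin (2 * P.n), highL P adjL (encC s.c) (encC cnt) x y = true ↔
      highP P.ap adj s.c cnt x y := by
    intro x y
    unfold highL highP
    rw [hadj]
    simp [at2_encC, Par.ap, Fin.val_inj, and_assoc]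
  unfold updL
  unfold astep at hc ⊢
  simp only [anyL_iff hl, anyL_iff hh, sumL_eq hl, sumL_eq hh, encS, List.map_append,
    List.map_cons, List.map_nil]
  split_ifs at hc ⊢ with h1 h2 h3
  · rw [tabL_eq (at2_encC s.c) hc, h1]
  · rw [tabL_eq (fun x y => by simp only [hl, at2_encC]) hc]
  · rw [tabL_eq (fun x y => by simp only [hh, at2_encC]) hc]
  · rw [tabL_eq (at2_encC s.c) hc]

theorem outL_enc (hist : List (Fin (2 * P.n) → Fin (2 * P.n) → ℕ)) {s : AS (Fin (2 * P.n))}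
    (h1 : s.up ≤ P.T * (2 * P.n) ^ 2 * P.m) (h2 : s.dn ≤ P.T * (2 * P.n) ^ 2 * P.m) :
    outL P (encS hist s) = aout P.ap (2 ^ P.b) (Fintype.card (PM (Fin (2 * P.n)))) s := by
  unfold outL aout encS rnd
  rw [card_PM, min_eq_left (Nat.div_le_of_le_mul (h1.trans_eq (mul_comm _ _))),
    min_eq_left (Nat.div_le_of_le_mul (h2.trans_eq (mul_comm _ _)))]
  rfl

end Vale.Agent.P308
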