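import Vale.Agent.P308.Lists2
import Vale.Agent.P308.MDefs

/-!
The four point inequality and the path property of saturated weights.
-/

set_option linter.unusedSectionVars false

namespace Vale.Agent.P308

open Finset

variable {V : Type} [Fintype V] [DecidableEq V] [Inhabited V] {om : V → V → ℝ} {κ : ℝ}

theorem fp_prs_prefix (M : PM V) : ∀ (l l' : List V), Prs M (l ++ l') → Prs M l
  | [], _, _ => trivial
  | [_], _, _ => trivial
  | _ :: _ :: l, l', h => ⟨h.1, fp_prs_prefix M l l' h.2⟩

theorem fp_prs_split (M : PM V) (x : V) : ∀ l : List V, Even l.length → Prs M l → x ∈ l →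
    ∃ A a b B, l = A ++ a :: b :: B ∧ Even A.length ∧ M.f a = b ∧ (x = a ∨ x = b)
  | [], _, _, hx => by simp at hx
  | [_], he, _, _ => by simp at he
  | a :: b :: l, he, hp, hx => by
    by_cases h1 : x = a ∨ x = b
    · exact ⟨[], a, b, l, rfl, by simp, hp.1, h1⟩
    · have hx' : x ∈ l := by
        simp only [List.mem_cons] at hx
        tauto
      have he' : Even l.length := by
        simp only [List.length_cons, Nat.even_add_one, not_not] at he
        exact he
      obtain ⟨A, c, d, B, h2, h3, h4, h5⟩ := fp_prs_split M x l he' hp.2 hx'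
      refine ⟨a :: b :: A, c, d, B, by simp [h2], ?_, h4, h5⟩
      simp only [List.length_cons, Nat.even_add_one, not_not]
      exact h3

theorem fp_xm_nonneg (h : Wt om) (a b : V) : 0 ≤ xm om a b :=
  sum_nonneg fun M _ => by
    split_ifs
    · exact (mu_pos h M).le
    · exact le_rfl

theorem fp_xm_le_one (h : Wt om) (a b : V) : xm om a b ≤ 1 :=
  (sum_le_sum fun M _ => by
    split_ifs
    · exact le_rfl
    · exact (mu_pos h M).le).trans (sum_mu_le h)

theorem fp_xm_symm (a b : V) : xm om a b = xm om b a :=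
  sum_congr rfl fun M _ => by simp only [M.eq_comm (a := a)]

theorem fp_sum_pair (a b c d : V) :
    ∑ p : PM V × PM V, (if p.1.f a = b ∧ p.2.f c = d then mu2 om p else 0) =
      xm om a b * xm om c d := by
  rw [Fintype.sum_prod_type, xm, xm, sum_mul_sum]
  refine sum_congr rfl fun M _ => sum_congr rfl fun F _ => ?_
  by_cases h1 : M.f a = b <;> by_cases h2 : F.f c = d <;> simp [h1, h2, mu2]

theorem fp_sum_snd (h : Wt om) (c d : V) :
    ∑ p : PM V × PM V, (if p.2.f c = d then mu2 om p else 0) ≤ xm om c d := by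
  have e : ∑ p : PM V × PM V, (if p.2.f c = d then mu2 om p else 0) =
      (∑ M : PM V, mu om M) * xm om c d := by
    rw [Fintype.sum_prod_type, xm, sum_mul_sum]
    refine sum_congr rfl fun M _ => sum_congr rfl fun F _ => ?_
    by_cases h2 : F.f c = d <;> simp [h2, mu2]
  rw [e]
  exact mul_le_of_le_one_left (fp_xm_nonneg h c d) (sum_mu_le h)

theorem fp_sum_fst (h : Wt om) (c d : V) :
    ∑ p : PM V × PM V, (if p.1.f c = d then mu2 om p else 0) ≤ xm om c d := by
  have e : ∑ p : PM V × PM V, (if p.1.f c = d then mu2 om p else 0) =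
      xm om c d * ∑ M : PM V, mu om M := by
    rw [Fintype.sum_prod_type, xm, sum_mul_sum]
    refine sum_congr rfl fun M _ => sum_congr rfl fun F _ => ?_
    by_cases h2 : M.f c = d <;> simp [h2, mu2]
  rw [e]
  exact mul_le_of_le_one_right (fp_xm_nonneg h c d) (sum_mu_le h)

/-- the three cases of the four point inequality -/
theorem fp_cases (h : Wt om) {u v y z : V} (hyz : y ≠ z) (hvz : v ≠ z)
    {p : PM V × PM V} (h1 : p.1.f u = z) (h2 : p.2.f v = y) :
    ((sw2 z v (sig u p)).2.f y = z ∧
      mu2 om (sw2 z v (sig u p)) * (om u z * om v y) ^ 2 = mu2 om p * (om u v * om y z) ^ 2) ∨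
    ((tau z v p).1.f y = z ∧
      mu2 om (tau z v p) * (om u z * om v y) ^ 2 = mu2 om p * (om u v * om y z) ^ 2) ∨
    (((tau z y p).1.f v = z ∧ (tau z y p).2.f u = y) ∧
      mu2 om (tau z y p) * (om u z * om v y) ^ 2 = mu2 om p * (om v z * om u y) ^ 2) := by
  obtain ⟨l, hl, hu⟩ := exists_cy p.swap u
  have hul : u ∈ l := hu ▸ hd_mem hl.ne
  have h2' : p.2.f y = v := p.2.eq_comm.1 h2
  by_cases hv : v ∈ l
  · right
    obtain ⟨A, a, b, B, rfl, hA, hab, hva⟩ := fp_prs_split p.2 v l hl.ev hl.a hv
    have e : A ++ a :: b :: B = (A ++ [a]) ++ b :: B := by simp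
    have hne : A ++ [a] ≠ [] := by simp
    have hod : Od p (A ++ [a]) := by
      refine ⟨?_, ?_, ?_, ?_⟩
      · have := hl.nd
        rw [e] at this
        exact this.of_append_left
      · rw [List.length_append, List.length_singleton]
        exact hA.add_one
      · have := hl.b
        rw [e, List.tail_append_of_ne_nil hne] at this
        exact fp_prs_prefix _ _ _ this
      · have := hl.a
        rw [e] at this
        exact fp_prs_prefix _ _ _ this
    have hhd : hd (A ++ [a]) = u := by rw [← hu, e, hd_append hne]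
    have hlt : lt (A ++ [a]) = a := lt_concat A a
    obtain ⟨-, -, t1, -, -, t2⟩ := hod.tau_spec
    have t3 := hod.mu2_tau h
    rw [tauL] at t1 t2 t3
    rw [hhd, hlt, h1, hab] at t1 t2 t3
    rcases hva with rfl | rfl
    · obtain rfl : b = y := hab.symm.trans h2
      refine Or.inr ⟨⟨t1, t2⟩, ?_⟩
      rw [h.symm u z, h.symm v z]
      exact t3
    · obtain rfl : a = y := p.2.inj (hab.trans h2'.symm)
      refine Or.inl ⟨t1, ?_⟩
      rw [h.symm u z, h.symm v a, h.symm a z, mul_comm (om u v)]
      exact t3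
  · left
    have hc : cyc p u = l.toFinset := by rw [← cyc_swap, hl.cyc_eq hul]
    have hcl := cl_cyc p u
    have e1 : (sig u p).2.f u = z := by rw [sig_snd, if_pos (self_mem_cyc p u), h1]
    have e2 : (sig u p).2.f v = y := by rw [sig_snd, if_neg (by rw [hc]; simpa using hv), h2]
    have e1' : (sig u p).2.f z = u := (sig u p).2.eq_comm.1 e1
    have huv : u ≠ v := fun e => hv (e ▸ hul)
    have hne : (sig u p).2.f z ≠ v := by rw [e1']; exact huv
    refine ⟨?_, ?_⟩
    · have := (sig u p).2.sw_partner' hne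
      rwa [e2] at this
    · have := mu_sw h (sig u p).2 hvz.symm hne
      rw [e1', e2] at this
      rw [← mu2_sig u p, h.symm v y]
      simp only [mu2, sw2]
      rw [mul_assoc, this, mul_assoc]

theorem fp_sum_inj (φ : PM V × PM V → PM V × PM V) (hφ : Function.Injective φ)
    (G : PM V × PM V → ℝ) : ∑ p, G (φ p) = ∑ p, G p :=
  (Equiv.ofBijective φ (Finite.injective_iff_bijective.1 hφ)).sum_comp G

theorem four_point (h : Wt om) {u v y z : V} (_huv : u ≠ v) (_huy : u ≠ y) (_huz : u ≠ z)
    (_hvy : v ≠ y) (hvz : v ≠ z) (hyz : y ≠ z) :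
    xm om u z / om u z ^ 2 * (xm om v y / om v y ^ 2) ≤
      xm om v z / om v z ^ 2 * (xm om u y / om u y ^ 2) +
        2 * (xm om y z / om y z ^ 2) / om u v ^ 2 := by
  have p1 := h.pos u z
  have p2 := h.pos v y
  have p3 := h.pos v z
  have p4 := h.pos u y
  have p5 := h.pos y z
  have p6 := h.pos u v
  set Ga : PM V × PM V → ℝ := fun q => if q.2.f y = z then mu2 om q else 0 with hGa
  set Gb : PM V × PM V → ℝ := fun q => if q.1.f y = z then mu2 om q else 0 with hGb
  set Gc : PM V × PM V → ℝ := fun q => if q.1.f v = z ∧ q.2.f u = y then mu2 om q else 0 with hGc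
  have na : ∀ q, 0 ≤ Ga q := fun q => by
    simp only [hGa]
    split_ifs
    · exact (mu2_pos h q).le
    · exact le_rfl
  have nb' : ∀ q, 0 ≤ Gb q := fun q => by
    simp only [hGb]
    split_ifs
    · exact (mu2_pos h q).le
    · exact le_rfl
  have nc : ∀ q, 0 ≤ Gc q := fun q => by
    simp only [hGc]
    split_ifs
    · exact (mu2_pos h q).le
    · exact le_rfl
  have key : ∀ p : PM V × PM V,
      (if p.1.f u = z ∧ p.2.f v = y then mu2 om p else 0) / (om u z * om v y) ^ 2 ≤
        Ga (sw2 z v (sig u p)) / (om u v * om y z) ^ 2 + Gb (tau z v p) / (om u v * om y z) ^ 2 +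
          Gc (tau z y p) / (om v z * om u y) ^ 2 := by
    intro p
    have q1 : 0 ≤ Ga (sw2 z v (sig u p)) / (om u v * om y z) ^ 2 := div_nonneg (na _) (sq_nonneg _)
    have q2 : 0 ≤ Gb (tau z v p) / (om u v * om y z) ^ 2 := div_nonneg (nb' _) (sq_nonneg _)
    have q3 : 0 ≤ Gc (tau z y p) / (om v z * om u y) ^ 2 := div_nonneg (nc _) (sq_nonneg _)
    split_ifs with hp
    · rcases fp_cases h hyz hvz hp.1 hp.2 with ⟨c1, c2⟩ | ⟨c1, c2⟩ | ⟨c1, c2⟩
      · have : mu2 om p / (om u z * om v y) ^ 2 =
            Ga (sw2 z v (sig u p)) / (om u v * om y z) ^ 2 := by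
          simp only [hGa]
          rw [if_pos c1, div_eq_div_iff (by positivity) (by positivity), c2]
        linarith
      · have : mu2 om p / (om u z * om v y) ^ 2 = Gb (tau z v p) / (om u v * om y z) ^ 2 := by
          simp only [hGb]
          rw [if_pos c1, div_eq_div_iff (by positivity) (by positivity), c2]
        linarith
      · have : mu2 om p / (om u z * om v y) ^ 2 = Gc (tau z y p) / (om v z * om u y) ^ 2 := by
          simp only [hGc]
          rw [if_pos c1, div_eq_div_iff (by positivity) (by positivity), c2]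
        linarith
    · rw [zero_div]
      linarith
  have hs := sum_le_sum fun p (_ : p ∈ (univ : Finset (PM V × PM V))) => key p
  rw [sum_add_distrib, sum_add_distrib, ← sum_div, ← sum_div, ← sum_div, ← sum_div, fp_sum_pair,
    fp_sum_inj (fun p => sw2 z v (sig u p)) ((sw2_inj z v).comp (sig_inj u)) Ga,
    fp_sum_inj _ (tau_inj z v) Gb, fp_sum_inj _ (tau_inj z y) Gc, fp_sum_pair] at hs
  have ha : ∑ q, Ga q ≤ xm om y z := fp_sum_snd h y z
  have hb : ∑ q, Gb q ≤ xm om y z := fp_sum_fst h y z
  have ha' := div_le_div_of_nonneg_right ha (sq_nonneg (om u v * om y z))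
  have hb' := div_le_div_of_nonneg_right hb (sq_nonneg (om u v * om y z))
  have e1 : xm om u z / om u z ^ 2 * (xm om v y / om v y ^ 2) =
      xm om u z * xm om v y / (om u z * om v y) ^ 2 := by field_simp
  have e2 : xm om v z / om v z ^ 2 * (xm om u y / om u y ^ 2) =
      xm om v z * xm om u y / (om v z * om u y) ^ 2 := by field_simp
  have e3 : 2 * (xm om y z / om y z ^ 2) / om u v ^ 2 =
      2 * (xm om y z / (om u v * om y z) ^ 2) := by field_simp
  rw [e1, e2, e3]
  linarith

/-- rescaling at the vertices does not change the distribution -/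
theorem fp_mu_scale (t : V → ℝ) (ht : ∀ a, 0 < t a) (M : PM V) :
    mu (fun a b => om a b * (t a * t b)) M = mu om M := by
  have hW : ∀ F : PM V, W (fun a b => om a b * (t a * t b)) F = W om F * (∏ a, t a) ^ 2 := by
    intro F
    unfold W
    rw [prod_mul_distrib, prod_mul_distrib, sq]
    congr 2
    exact (Equiv.ofBijective F.f (Finite.injective_iff_bijective.1 F.inj)).prod_comp t
  have hP : (0 : ℝ) < (∏ a, t a) ^ 2 := pow_pos (prod_pos fun a _ => ht a) 2
  unfold mu Z
  rw [hW, sum_congr rfl fun F _ => hW F, ← sum_mul, mul_div_mul_right _ _ hP.ne']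

theorem fp_str_le (h : Wt om) {o : V} : ∀ l : List V, l.Nodup → 2 ≤ l.length → o ∈ l →
    ∃ c, c ≠ o ∧ str om l ≤ om c o
  | [], _, h2, _ => by simp at h2
  | [_], _, h2, _ => by simp at h2
  | a :: b :: l, hn, _, ho => by
    have hab : a ≠ b := fun e => (List.nodup_cons.1 hn).1 (e ▸ List.mem_cons_self)
    by_cases h1 : o = a
    · exact ⟨b, by rw [h1]; exact hab.symm, by rw [h1, h.symm b a]; exact min_le_left _ _⟩
    by_cases h2 : o = b
    · exact ⟨a, by rw [h2]; exact hab, by rw [h2]; exact min_le_left _ _⟩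
    have ho' : o ∈ l := by
      simp only [List.mem_cons] at ho
      tauto
    obtain ⟨c, hc, hc'⟩ := fp_str_le h (b :: l) (List.nodup_cons.1 hn).2
      (by have := List.length_pos_of_mem ho'; simp only [List.length_cons]; omega)
      (List.mem_cons_of_mem _ ho')
    exact ⟨c, hc, (min_le_right _ _).trans hc'⟩

/-- a quasi-metric is bounded along paths -/
theorem fp_chain {om' D : V → V → ℝ} {o : V} {C s : ℝ} (hC : 1 ≤ C) (hs : 0 < s)
    (hsymm : ∀ a b, D a b = D b a)
    (htri : ∀ u v z, u ≠ o → v ≠ o → z ≠ o → u ≠ v → u ≠ z → v ≠ z → D u z ≤ D v z + C * D u v)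
    (hD : ∀ a b, a ≠ o → b ≠ o → a ≠ b → s ≤ om' a b → D a b ≤ 1 / s ^ 2) :
    ∀ l : List V, l.Nodup → o ∉ l → s ≤ str om' l → ∀ a ∈ l, ∀ b ∈ l, a ≠ b →
      D a b ≤ C * l.length / s ^ 2
  | [], _, _, _, a, ha, _, _, _ => by simp at ha
  | [c], _, _, _, a, ha, b, hb, hab => by
    simp only [List.mem_singleton] at ha hb
    exact absurd (ha.trans hb.symm) hab
  | u :: v :: l, hn, ho, hstr, a, ha, b, hb, hab => by
    have hn' := List.nodup_cons.1 hn
    have ho' : o ∉ v :: l := fun e => ho (List.mem_cons_of_mem _ e)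
    have huo : u ≠ o := fun e => ho (e ▸ List.mem_cons_self)
    have hvo : v ≠ o := fun e => ho' (e ▸ List.mem_cons_self)
    have huv : u ≠ v := fun e => hn'.1 (e ▸ List.mem_cons_self)
    have ih := fp_chain hC hs hsymm htri hD (v :: l) hn'.2 ho' (hstr.trans (min_le_right _ _))
    have h1 : D u v ≤ 1 / s ^ 2 := hD u v huo hvo huv (hstr.trans (min_le_left _ _))
    have hs2 : 0 < 1 / s ^ 2 := by positivity
    have hlen : ((u :: v :: l).length : ℝ) = ((v :: l).length : ℝ) + 1 := by simp
    have hl0 : (0 : ℝ) ≤ ((v :: l).length : ℝ) := Nat.cast_nonneg _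
    have e : ∀ x : ℝ, C * x / s ^ 2 = C * x * (1 / s ^ 2) := fun x => by ring
    have hu : ∀ z ∈ v :: l, D u z ≤ C * ((u :: v :: l).length : ℝ) / s ^ 2 := by
      intro z hz
      rw [hlen, e]
      by_cases hzv : z = v
      · rw [hzv]
        refine h1.trans (le_mul_of_one_le_left hs2.le ?_)
        nlinarith
      · have h2 := ih v List.mem_cons_self z hz (Ne.symm hzv)
        have h3 := htri u v z huo hvo (fun e => ho' (e ▸ hz)) huv (fun e => hn'.1 (e ▸ hz))
          (Ne.symm hzv)
        rw [e] at h2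
        have h4 : C * D u v ≤ C * (1 / s ^ 2) := mul_le_mul_of_nonneg_left h1 (by linarith)
        nlinarith
    rcases List.mem_cons.1 ha with rfl | ha'
    · rcases List.mem_cons.1 hb with rfl | hb'
      · exact absurd rfl hab
      · exact hu b hb'
    · rcases List.mem_cons.1 hb with rfl | hb'
      · rw [hsymm]
        exact hu a ha'
      · refine (ih a ha' b hb' hab).trans ?_
        rw [hlen, e, e]
        have : 0 ≤ C * (1 / s ^ 2) := by positivity
        nlinarith

theorem fp_str_pos (h : Wt om) : ∀ l : List V, 0 < str om l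
  | [] => sum_pos (fun a _ => sum_pos (fun b _ => h.pos a b) univ_nonempty) univ_nonempty
  | [_] => sum_pos (fun a _ => sum_pos (fun b _ => h.pos a b) univ_nonempty) univ_nonempty
  | a :: b :: l => lt_min (h.pos a b) (fp_str_pos h (b :: l))

theorem path_of_sat (h : Wt om) {θ : ℝ} (hθ : 0 < θ) (h2 : 2 ≤ Fintype.card V) (hs : Sat om θ) :
    ∃ om' : V → V → ℝ, (∀ M, mu om' M = mu om M) ∧ Hyp om' (θ / (2 * Fintype.card V)) := by
  set o : V := default with ho
  have hn : (2 : ℝ) ≤ Fintype.card V := by exact_mod_cast h2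
  have hθ1 : θ ≤ 1 := by
    obtain ⟨a, b, hab⟩ := Fintype.exists_pair_of_one_lt_card (α := V) (by omega)
    exact (hs a b hab).trans (fp_xm_le_one h a b)
  set w : V → V → ℝ := fun a b => xm om a b / om a b ^ 2 with hw
  have wpos : ∀ a b, a ≠ b → 0 < w a b := fun a b hab =>
    div_pos (hθ.trans_le (hs a b hab)) (pow_pos (h.pos a b) 2)
  have wsymm : ∀ a b, w a b = w b a := fun a b => by simp only [hw, fp_xm_symm a b, h.symm a b]
  set t0 : V → ℝ := fun a => if a = o then 1 else √(w a o) with ht0
  have t0pos : ∀ a, 0 < t0 a := fun a => by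
    simp only [ht0]
    split_ifs with ha
    · exact one_pos
    · exact Real.sqrt_pos.2 (wpos a o ha)
  have t0sq : ∀ a, a ≠ o → t0 a ^ 2 = w a o := fun a ha => by
    simp only [ht0, if_neg ha]
    exact Real.sq_sqrt (wpos a o ha).le
  obtain ⟨s, hs0, hsle⟩ : ∃ s : ℝ, 0 < s ∧ ∀ a b, s ≤ om a b * (t0 a * t0 b) := by
    obtain ⟨q, -, hq⟩ := exists_min_image (univ : Finset (V × V))
      (fun q => om q.1 q.2 * (t0 q.1 * t0 q.2)) univ_nonempty
    exact ⟨_, mul_pos (h.pos _ _) (mul_pos (t0pos _) (t0pos _)), fun a b => hq (a, b) (mem_univ _)⟩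
  set t : V → ℝ := fun a => if a = o then s else t0 a with ht
  have tpos : ∀ a, 0 < t a := fun a => by
    simp only [ht]
    split_ifs
    · exact hs0
    · exact t0pos a
  have tne : ∀ a, a ≠ o → t a = t0 a := fun a ha => by simp only [ht, if_neg ha]
  have to' : t o = s := by simp only [ht, if_pos]
  set om' : V → V → ℝ := fun a b => om a b * (t a * t b) with hom'
  have hwt : Wt om' := ⟨fun a b => by simp only [hom', h.symm a b, mul_comm (t a)],
    fun a b => mul_pos (h.pos a b) (mul_pos (tpos a) (tpos b))⟩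
  set κ : ℝ := θ / (2 * Fintype.card V) with hκ
  have κpos : 0 < κ := by positivity
  have κle : κ ≤ θ := by
    rw [hκ, div_le_iff₀ (by positivity)]
    nlinarith
  have hsq_o : ∀ a, a ≠ o → om' a o ^ 2 = xm om a o * s ^ 2 := fun a ha => by
    have := h.pos a o
    simp only [hom']
    rw [to', tne a ha, mul_pow, mul_pow, t0sq a ha]
    simp only [hw]
    field_simp
  set D : V → V → ℝ := fun a b => w a b / (w a o * w b o) with hD
  have hsq : ∀ a b, a ≠ o → b ≠ o → om' a b ^ 2 * D a b = xm om a b := fun a b ha hb => by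
    have := h.pos a b
    have p1 := wpos a o ha
    have p2 := wpos b o hb
    simp only [hom', hD]
    rw [tne a ha, tne b hb, mul_pow, mul_pow, t0sq a ha, t0sq b hb]
    have e : w a b = xm om a b / om a b ^ 2 := rfl
    rw [e]
    field_simp
  have htri : ∀ u v z, u ≠ o → v ≠ o → z ≠ o → u ≠ v → u ≠ z → v ≠ z →
      D u z ≤ D v z + 2 / θ * D u v := by
    intro u v z hu hv hz huv huz hvz
    have f := four_point h huv hu huz hv hvz (Ne.symm hz)
    change w u z * w v o ≤ w v z * w u o + 2 * w o z / om u v ^ 2 at f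
    rw [wsymm o z] at f
    have p1 := wpos u o hu
    have p2 := wpos v o hv
    have p3 := wpos z o hz
    have p4 := h.pos u v
    have g : 1 / om u v ^ 2 ≤ w u v / θ := by
      simp only [hw]
      rw [div_div, div_le_div_iff₀ (by positivity) (by positivity)]
      nlinarith [hs u v huv, pow_pos p4 2]
    have g2 : 2 * w z o / om u v ^ 2 ≤ 2 * w z o * (w u v / θ) := by
      rw [div_eq_mul_one_div]
      exact mul_le_mul_of_nonneg_left g (by positivity)
    have e1 : D u z = w u z * w v o / (w u o * w v o * w z o) := by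
      simp only [hD]
      field_simp
    have e2 : D v z + 2 / θ * D u v =
        (w v z * w u o + 2 * w z o * (w u v / θ)) / (w u o * w v o * w z o) := by
      simp only [hD]
      field_simp
    rw [e1, e2]
    exact div_le_div_of_nonneg_right (by linarith) (by positivity)
  refine ⟨om', fp_mu_scale t tpos, hwt, κpos, κle.trans hθ1, ?_, h2⟩
  intro l hn' a ha b hb hab
  have hl2 : 2 ≤ l.length := by
    have : ({a, b} : Finset V) ⊆ l.toFinset := by
      intro x hx
      rcases mem_insert.1 hx with rfl | hx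
      · exact List.mem_toFinset.2 ha
      · exact List.mem_toFinset.2 (mem_singleton.1 hx ▸ hb)
    have h3 := card_le_card this
    rw [card_pair hab] at h3
    exact h3.trans l.toFinset_card_le
  have spos := fp_str_pos hwt l
  by_cases hol : o ∈ l
  · obtain ⟨c, hc, hc'⟩ := fp_str_le hwt l hn' hl2 hol
    have h3 : om' c o ≤ s := by
      refine le_of_pow_le_pow_left₀ two_ne_zero hs0.le ?_
      rw [hsq_o c hc]
      exact mul_le_of_le_one_left (sq_nonneg _) (fp_xm_le_one h c o)
    have h4 : κ * str om' l ≤ κ * s := mul_le_mul_of_nonneg_left (hc'.trans h3) κpos.le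
    have h5 : ∀ x, x ≠ o → κ * s ≤ om' x o := fun x hx => by
      refine le_of_pow_le_pow_left₀ two_ne_zero (hwt.pos x o).le ?_
      rw [hsq_o x hx, mul_pow]
      refine mul_le_mul_of_nonneg_right ?_ (sq_nonneg _)
      have := hs x o hx
      nlinarith
    refine h4.trans ?_
    by_cases hao : a = o
    · rw [hao, hwt.symm]
      exact h5 b fun e => hab (hao.trans e.symm)
    by_cases hbo : b = o
    · rw [hbo]
      exact h5 a hao
    have h6 : s ≤ om' a b := by
      simp only [hom']
      rw [tne a hao, tne b hbo]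
      exact hsle a b
    exact (mul_le_of_le_one_left hs0.le (κle.trans hθ1)).trans h6
  · have hao : a ≠ o := fun e => hol (e ▸ ha)
    have hbo : b ≠ o := fun e => hol (e ▸ hb)
    have hC : (1 : ℝ) ≤ 2 / θ := by
      rw [le_div_iff₀ hθ]
      linarith
    have h3 := fp_chain (om' := om') (D := D) hC spos
      (fun x y => by simp only [hD, wsymm x y, mul_comm (w x o)]) htri
      (fun x y hx hy hxy hle => by
        have e := hsq x y hx hy
        have p1 : 0 ≤ D x y := (div_pos (wpos x y hxy) (mul_pos (wpos x o hx) (wpos y o hy))).le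
        have p2 : str om' l ^ 2 ≤ om' x y ^ 2 := pow_le_pow_left₀ spos.le hle 2
        rw [le_div_iff₀ (pow_pos spos 2)]
        nlinarith [fp_xm_le_one h x y]) l hn' hol le_rfl a ha b hb hab
    have hlen : (l.length : ℝ) ≤ Fintype.card V := by exact_mod_cast hn'.length_le_card
    refine le_of_pow_le_pow_left₀ two_ne_zero (hwt.pos a b).le ?_
    have e := hsq a b hao hbo
    have p1 := hs a b hab
    have p2 : D a b * str om' l ^ 2 ≤ 2 / θ * Fintype.card V := by
      rw [le_div_iff₀ (pow_pos spos 2)] at h3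
      exact h3.trans (mul_le_mul_of_nonneg_left hlen (by positivity))
    have p3 : θ * str om' l ^ 2 ≤ om' a b ^ 2 * (2 / θ * Fintype.card V) := by
      calc θ * str om' l ^ 2 ≤ om' a b ^ 2 * D a b * str om' l ^ 2 := by
            rw [e]
            exact mul_le_mul_of_nonneg_right p1 (sq_nonneg _)
        _ = om' a b ^ 2 * (D a b * str om' l ^ 2) := by ring
        _ ≤ _ := mul_le_mul_of_nonneg_left p2 (sq_nonneg _)
    have p4 : κ ^ 2 * (2 / θ * Fintype.card V) ≤ θ := by
      have : κ ^ 2 * (2 / θ * Fintype.card V) = θ / (2 * Fintype.card V) := by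
        rw [hκ]
        field_simp
      rw [this]
      exact κle
    have p5 : (0 : ℝ) < 2 / θ * Fintype.card V := by positivity
    refine le_of_mul_le_mul_right ?_ p5
    calc (κ * str om' l) ^ 2 * (2 / θ * Fintype.card V)
        = κ ^ 2 * (2 / θ * Fintype.card V) * str om' l ^ 2 := by ring
      _ ≤ θ * str om' l ^ 2 := mul_le_mul_of_nonneg_right p4 (sq_nonneg _)
      _ ≤ _ := p3

end Vale.Agent.P308
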