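import Vale.Agent.P308.MDefs

/-!
The two body kernel.
-/

set_option linter.unusedSectionVars false

namespace Vale.Agent.P308

open Finset

variable {V : Type} [Fintype V] [DecidableEq V] {om : V → V → ℝ}

theorem KK_sum (ρ : ℝ) (p : PM V × PM V) (g : PM V × PM V → ℝ) :
    ∑ q, KK om ρ p q * g q =
      (1 - ρ / 4 * Fintype.card V - ρ ^ 2 / 4 * ∑ b, ∑ c, acc om p.1 b c) * g p +
        ρ / 4 * ∑ u, g (sig u p) + ρ ^ 2 / 4 * ∑ b, ∑ c, acc om p.1 b c * g (sw1 b c p) := by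
  unfold KK
  simp only [add_mul, sum_add_distrib]
  congr 1
  congr 1
  · simp
  · simp only [mul_assoc, ← mul_sum]
    congr 1
    simp only [sum_mul]
    rw [sum_comm]
    simp
  · simp only [mul_assoc, ← mul_sum]
    congr 1
    simp only [sum_mul]
    rw [sum_comm]
    refine sum_congr rfl fun b _ => ?_
    rw [sum_comm]
    simp

/-- action of the kernel on observables -/
theorem KK_apply (ρ : ℝ) (p : PM V × PM V) (g : PM V × PM V → ℝ) :
    ∑ q, KK om ρ p q * g q = g p + ρ / 4 * ∑ u, (g (sig u p) - g p) +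
      ρ ^ 2 / 4 * ∑ b, ∑ c, acc om p.1 b c * (g (sw1 b c p) - g p) := by
  rw [KK_sum]
  simp only [mul_sub, sum_sub_distrib, sum_const, card_univ, nsmul_eq_mul, ← sum_mul]
  ring

theorem acc_nonneg (h : Wt om) (M : PM V) (b c : V) : 0 ≤ acc om M b c :=
  le_min zero_le_one (div_pos (W_pos h _) (W_pos h _)).le

theorem acc_le_one (M : PM V) (b c : V) : acc om M b c ≤ 1 := min_le_left _ _

theorem mu_mul_acc (h : Wt om) (M : PM V) (b c : V) :
    mu om M * acc om M b c = min (mu om M) (mu om (M.sw b c)) := by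
  unfold acc
  rw [mul_min_of_nonneg _ _ (mu_pos h M).le, mul_one]
  congr 1
  unfold mu
  have := (W_pos h M).ne'
  have := (Z_pos h M).ne'
  field_simp

theorem sum_acc_le (M : PM V) :
    ∑ b, ∑ c, acc om M b c ≤ (Fintype.card V : ℝ) ^ 2 := by
  calc ∑ b, ∑ c, acc om M b c ≤ ∑ _b : V, ∑ _c : V, (1 : ℝ) :=
        sum_le_sum fun b _ => sum_le_sum fun c _ => acc_le_one M b c
    _ = _ := by simp [sq]

theorem hold_ge {ρ : ℝ} (hρ0 : 0 ≤ ρ) (hρ1 : ρ * Fintype.card V ≤ 1) (M : PM V) :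
    1 / 2 ≤ 1 - ρ / 4 * Fintype.card V - ρ ^ 2 / 4 * ∑ b, ∑ c, acc om M b c := by
  have h1 : ρ ^ 2 * ∑ b, ∑ c, acc om M b c ≤ (ρ * Fintype.card V) ^ 2 := by
    rw [mul_pow]
    exact mul_le_mul_of_nonneg_left (sum_acc_le M) (sq_nonneg _)
  have h2 : (ρ * Fintype.card V) ^ 2 ≤ 1 := pow_le_one₀ (by positivity) hρ1
  linarith

theorem KK_rev (h : Wt om) (ρ : ℝ) (p q : PM V × PM V) :
    mu om p.1 * mu om p.2 * KK om ρ p q = mu om q.1 * mu om q.2 * KK om ρ q p := by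
  unfold KK
  simp only [mul_add]
  congr 1
  congr 1
  · by_cases e : q = p
    · rw [e]
    · rw [if_neg e, if_neg (Ne.symm e), mul_zero, mul_zero]
  · rw [mul_left_comm, mul_left_comm (mu om q.1 * mu om q.2)]
    congr 1
    rw [mul_sum, mul_sum]
    refine sum_congr rfl fun u _ => ?_
    by_cases e : q = sig u p
    · rw [if_pos e, if_pos (by rw [e, sig_sig]), e]
      exact congrArg (· * 1) (mu2_sig (om := om) u p).symm
    · rw [if_neg e, if_neg (fun e' => e (by rw [e', sig_sig])), mul_zero, mul_zero]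
  · rw [mul_left_comm, mul_left_comm (mu om q.1 * mu om q.2)]
    congr 1
    rw [mul_sum, mul_sum]
    refine sum_congr rfl fun b _ => ?_
    rw [mul_sum, mul_sum]
    refine sum_congr rfl fun c _ => ?_
    by_cases e : q = sw1 b c p
    · rw [if_pos e, if_pos (by rw [e, sw1_sw1]), e, mul_right_comm, mu_mul_acc h,
        mul_right_comm, mu_mul_acc h]
      simp only [sw1, PM.sw_sw, min_comm]
    · rw [if_neg e, if_neg (fun e' => e (by rw [e', sw1_sw1])), mul_zero, mul_zero]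

theorem KK_energy (h : Wt om) (M₀ : PM V) (ρ : ℝ) (a b : PM V → ℝ) :
    ∑ p : PM V × PM V, ∑ q : PM V × PM V,
        mu om p.1 * mu om p.2 * KK om ρ p q * ((a p.1 + b p.2) - (a q.1 + b q.2)) ^ 2 =
      ρ / 4 * Dsig om (fun p => a p.1 + b p.2) + ρ ^ 2 / 4 * Dsw om a := by
  have h1 : ∀ p : PM V × PM V, ∑ q : PM V × PM V,
      mu om p.1 * mu om p.2 * KK om ρ p q * ((a p.1 + b p.2) - (a q.1 + b q.2)) ^ 2 =
      ρ / 4 * ∑ u, mu2 om p * ((a (sig u p).1 + b (sig u p).2) - (a p.1 + b p.2)) ^ 2 +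
        ρ ^ 2 / 4 * ∑ x, ∑ y, min (mu om p.1) (mu om (p.1.sw x y)) *
          (a (p.1.sw x y) - a p.1) ^ 2 * mu om p.2 := by
    intro p
    simp only [mul_assoc, ← mul_sum]
    rw [KK_sum, sub_self]
    simp only [← mu_mul_acc h, mu2, mul_sum, mul_add]
    rw [zero_pow two_ne_zero, mul_zero, mul_zero, mul_zero, zero_add]
    congr 1
    · exact sum_congr rfl fun u _ => by ring
    · exact sum_congr rfl fun x _ => sum_congr rfl fun y _ => by simp only [sw1]; ring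
  rw [sum_congr rfl fun p _ => h1 p, sum_add_distrib, ← mul_sum, ← mul_sum]
  congr 2
  · rw [Dsig, sum_comm]
  · rw [Dsw, sum_comm]
    refine sum_congr rfl fun x _ => ?_
    rw [sum_comm]
    refine sum_congr rfl fun y _ => ?_
    rw [Fintype.sum_prod_type]
    refine sum_congr rfl fun M _ => ?_
    dsimp only
    rw [← mul_sum, sum_mu h M₀, mul_one]

theorem good_KK_of (h : Wt om) (M₀ : PM V) {ρ X : ℝ} (h2 : 2 ≤ Fintype.card V)
    (hX : (Fintype.card V : ℝ) ≤ X)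
    (hρ1 : ρ * Fintype.card V ≤ 1) (hρ2 : 1 ≤ 2 * ρ * Fintype.card V)
    (hgap : ∀ a b : PM V → ℝ, ∑ M, mu om M * a M = 0 → ∑ M, mu om M * b M = 0 →
      ∑ M, mu om M * a M ^ 2 + ∑ M, mu om M * b M ^ 2 ≤
        X ^ 46 * (Dsig om (fun p => a p.1 + b p.2) + Dsw om a)) :
    Good (mu om) (KK om ρ) ((1 / X) ^ 53) := by
  have hv : (2 : ℝ) ≤ Fintype.card V := by exact_mod_cast h2
  have hρ0 : 0 < ρ := by
    by_contra hn
    have : ρ * Fintype.card V ≤ 0 := mul_nonpos_of_nonpos_of_nonneg (not_lt.1 hn) (by linarith)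
    linarith
  have hnn2 : ∀ p q : PM V × PM V, 0 ≤ ρ / 4 * (∑ u, if q = sig u p then (1 : ℝ) else 0) :=
    fun p q => mul_nonneg (by positivity) (sum_nonneg fun u _ => by split_ifs <;> norm_num)
  have hnn3 : ∀ p q : PM V × PM V,
      0 ≤ ρ ^ 2 / 4 * ∑ b, ∑ c, if q = sw1 b c p then acc om p.1 b c else 0 :=
    fun p q => mul_nonneg (by positivity) (sum_nonneg fun b _ => sum_nonneg fun c _ => by
      split_ifs
      · exact acc_nonneg h _ _ _
      · exact le_rfl)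
  refine ⟨mu_pos h, sum_mu h M₀, fun p q => ?_, fun p => ?_, KK_rev h ρ, fun p => ?_,
    fun a b ha hb => ?_⟩
  · refine add_nonneg (add_nonneg ?_ (hnn2 p q)) (hnn3 p q)
    split_ifs
    · linarith [hold_ge (om := om) hρ0.le hρ1 p.1]
    · exact le_rfl
  · simpa using KK_apply (om := om) ρ p fun _ => 1
  · have := hold_ge (om := om) hρ0.le hρ1 p.1
    unfold KK
    rw [if_pos rfl]
    linarith [hnn2 p p, hnn3 p p]
  · rw [KK_energy h M₀]
    have d1 := Dsig_nonneg h fun p => a p.1 + b p.2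
    have d2 := Dsw_nonneg h a
    have hX2 : 2 ≤ X := hv.trans hX
    have k1 : (1 / X) ^ 53 * X ^ 46 = (1 / X) ^ 7 := by field_simp
    have k2 : 1 ≤ 2 * ρ * X := hρ2.trans (mul_le_mul_of_nonneg_left hX (by positivity))
    have k3 : (1 / X) ^ 7 ≤ ρ ^ 2 / 8 := by
      have e1 : 1 / X ≤ 2 * ρ := by rw [div_le_iff₀ (by linarith)]; exact k2
      have e2 : 1 / X ≤ 1 / 2 := one_div_le_one_div_of_le two_pos hX2
      calc (1 / X) ^ 7 = (1 / X) ^ 2 * (1 / X) ^ 5 := by ring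
        _ ≤ (2 * ρ) ^ 2 * (1 / 2) ^ 5 := by gcongr
        _ = _ := by ring
    have k4 : ρ ^ 2 ≤ ρ := by nlinarith
    calc _ ≤ (1 / X) ^ 53 * (X ^ 46 * (Dsig om (fun p => a p.1 + b p.2) + Dsw om a)) :=
          mul_le_mul_of_nonneg_left (hgap a b ha hb) (by positivity)
      _ = (1 / X) ^ 7 * (Dsig om (fun p => a p.1 + b p.2) + Dsw om a) := by rw [← mul_assoc, k1]
      _ ≤ ρ ^ 2 / 8 * (Dsig om (fun p => a p.1 + b p.2) + Dsw om a) :=
          mul_le_mul_of_nonneg_right k3 (add_nonneg d1 d2)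
      _ ≤ _ := by nlinarith [mul_le_mul_of_nonneg_right k4 d1]

end Vale.Agent.P308
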