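import Vale.Agent.P308.Lists2

/-!
The defect of additivity of the mean increments at the weakest edge of a cycle.
-/

namespace Vale.Agent.P308

open Finset

set_option linter.unusedSectionVars false

variable {V : Type} [Fintype V] [DecidableEq V] [Inhabited V] {om : V → V → ℝ} {κ : ℝ}

/-- geometry of an even cut -/
theorem Cy.la_even_cut {p : PM V × PM V} {Q R : List V} (h : Cy p (Q ++ R)) (hQ : Q ≠ [])
    (hR : R ≠ []) (eQ : Even Q.length) :
    Cy (sw2 (hd R) (hd Q) p) Q ∧ Cy (sig (hd Q) (sw2 (hd R) (hd Q) p)) R ∧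
      (sig (hd R) (sig (hd Q) (sw2 (hd R) (hd Q) p))).1.sw (hd R) (hd Q) = (sig (hd Q) p).1 ∧
      (sig (hd R) (sig (hd Q) (sw2 (hd R) (hd Q) p))).2 = (sig (hd Q) p).2 ∧
      p.2.f (hd R) = lt Q ∧ p.2.f (hd Q) = lt R ∧ hd R ≠ hd Q ∧ lt Q ≠ hd Q ∧ lt R ≠ hd R := by
  obtain ⟨M, F⟩ := p
  have eR : Even R.length := by
    have := h.ev
    rw [List.length_append] at this
    exact (Nat.even_add.1 this).1 eQ
  obtain ⟨nQ, nR, dis⟩ := List.nodup_append.1 h.nd
  have l2 : ∀ {l : List V}, l ≠ [] → Even l.length → 2 ≤ l.length := fun {l} h1 h2 => by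
    have := List.length_pos_iff.2 h1
    obtain ⟨k, hk⟩ := h2
    omega
  have hh := hd_mem hQ
  have ha := lt_mem hQ
  have hb := hd_mem hR
  have ht := lt_mem hR
  have ne1 : lt Q ≠ hd Q := (hd_ne_lt nQ (l2 hQ eQ)).symm
  have ne2 : lt R ≠ hd R := (hd_ne_lt nR (l2 hR eR)).symm
  obtain ⟨mQ, mR⟩ := (prs_append_even M eQ R).1 h.a
  obtain ⟨fQ, fab, fR⟩ := (prs_tail_append_even F eQ hQ hR).1 h.b
  have fth : F.f (lt R) = hd Q := by
    have := h.c
    rwa [lt_append Q hR, hd_append hQ] at this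
  have fb : F.f (hd R) = lt Q := F.eq_comm.1 fab
  have fh : F.f (hd Q) = lt R := F.eq_comm.1 fth
  have nb : F.f (hd R) ≠ hd Q := by rw [fb]; exact ne1
  have s1 : (F.sw (hd R) (hd Q)).f (lt Q) = hd Q := by rw [← fb]; exact F.sw_partner nb
  have s2 : (F.sw (hd R) (hd Q)).f (lt R) = hd R := by rw [← fh]; exact F.sw_partner' nb
  have s3 : ∀ x, x ≠ hd R → x ≠ hd Q → x ≠ lt Q → x ≠ lt R →
      (F.sw (hd R) (hd Q)).f x = F.f x := fun x h1 h2 h3 h4 =>
    F.sw_of_ne h1 h2 (by rwa [fb]) (by rwa [fh])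
  have c1 : Cy (sw2 (hd R) (hd Q) (M, F)) Q :=
    ⟨nQ, hQ, eQ, mQ, prs_congr_tail nQ eQ
      (fun x hx h1 h2 => s3 x (dis x hx _ hb) h1 h2 (dis x hx _ ht)) fQ, s1⟩
  have c2 : Cy (sw2 (hd R) (hd Q) (M, F)) R :=
    ⟨nR, hR, eR, mR, prs_congr_tail nR eR
      (fun x hx h1 h2 => s3 x h1 (dis _ hh x hx).symm (dis _ ha x hx).symm h2) fR, s2⟩
  have nQR : ∀ x ∈ R, x ∉ Q := fun x hx hx' => dis x hx' x hx rfl
  have c3 : Cy (sig (hd Q) (sw2 (hd R) (hd Q) (M, F))) R :=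
    ⟨nR, hR, eR, prs_congr (fun x hx => (c1.sig_out hh (nQR x hx)).1) c2.a,
      prs_congr (fun x hx => (c1.sig_out hh (nQR x (List.mem_of_mem_tail hx))).2) c2.b,
      ((c1.sig_out hh (nQR _ ht)).2).trans c2.c⟩
  have hl : hd Q ∈ Q ++ R := List.mem_append_left _ hh
  have v1 : ∀ x, x ∈ Q ++ R →
      (sig (hd R) (sig (hd Q) (sw2 (hd R) (hd Q) (M, F)))).1.f x = (F.sw (hd R) (hd Q)).f x ∧
      (sig (hd R) (sig (hd Q) (sw2 (hd R) (hd Q) (M, F)))).2.f x = M.f x := by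
    intro x hx
    rcases List.mem_append.1 hx with hx | hx
    · have h1 := c3.sig_out hb (fun h' => nQR x h' hx)
      have h2 := c1.sig_in hh hx
      exact ⟨h1.1.trans h2.1, h1.2.trans h2.2⟩
    · have h1 := c3.sig_in hb hx
      have h2 := c1.sig_out hh (nQR x hx)
      exact ⟨h1.1.trans h2.2, h1.2.trans h2.1⟩
  have v2 : ∀ x, x ∉ Q ++ R →
      (sig (hd R) (sig (hd Q) (sw2 (hd R) (hd Q) (M, F)))).1.f x = M.f x ∧
      (sig (hd R) (sig (hd Q) (sw2 (hd R) (hd Q) (M, F)))).2.f x = F.f x := by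
    intro x hx
    have hx1 : x ∉ Q := fun h' => hx (List.mem_append_left _ h')
    have hx2 : x ∉ R := fun h' => hx (List.mem_append_right _ h')
    have h1 := c3.sig_out hb hx2
    have h2 := c1.sig_out hh hx1
    refine ⟨h1.1.trans h2.1, h1.2.trans (h2.2.trans (s3 x ?_ ?_ ?_ ?_))⟩
    · rintro rfl; exact hx2 hb
    · rintro rfl; exact hx1 hh
    · rintro rfl; exact hx1 ha
    · rintro rfl; exact hx2 ht
  refine ⟨c1, c3, ?_, ?_, fb, fh, (dis _ hh _ hb).symm, ne1, ne2⟩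
  · ext x
    by_cases hx : x ∈ Q ++ R
    · have hx' : Equiv.swap (hd R) (hd Q) x ∈ Q ++ R := by
        rw [Equiv.swap_apply_def]
        split_ifs
        · exact hl
        · exact List.mem_append_right _ hb
        · exact hx
      rw [PM.sw_f, (v1 _ hx').1, ← PM.sw_f, PM.sw_sw, (h.sig_in hl hx).1]
    · have h1 : M.f x ∉ Q ++ R := fun h' => hx (by simpa [M.inv] using prs_mem_even h.ev h.a h')
      have sw : ∀ y, y ∉ Q ++ R → Equiv.swap (hd R) (hd Q) y = y := fun y hy =>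
        Equiv.swap_apply_of_ne_of_ne (fun e => hy (e ▸ List.mem_append_right _ hb))
          (fun e => hy (e ▸ hl))
      rw [PM.sw_f, sw x hx, (v2 x hx).1, sw _ h1, (h.sig_out hl hx).1]
  · ext x
    by_cases hx : x ∈ Q ++ R
    · rw [(v1 x hx).2, (h.sig_in hl hx).2]
    · rw [(v2 x hx).2, (h.sig_out hl hx).2]

theorem la_prs_agree {M M' : PM V} : ∀ l : List V, Odd l.length → Prs M l → Prs M' l →
    ∀ x ∈ l, x ≠ lt l → M.f x = M'.f x
  | [], h, _, _, _, _, _ => by simp at h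
  | [a], _, _, _, x, hx, hx' => absurd (List.mem_singleton.1 hx) hx'
  | a :: b :: l, h, h1, h2, x, hx, hx' => by
    have ho : Odd l.length := by
      obtain ⟨k, hk⟩ := h
      simp only [List.length_cons] at hk
      exact ⟨k - 1, by omega⟩
    have hl : l ≠ [] := by rintro rfl; simp at ho
    rcases List.mem_cons.1 hx with rfl | hx
    · exact h1.1.trans h2.1.symm
    rcases List.mem_cons.1 hx with rfl | hx
    · exact (M.eq_comm.1 h1.1).trans (M'.eq_comm.1 h2.1).symm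
    · refine la_prs_agree l ho h1.2 h2.2 x hx ?_
      rwa [lt_cons a (List.cons_ne_nil _ _), lt_cons b hl] at hx'

/-- geometry of an odd cut -/
theorem Cy.la_odd_cut {p : PM V × PM V} {Q R : List V} (h : Cy p (Q ++ R)) (oQ : Odd Q.length) :
    Od p Q.reverse ∧ Od (tauL Q.reverse p) R ∧
      (tauL R (tauL Q.reverse p)).1 = (sig (hd Q) p).1 ∧
      p.1.f (lt Q) = hd R ∧ p.2.f (hd Q) = lt R ∧
      (tauL Q.reverse p).1.f (hd R) = hd Q ∧ (tauL Q.reverse p).2.f (lt R) = lt Q := by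
  obtain ⟨M, F⟩ := p
  have oR : Odd R.length := by
    have := h.ev
    rw [List.length_append] at this
    obtain ⟨k, hk⟩ := this
    obtain ⟨j, hj⟩ := oQ
    exact ⟨k - j - 1, by omega⟩
  have hQ : Q ≠ [] := by rintro rfl; simp at oQ
  have hR : R ≠ [] := by rintro rfl; simp at oR
  obtain ⟨nQ, nR, dis⟩ := List.nodup_append.1 h.nd
  have hh := hd_mem hQ
  have ha := lt_mem hQ
  have hb := hd_mem hR
  have ht := lt_mem hR
  obtain ⟨mQ, mab, mR⟩ := (prs_append_odd M oQ hR).1 h.a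
  obtain ⟨fQ, fR⟩ := (prs_tail_append_odd F oQ R).1 h.b
  have fth : F.f (lt R) = hd Q := by
    have := h.c
    rwa [lt_append Q hR, hd_append hQ] at this
  have fh : F.f (hd Q) = lt R := F.eq_comm.1 fth
  have o1 : Od (M, F) Q.reverse :=
    ⟨List.nodup_reverse.2 nQ, by rwa [List.length_reverse], (prs_reverse_tail_odd M oQ).2 mQ,
      (prs_reverse_odd F oQ).2 fQ⟩
  obtain ⟨t1, t2, t3, t4, t5, t6⟩ := o1.tau_spec
  simp only [hd_reverse, lt_reverse, List.mem_reverse, mab, fh] at t1 t3 t4 t6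
  have nQR : ∀ x ∈ R, x ∉ Q := fun x hx hx' => dis x hx' x hx rfl
  have o2 : Od (tauL Q.reverse (M, F)) R :=
    ⟨nR, oR, prs_congr (fun x hx => t1 x (nQR x (List.mem_of_mem_tail hx))
        (fun e => hd_notMem_tail nR (e ▸ hx))) mR,
      prs_congr_odd nR oR (fun x hx hx' => t4 x (nQR x hx) hx') fR⟩
  have u3 : (tauL Q.reverse (M, F)).1.f (hd R) = hd Q := (PM.eq_comm _).1 t3
  have u6 : (tauL Q.reverse (M, F)).2.f (lt R) = lt Q := (PM.eq_comm _).1 t6
  obtain ⟨w1, w2, w3, -⟩ := o2.tau_spec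
  rw [u3] at w1 w3
  have hl : hd Q ∈ Q ++ R := List.mem_append_left _ hh
  refine ⟨o1, o2, ?_, mab, fh, u3, u6⟩
  ext x
  by_cases hx : x ∈ Q ++ R
  · rw [(h.sig_in hl hx).1]
    rcases List.mem_append.1 hx with hx | hx
    · by_cases e : x = hd Q
      · rw [e, fh]
        exact (PM.eq_comm _).1 w3
      · rw [w1 x (fun h' => nQR x h' hx) e]
        exact la_prs_agree _ o1.od t2 o1.b x (List.mem_reverse.2 hx) (by rwa [lt_reverse])
    · exact prs_agree_odd oR w2 fR (w3.trans fth.symm) hx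
  · have hx1 : x ∉ Q := fun h' => hx (List.mem_append_left _ h')
    have hx2 : x ∉ R := fun h' => hx (List.mem_append_right _ h')
    rw [(h.sig_out hl hx).1, w1 x hx2 (by rintro rfl; exact hx1 hh),
      t1 x hx1 (by rintro rfl; exact hx2 hb)]

theorem Cy.la_two_le {p : PM V × PM V} {l : List V} (h : Cy p l) : 2 ≤ l.length := by
  have := List.length_pos_iff.2 h.ne
  obtain ⟨k, hk⟩ := h.ev
  omega

theorem la_nb_le_str (hw : Wt om) (p : PM V × PM V) {l : List V} (hl : l ≠ []) :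
    nb om p l ≤ mu2 om p * (str om l / om (lt l) (hd l)) ^ 2 := by
  have h1 := hw.pos (lt l) (hd l)
  have h2 := str_pos hw (lt l :: l)
  refine mul_le_mul_of_nonneg_left (pow_le_pow_left₀ (by positivity) ?_ 2) (mu2_pos hw p).le
  refine div_le_div_of_nonneg_right ?_ h1.le
  rw [str_cons _ hl]
  exact min_le_right _ _

/-- the key inequality between weights -/
theorem la_weight {m m' s c x y k : ℝ} (hm : 0 ≤ m) (hs : 0 < s) (hc : 0 < c) (hk : 0 < k)
    (hx : k * s ≤ x) (hy : k * s ≤ y) (h : m' * (s * c) ^ 2 = m * (x * y) ^ 2) :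
    k ^ 4 * (m * (s / c) ^ 2) ≤ m' := by
  have h0 : 0 < k * s := mul_pos hk hs
  have h1 : (k * s) * (k * s) ≤ x * y := mul_le_mul hx hy h0.le (h0.le.trans hx)
  have h2 : ((k * s) * (k * s)) ^ 2 ≤ (x * y) ^ 2 := pow_le_pow_left₀ (by positivity) h1 2
  have h3 : 0 < (s * c) ^ 2 := by positivity
  refine le_of_mul_le_mul_right ?_ h3
  rw [h]
  calc k ^ 4 * (m * (s / c) ^ 2) * (s * c) ^ 2 = m * ((k * s) * (k * s)) ^ 2 := by
        field_simp
    _ ≤ _ := mul_le_mul_of_nonneg_left h2 hm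

theorem la_XX (h : Hyp om κ) :
    2 ≤ XX V κ ∧ 8 * (Fintype.card V : ℝ) ≤ κ ^ 4 * XX V κ ^ 4 := by
  have h1 : (2 : ℝ) ≤ Fintype.card V := by exact_mod_cast h.two
  have h2 := h.pos
  have h3 := h.le
  refine ⟨?_, ?_⟩
  · rw [XX, le_div_iff₀ h2]
    nlinarith
  · have : κ ^ 4 * XX V κ ^ 4 = (Fintype.card V : ℝ) ^ 4 := by
      rw [XX]
      field_simp
    rw [this]
    have h4 : (2 : ℝ) ^ 3 ≤ (Fintype.card V : ℝ) ^ 3 := pow_le_pow_left₀ (by norm_num) h1 3
    nlinarith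

theorem SA_even (h : Hyp om κ) (f : PM V → ℝ) :
    ∑ z ∈ (CyS V).filter (fun z => Even (spl om z.1)), nb om z.2 z.1 * rr om f z.1 ^ 2 ≤
      XX V κ ^ 9 * (SV om f + Dsw om f) := by
  classical
  have hw := h.wt
  have hk := h.pos
  set S := (CyS V).filter (fun z => Even (spl om z.1)) with hS
  let hh : List V × (PM V × PM V) → V := fun z => hd (pre om z.1)
  let bb : List V × (PM V × PM V) → V := fun z => hd (suf om z.1)
  let p0 : List V × (PM V × PM V) → PM V × PM V := fun z => sw2 (bb z) (hh z) z.2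
  let p1 : List V × (PM V × PM V) → PM V × PM V := fun z => sig (hh z) (p0 z)
  let p2 : List V × (PM V × PM V) → PM V × PM V := fun z => sig (bb z) (p1 z)
  let g : List V × (PM V × PM V) → ℝ := fun z =>
    mu2 om z.2 * (f (sig (hd z.1) z.2).1 - f z.2.1 - dd om f z.1) ^ 2
  have g0 : ∀ z, 0 ≤ g z := fun z => mul_nonneg (mu2_pos hw _).le (sq_nonneg _)
  let g' : V × V × PM V × PM V → ℝ := fun y =>
    min (mu om y.2.2.1) (mu om (y.2.2.1.sw y.1 y.2.1)) *
      (f (y.2.2.1.sw y.1 y.2.1) - f y.2.2.1) ^ 2 * mu om y.2.2.2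
  have g0' : ∀ y, 0 ≤ g' y := fun y => mul_nonneg (mul_nonneg
    (le_min (mu_pos hw _).le (mu_pos hw _).le) (sq_nonneg _)) (mu_pos hw _).le
  have facts : ∀ z ∈ S, Cy z.2 z.1 ∧ hd z.1 = hh z ∧ Cy (p0 z) (pre om z.1) ∧
      Cy (p1 z) (suf om z.1) ∧ κ ^ 4 * (nb om z.2 z.1 * rr om f z.1 ^ 2) ≤
        4 * (g z + g (pre om z.1, p0 z) + g (suf om z.1, p1 z) + g' (bb z, hh z, p2 z)) := by
    intro z hz
    obtain ⟨hc, he⟩ := mem_filter.1 hz
    rw [mem_CyS] at hc
    obtain ⟨e1, e2, e3, e4, e5, -, -⟩ := pre_suf hw hc.la_two_le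
    have hc' : Cy z.2 (pre om z.1 ++ suf om z.1) := by rwa [e1]
    obtain ⟨c1, c2, c3, c4, c5, c6, c7, c8, c9⟩ := hc'.la_even_cut e2 e3 (by rwa [e4])
    have hhd : hd z.1 = hh z := (congrArg hd e1).symm.trans (hd_append e2 _)
    have hlt : lt z.1 = lt (suf om z.1) := by rw [← e1, lt_append _ e3, e1]
    refine ⟨hc, hhd, c1, c2, ?_⟩
    have m1 : ∀ x ∈ pre om z.1, x ∈ z.1 := fun x hx => e1 ▸ List.mem_append_left _ hx
    have m2 : ∀ x ∈ suf om z.1, x ∈ z.1 := fun x hx => e1 ▸ List.mem_append_right _ hx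
    have w0 := mu_sw hw z.2.2 c7 (by rw [c5]; exact c8)
    rw [c5, c6, e5] at w0
    have w1 := la_weight (mu_pos hw z.2.2).le (str_pos hw z.1) (hw.pos _ _) hk
      (h.path z.1 hc.nd _ (m1 _ (lt_mem e2)) _ (m1 _ (hd_mem e2)) c8)
      (h.path z.1 hc.nd _ (m2 _ (lt_mem e3)) _ (m2 _ (hd_mem e3)) c9) w0
    have w2 := la_nb_le_str hw z.2 hc.ne
    rw [hlt, hhd] at w2
    have k1 : κ ^ 4 ≤ 1 := pow_le_one₀ hk.le h.le
    have n0 := nb_nonneg hw z.2 z.1
    have a0 : κ ^ 4 * nb om z.2 z.1 ≤ mu2 om z.2 :=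
      (mul_le_of_le_one_left n0 k1).trans (nb_le hw z.2 hc.ne)
    have a1 : κ ^ 4 * nb om z.2 z.1 ≤ mu2 om (p0 z) := by
      have h1 := mul_le_mul_of_nonneg_left w1 (mu_pos hw z.2.1).le
      have h2 := mul_le_mul_of_nonneg_left w2 (pow_pos hk 4).le
      refine h2.trans (le_trans (le_of_eq ?_) h1)
      simp only [mu2, hh]
      ring
    have a2 : κ ^ 4 * nb om z.2 z.1 ≤ mu2 om (p1 z) := by rwa [mu2_sig]
    have a3 : κ ^ 4 * nb om z.2 z.1 ≤
        min (mu om (p2 z).1) (mu om ((p2 z).1.sw (bb z) (hh z))) * mu om (p2 z).2 := by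
      rw [min_mul_of_nonneg _ _ (mu_pos hw _).le]
      refine le_min ?_ ?_
      · have : mu2 om (p2 z) = mu2 om (p1 z) := mu2_sig _ _
        exact a2.trans (le_of_eq this.symm)
      · have e6 : (p2 z).1.sw (bb z) (hh z) = (sig (hh z) z.2).1 := c3
        have e7 : (p2 z).2 = (sig (hh z) z.2).2 := c4
        rw [e6, e7]
        exact a0.trans (le_of_eq (mu2_sig (hh z) z.2).symm)
    have e6 : (p2 z).1.sw (bb z) (hh z) = (sig (hh z) z.2).1 := c3
    have hr : rr om f z.1 = (f ((p2 z).1.sw (bb z) (hh z)) - f (p2 z).1) -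
        (f (sig (hd z.1) z.2).1 - f z.2.1 - dd om f z.1) +
        (f (p1 z).1 - f (p0 z).1 - dd om f (pre om z.1)) +
        (f (p2 z).1 - f (p1 z).1 - dd om f (suf om z.1)) := by
      rw [rr, if_pos he, e6, hhd]
      have : (p0 z).1 = z.2.1 := rfl
      rw [this]
      ring
    simp only [g, g']
    change κ ^ 4 * (nb om z.2 z.1 * rr om f z.1 ^ 2) ≤
      4 * (mu2 om z.2 * (f (sig (hd z.1) z.2).1 - f z.2.1 - dd om f z.1) ^ 2 +
        mu2 om (p0 z) * (f (p1 z).1 - f (p0 z).1 - dd om f (pre om z.1)) ^ 2 +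
        mu2 om (p1 z) * (f (p2 z).1 - f (p1 z).1 - dd om f (suf om z.1)) ^ 2 +
        min (mu om (p2 z).1) (mu om ((p2 z).1.sw (bb z) (hh z))) *
          (f ((p2 z).1.sw (bb z) (hh z)) - f (p2 z).1) ^ 2 * mu om (p2 z).2)
    rw [hr]
    generalize f ((p2 z).1.sw (bb z) (hh z)) - f (p2 z).1 = A3
    generalize f (sig (hd z.1) z.2).1 - f z.2.1 - dd om f z.1 = A0
    generalize f (p1 z).1 - f (p0 z).1 - dd om f (pre om z.1) = A1
    generalize f (p2 z).1 - f (p1 z).1 - dd om f (suf om z.1) = A2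
    have q0 := mul_le_mul_of_nonneg_right a0 (sq_nonneg A0)
    have q1 := mul_le_mul_of_nonneg_right a1 (sq_nonneg A1)
    have q2 := mul_le_mul_of_nonneg_right a2 (sq_nonneg A2)
    have q3 := mul_le_mul_of_nonneg_right a3 (sq_nonneg A3)
    have q4 : (A3 - A0 + A1 + A2) ^ 2 ≤ 4 * (A0 ^ 2 + A1 ^ 2 + A2 ^ 2 + A3 ^ 2) := by
      nlinarith [sq_nonneg (A3 + A0), sq_nonneg (A3 - A1), sq_nonneg (A3 - A2), sq_nonneg (A0 + A1),
        sq_nonneg (A0 + A2), sq_nonneg (A1 - A2)]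
    have q5 := mul_le_mul_of_nonneg_left q4 (mul_nonneg (pow_pos hk 4).le n0)
    nlinarith
  have back : ∀ z ∈ S, ∀ z' ∈ S, z.2 = z'.2 → hh z = hh z' → z = z' := by
    intro z hz z' hz' h1 h2
    obtain ⟨c1, c2, -⟩ := facts z hz
    obtain ⟨d1, d2, -⟩ := facts z' hz'
    exact Prod.ext (c1.unique (h1 ▸ d1) (by rw [c2, d2, h2])) h1
  have lab : ∑ y ∈ (univ : Finset V) ×ˢ CyS V, g y.2 = Fintype.card V * SV om f := by
    rw [sum_product]
    simp only [sum_const, card_univ, nsmul_eq_mul]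
    rfl
  have s0 : ∑ z ∈ S, g z ≤ SV om f :=
    sum_le_sum_of_subset_of_nonneg (filter_subset _ _) fun z _ _ => g0 z
  have s1 : ∑ z ∈ S, g (pre om z.1, p0 z) ≤ Fintype.card V * SV om f := by
    rw [← lab]
    refine sum_le_of_inj S _ (fun z => (bb z, (pre om z.1, p0 z))) _ (fun y => g y.2)
      (fun z hz => mem_product.2 ⟨mem_univ _, mem_CyS.2 (facts z hz).2.2.1⟩) ?_
      (fun y _ => g0 _) fun z _ => le_rfl
    intro z hz z' hz' e
    simp only [Prod.mk.injEq] at e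
    obtain ⟨e1, e2, e3⟩ := e
    have e4 : hh z = hh z' := congrArg hd e2
    refine back z hz z' hz' (sw2_inj (bb z) (hh z) ?_) e4
    simp only [p0] at e3
    rw [e3, e1, e4]
  have s2 : ∑ z ∈ S, g (suf om z.1, p1 z) ≤ Fintype.card V * SV om f := by
    rw [← lab]
    refine sum_le_of_inj S _ (fun z => (hh z, (suf om z.1, p1 z))) _ (fun y => g y.2)
      (fun z hz => mem_product.2 ⟨mem_univ _, mem_CyS.2 (facts z hz).2.2.2.1⟩) ?_
      (fun y _ => g0 _) fun z _ => le_rfl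
    intro z hz z' hz' e
    simp only [Prod.mk.injEq] at e
    obtain ⟨e1, e2, e3⟩ := e
    have e4 : bb z = bb z' := congrArg hd e2
    refine back z hz z' hz' (sw2_inj (bb z) (hh z) (sig_inj (hh z) ?_)) e1
    simp only [p1, p0] at e3
    rw [e3, e1, e4]
  have s3 : ∑ z ∈ S, g' (bb z, hh z, p2 z) ≤ Dsw om f := by
    have h1 : ∑ z ∈ S, g' (bb z, hh z, p2 z) ≤ ∑ y, g' y := by
      refine sum_le_of_inj S _ (fun z => (bb z, hh z, p2 z)) _ g' (fun z _ => mem_univ _) ?_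
        (fun y _ => g0' _) fun z _ => le_rfl
      intro z hz z' hz' e
      simp only [Prod.mk.injEq] at e
      obtain ⟨e1, e2, e3⟩ := e
      refine back z hz z' hz' (sw2_inj (bb z) (hh z) (sig_inj (hh z) (sig_inj (bb z) ?_))) e2
      simp only [p2, p1, p0] at e3
      rw [e3, e1, e2]
    refine h1.trans ?_
    simp only [g', Fintype.sum_prod_type, ← mul_sum, Dsw]
    refine sum_le_sum fun b _ => sum_le_sum fun c _ => sum_le_sum fun M _ => ?_
    exact mul_le_of_le_one_right (mul_nonneg (le_min (mu_pos hw _).le (mu_pos hw _).le)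
      (sq_nonneg _)) (sum_mu_le hw)
  have tot : κ ^ 4 * ∑ z ∈ S, nb om z.2 z.1 * rr om f z.1 ^ 2 ≤
      4 * (SV om f + Fintype.card V * SV om f + Fintype.card V * SV om f + Dsw om f) := by
    rw [mul_sum]
    refine (sum_le_sum fun z hz => (facts z hz).2.2.2.2).trans ?_
    rw [← mul_sum, sum_add_distrib, sum_add_distrib, sum_add_distrib]
    linarith
  obtain ⟨x1, x2⟩ := la_XX h
  have v2 : (2 : ℝ) ≤ Fintype.card V := by exact_mod_cast h.two
  have n1 := SV_nonneg hw f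
  have n2 := Dsw_nonneg hw f
  refine le_of_mul_le_mul_left (tot.trans ?_) (pow_pos hk 4)
  have x3 : (2 : ℝ) ^ 5 ≤ XX V κ ^ 5 := pow_le_pow_left₀ (by norm_num) x1 5
  have x4 : 8 * (Fintype.card V : ℝ) * 2 ^ 5 ≤ κ ^ 4 * XX V κ ^ 4 * XX V κ ^ 5 :=
    mul_le_mul x2 x3 (by norm_num) (by positivity)
  have x5 := mul_le_mul_of_nonneg_right x4 (add_nonneg n1 n2)
  calc _ ≤ 8 * (Fintype.card V : ℝ) * 2 ^ 5 * (SV om f + Dsw om f) := by nlinarith
    _ ≤ _ := x5.trans (le_of_eq (by ring))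

theorem SA_odd (h : Hyp om κ) (f : PM V → ℝ) :
    ∑ z ∈ (CyS V).filter (fun z => ¬ Even (spl om z.1)), nb om z.2 z.1 * rr om f z.1 ^ 2 ≤
      XX V κ ^ 7 * (SV om f + SO om f) := by
  classical
  have hw := h.wt
  have hk := h.pos
  set S := (CyS V).filter (fun z => ¬ Even (spl om z.1)) with hS
  let p1 : List V × (PM V × PM V) → PM V × PM V := fun z => tauL (pre om z.1).reverse z.2
  let g : List V × (PM V × PM V) → ℝ := fun z =>
    mu2 om z.2 * (f (sig (hd z.1) z.2).1 - f z.2.1 - dd om f z.1) ^ 2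
  have g0 : ∀ z, 0 ≤ g z := fun z => mul_nonneg (mu2_pos hw _).le (sq_nonneg _)
  let g' : List V × (PM V × PM V) → ℝ := fun z => wb om z.2 z.1 * ee om f z.2 z.1 ^ 2
  have g0' : ∀ z, 0 ≤ g' z := fun z => mul_nonneg (wb_nonneg hw _ _) (sq_nonneg _)
  have facts : ∀ z ∈ S, Cy z.2 z.1 ∧ hd z.1 = hd (pre om z.1) ∧ lt z.1 = lt (suf om z.1) ∧
      Od z.2 (pre om z.1).reverse ∧ Od (p1 z) (suf om z.1) ∧
      p1 z = tau (hd (suf om z.1)) (lt (suf om z.1)) z.2 ∧
      κ ^ 4 * (nb om z.2 z.1 * rr om f z.1 ^ 2) ≤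
        3 * (g z + g' ((pre om z.1).reverse, z.2) + g' (suf om z.1, p1 z)) := by
    intro z hz
    obtain ⟨hc, he⟩ := mem_filter.1 hz
    rw [mem_CyS] at hc
    obtain ⟨e1, e2, e3, e4, e5, e6, e7⟩ := pre_suf hw hc.la_two_le
    have hc' : Cy z.2 (pre om z.1 ++ suf om z.1) := by rwa [e1]
    obtain ⟨c1, c2, c3, c4, c5, c6, c7⟩ := hc'.la_odd_cut (by rw [e4]; exact Nat.not_even_iff_odd.1 he)
    have hhd : hd z.1 = hd (pre om z.1) := by rw [← e1, hd_append e2, e1]
    have hlt : lt z.1 = lt (suf om z.1) := by rw [← e1, lt_append _ e3, e1]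
    refine ⟨hc, hhd, hlt, c1, c2, by simp only [p1, tauL, hd_reverse, lt_reverse, c4, c5], ?_⟩
    have m1 : ∀ x ∈ pre om z.1, x ∈ z.1 := fun x hx => e1 ▸ List.mem_append_left _ hx
    have m2 : ∀ x ∈ suf om z.1, x ∈ z.1 := fun x hx => e1 ▸ List.mem_append_right _ hx
    have dis := (List.nodup_append.1 hc'.nd).2.2
    have k1 : κ ^ 4 ≤ 1 := pow_le_one₀ hk.le h.le
    have n0 := nb_nonneg hw z.2 z.1
    have sp := str_pos hw z.1
    have e2' : (pre om z.1).reverse ≠ [] := by simpa using e2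
    have a0 : κ ^ 4 * nb om z.2 z.1 ≤ mu2 om z.2 :=
      (mul_le_of_le_one_left n0 k1).trans (nb_le hw z.2 hc.ne)
    have a1 : κ ^ 4 * nb om z.2 z.1 ≤ wb om z.2 (pre om z.1).reverse := by
      refine (mul_le_of_le_one_left n0 k1).trans ?_
      rw [wb, nb, str_cons _ e2', str_concat hw e2', str_cons _ hc.ne, str_reverse hw, hd_reverse,
        lt_reverse, c4, c5, hw.symm (hd (suf om z.1)), e5, min_eq_left e6, div_self sp.ne',
        one_pow, mul_one, hlt, hhd, hw.symm (lt (suf om z.1))]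
      have h1 := hw.pos (hd (pre om z.1)) (lt (suf om z.1))
      refine mul_le_mul_of_nonneg_left (pow_le_pow_left₀ (div_nonneg (le_min h1.le sp.le) h1.le)
        (div_le_div_of_nonneg_right ?_ h1.le) 2) (mu2_pos hw _).le
      rw [min_comm]
      exact min_le_min e6 le_rfl
    have a2 : κ ^ 4 * nb om z.2 z.1 ≤ wb om (p1 z) (suf om z.1) := by
      have w0 := c1.mu2_tau hw
      rw [hd_reverse, lt_reverse, c4, c5, hw.symm (hd (suf om z.1)) (lt (pre om z.1)), e5] at w0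
      have w2 := la_nb_le_str hw z.2 hc.ne
      rw [hlt, hhd, hw.symm (lt (suf om z.1))] at w2
      have ks : κ * str om z.1 ≤ str om (suf om z.1) :=
        (mul_le_of_le_one_left sp.le h.le).trans e7
      have y1 := hw.pos (hd (pre om z.1)) (hd (suf om z.1))
      have y2 := hw.pos (lt (suf om z.1)) (lt (pre om z.1))
      refine (mul_le_mul_of_nonneg_left w2 (pow_pos hk 4).le).trans
        (la_weight (x := min (om (hd (pre om z.1)) (hd (suf om z.1))) (str om (suf om z.1)))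
          (y := min (str om (suf om z.1)) (om (lt (suf om z.1)) (lt (pre om z.1))))
          (mu2_pos hw _).le sp (hw.pos _ _) hk
          (le_min (h.path z.1 hc.nd _ (m1 _ (hd_mem e2)) _ (m2 _ (hd_mem e3))
            (dis _ (hd_mem e2) _ (hd_mem e3))) ks)
          (le_min ks (h.path z.1 hc.nd _ (m2 _ (lt_mem e3)) _ (m1 _ (lt_mem e2))
            (dis _ (lt_mem e2) _ (lt_mem e3)).symm)) ?_)
      rw [wb, str_cons _ e3, str_concat hw e3]
      simp only [p1]
      rw [c6, c7]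
      rw [hw.symm (hd (suf om z.1)) (hd (pre om z.1)),
        hw.symm (lt (pre om z.1)) (lt (suf om z.1))] at w0
      generalize min (om (hd (pre om z.1)) (hd (suf om z.1))) (str om (suf om z.1)) = X
      generalize min (str om (suf om z.1)) (om (lt (suf om z.1)) (lt (pre om z.1))) = Y
      generalize om (hd (pre om z.1)) (hd (suf om z.1)) = u at *
      generalize om (lt (suf om z.1)) (lt (pre om z.1)) = v at *
      calc _ = mu2 om (tauL (pre om z.1).reverse z.2) *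
            (str om z.1 * om (hd (pre om z.1)) (lt (suf om z.1))) ^ 2 *
              ((X / u) ^ 2 * (Y / v) ^ 2) := by ring
        _ = _ := by
            rw [w0]
            field_simp
    have hr : rr om f z.1 = -(f (sig (hd z.1) z.2).1 - f z.2.1 - dd om f z.1) +
        ee om f z.2 (pre om z.1).reverse + ee om f (p1 z) (suf om z.1) := by
      rw [rr, if_neg he, ee, ee, hhd]
      simp only [p1]
      rw [c3]
      ring
    simp only [g, g']
    rw [hr]
    generalize f (sig (hd z.1) z.2).1 - f z.2.1 - dd om f z.1 = A0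
    generalize ee om f z.2 (pre om z.1).reverse = A1
    generalize ee om f (p1 z) (suf om z.1) = A2
    have q0 := mul_le_mul_of_nonneg_right a0 (sq_nonneg A0)
    have q1 := mul_le_mul_of_nonneg_right a1 (sq_nonneg A1)
    have q2 := mul_le_mul_of_nonneg_right a2 (sq_nonneg A2)
    have q4 : (-A0 + A1 + A2) ^ 2 ≤ 3 * (A0 ^ 2 + A1 ^ 2 + A2 ^ 2) := by
      nlinarith [sq_nonneg (A0 + A1), sq_nonneg (A0 + A2), sq_nonneg (A1 - A2)]
    have q5 := mul_le_mul_of_nonneg_left q4 (mul_nonneg (pow_pos hk 4).le n0)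
    nlinarith
  have s0 : ∑ z ∈ S, g z ≤ SV om f :=
    sum_le_sum_of_subset_of_nonneg (filter_subset _ _) fun z _ _ => g0 z
  have s1 : ∑ z ∈ S, g' ((pre om z.1).reverse, z.2) ≤ SO om f := by
    refine sum_le_of_inj S _ (fun z => ((pre om z.1).reverse, z.2)) _ g'
      (fun z hz => mem_OdS.2 (facts z hz).2.2.2.1) ?_ (fun y _ => g0' _) fun z _ => le_rfl
    intro z hz z' hz' e
    simp only [Prod.mk.injEq, List.reverse_inj] at e
    obtain ⟨c1, c2, -⟩ := facts z hz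
    obtain ⟨d1, d2, -⟩ := facts z' hz'
    exact Prod.ext (c1.unique (e.2 ▸ d1) (by rw [c2, d2, e.1])) e.2
  have s2 : ∑ z ∈ S, g' (suf om z.1, p1 z) ≤ SO om f := by
    refine sum_le_of_inj S _ (fun z => (suf om z.1, p1 z)) _ g'
      (fun z hz => mem_OdS.2 (facts z hz).2.2.2.2.1) ?_ (fun y _ => g0' _) fun z _ => le_rfl
    intro z hz z' hz' e
    simp only [Prod.mk.injEq] at e
    obtain ⟨c1, -, c3, -, -, c4, -⟩ := facts z hz
    obtain ⟨d1, -, d3, -, -, d4, -⟩ := facts z' hz'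
    have e2 : z.2 = z'.2 := by
      have e3 := e.2
      rw [c4, d4, e.1] at e3
      exact tau_inj _ _ e3
    refine Prod.ext (c1.unique (e2 ▸ d1) ?_) e2
    rw [← c1.c, ← d1.c, c3, d3, e.1, e2]
  have tot : κ ^ 4 * ∑ z ∈ S, nb om z.2 z.1 * rr om f z.1 ^ 2 ≤
      3 * (SV om f + SO om f + SO om f) := by
    rw [mul_sum]
    refine (sum_le_sum fun z hz => (facts z hz).2.2.2.2.2.2).trans ?_
    rw [← mul_sum, sum_add_distrib, sum_add_distrib]
    linarith
  obtain ⟨x1, x2⟩ := la_XX h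
  have v2 : (2 : ℝ) ≤ Fintype.card V := by exact_mod_cast h.two
  have n1 := SV_nonneg hw f
  have n2 := SO_nonneg hw f
  refine le_of_mul_le_mul_left (tot.trans ?_) (pow_pos hk 4)
  have x3 : (2 : ℝ) ^ 3 ≤ XX V κ ^ 3 := pow_le_pow_left₀ (by norm_num) x1 3
  have x4 : 8 * (Fintype.card V : ℝ) * 2 ^ 3 ≤ κ ^ 4 * XX V κ ^ 4 * XX V κ ^ 3 :=
    mul_le_mul x2 x3 (by norm_num) (by positivity)
  have x5 := mul_le_mul_of_nonneg_right x4 (add_nonneg n1 n2)
  calc _ ≤ 8 * (Fintype.card V : ℝ) * 2 ^ 3 * (SV om f + SO om f) := by nlinarith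
    _ ≤ _ := x5.trans (le_of_eq (by ring))

end Vale.Agent.P308
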