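import Vale.Agent.P308.Lists2

/-!
Dominated paths, the linear telescoping of the mean increments, and the energy of the cycle
exchanges on functions of the first matching.
-/

set_option linter.unusedSectionVars false

namespace Vale.Agent.P308

open Finset

variable {V : Type} [Fintype V] [DecidableEq V] [Inhabited V] {om : V → V → ℝ} {κ : ℝ}

theorem LinB.two_le {l : List V} (hne : l ≠ []) (hev : Even l.length) : 2 ≤ l.length := by
  have h1 : 0 < l.length := List.length_pos_iff.2 hne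
  obtain ⟨k, hk⟩ := hev
  omega

theorem LinB.nb_nonneg (h : Wt om) (p : PM V × PM V) (l : List V) : 0 ≤ nb om p l :=
  mul_nonneg (mu2_pos h p).le (sq_nonneg _)

theorem LinB.card_le_XX (h : Hyp om κ) : (Fintype.card V : ℝ) ≤ XX V κ := by
  unfold XX
  rw [le_div_iff₀ h.pos]
  exact mul_le_of_le_one_right (Nat.cast_nonneg _) h.le

theorem LinB.two_le_card (h : Hyp om κ) : (2 : ℝ) ≤ Fintype.card V := by exact_mod_cast h.two

/-- closing a dominated path to a cycle -/
theorem LinB.close (h : Hyp om κ) {p : PM V × PM V} {l : List V} (hd' : Dom om p l) :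
    Cy (sw2 (p.2.f (hd l)) (lt l) p) l ∧
      κ ^ 4 * mu2 om p ≤ nb om (sw2 (p.2.f (hd l)) (lt l) p) l := by
  have hw := h.wt
  have h2 := LinB.two_le hd'.ne hd'.ev
  have hhl : hd l ≠ lt l := hd_ne_lt hd'.nd h2
  have hs := str_pos hw l
  have hk4 : κ ^ 4 ≤ 1 := pow_le_one₀ h.pos.le h.le
  by_cases hy : p.2.f (hd l) = lt l
  · have e : sw2 (p.2.f (hd l)) (lt l) p = p := by rw [hy]; simp [sw2]
    rw [e]
    refine ⟨⟨hd'.nd, hd'.ne, hd'.ev, hd'.a, hd'.b, p.2.eq_comm.1 hy⟩, ?_⟩
    have h3 : str om (lt l :: l) = om (lt l) (hd l) := by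
      rw [str_cons _ hd'.ne, min_eq_left]
      have := hd'.left
      rwa [hy] at this
    rw [nb, h3, div_self (hw.pos _ _).ne', one_pow, mul_one]
    exact mul_le_of_le_one_left (mu2_pos hw p).le hk4
  set y := p.2.f (hd l) with hydef
  set w := p.2.f (lt l) with hwdef
  have hFy : p.2.f y = hd l := p.2.inv _
  have hFw : p.2.f w = lt l := p.2.inv _
  have hyl : y ∉ l := fun hm =>
    (prs_mem_tail hd'.nd hd'.ev hd'.b hm (p.2.ne _) hy).2.1 hFy
  have hwh : w ≠ hd l := fun e => hy (by rw [hydef, ← e, hFw])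
  have hwl : w ∉ l := fun hm =>
    (prs_mem_tail hd'.nd hd'.ev hd'.b hm hwh (p.2.ne _)).2.2 hFw
  have hyw : y ≠ w := fun e => hhl (p.2.inj e)
  have h1 : p.2.f y ≠ lt l := by rw [hFy]; exact hhl
  constructor
  · refine ⟨hd'.nd, hd'.ne, hd'.ev, hd'.a, ?_, ?_⟩
    · refine prs_congr_tail hd'.nd hd'.ev (fun x hx hx1 hx2 => ?_) hd'.b
      refine p.2.sw_of_ne (fun e => hyl (e ▸ hx)) hx2 (by rwa [hFy]) fun e => hwl ?_
      rw [hwdef, ← e]; exact hx
    · show (p.2.sw y (lt l)).f (lt l) = hd l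
      rw [p.2.sw_right h1, hFy]
  · have hmu := mu_sw hw p.2 hy h1
    rw [hFy, ← hwdef] at hmu
    have hc : κ * str om l ≤ om (lt l) (hd l) :=
      h.path l hd'.nd _ (lt_mem hd'.ne) _ (hd_mem hd'.ne) hhl.symm
    have hm : κ * str om l ≤ str om (lt l :: l) := by
      rw [str_cons _ hd'.ne]
      exact le_min hc (mul_le_of_le_one_left hs.le h.le)
    have hnd : (y :: (l ++ [w])).Nodup := by
      rw [List.nodup_cons, List.nodup_append]
      refine ⟨?_, hd'.nd, List.nodup_singleton _, ?_⟩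
      · simp only [List.mem_append, List.mem_singleton, not_or]
        exact ⟨hyl, hyw⟩
      · intro a ha b hb e
        rw [List.mem_singleton] at hb
        exact hwl (hb ▸ e ▸ ha)
    have hwy : κ * str om (y :: (l ++ [w])) ≤ om w y :=
      h.path _ hnd w (by simp) y (by simp) hyw.symm
    rw [str_cons _ (by simp), hd_append hd'.ne, str_concat hw hd'.ne] at hwy
    have ha := hd'.left
    have hb := hd'.right
    rw [← hydef] at ha
    rw [← hwdef] at hb
    set a := om y (hd l) with hadef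
    set b := om (lt l) w with hbdef
    set s := str om l
    set c := om (lt l) (hd l) with hcdef
    set m := str om (lt l :: l)
    set d := om w y
    have ha0 : 0 < a := hw.pos _ _
    have hb0 : 0 < b := hw.pos _ _
    have hc0 : 0 < c := hw.pos _ _
    rw [hw.symm (hd l) y, hw.symm w (lt l), hw.symm (hd l) (lt l), ← hadef, ← hbdef,
      ← hcdef] at hmu
    have hab : a * b ≤ min a (min s b) * s := by
      rw [min_eq_right hb]
      rcases le_total a b with h3 | h3
      · rw [min_eq_left h3]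
        exact mul_le_mul_of_nonneg_left hb ha0.le
      · rw [min_eq_right h3, mul_comm]
        exact mul_le_mul_of_nonneg_left ha hb0.le
    have hmin : 0 < min a (min s b) := lt_min ha0 (lt_min hs hb0)
    have hk := h.pos
    have h5 : κ ^ 2 * (a * b) ≤ d * m :=
      calc κ ^ 2 * (a * b) ≤ κ ^ 2 * (min a (min s b) * s) :=
            mul_le_mul_of_nonneg_left hab (sq_nonneg _)
        _ = κ * min a (min s b) * (κ * s) := by ring
        _ ≤ d * m := mul_le_mul hwy hm (by positivity) (hw.pos _ _).le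
    have h6 : (κ ^ 2 * (a * b)) ^ 2 ≤ (d * m) ^ 2 := pow_le_pow_left₀ (by positivity) h5 2
    have h7 : κ ^ 4 * mu om p.2 ≤ mu om (p.2.sw y (lt l)) * (m / c) ^ 2 := by
      have h8 : mu om (p.2.sw y (lt l)) = mu om p.2 * (c * d) ^ 2 / (a * b) ^ 2 := by
        rw [eq_div_iff (by positivity), hmu]
      have h9 := mu_pos hw p.2
      rw [h8]
      have h10 : mu om p.2 * (c * d) ^ 2 / (a * b) ^ 2 * (m / c) ^ 2 =
          mu om p.2 * (d * m) ^ 2 / (a * b) ^ 2 := by
        field_simp
      rw [h10, le_div_iff₀ (by positivity)]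
      calc κ ^ 4 * mu om p.2 * (a * b) ^ 2 = mu om p.2 * (κ ^ 2 * (a * b)) ^ 2 := by ring
        _ ≤ _ := mul_le_mul_of_nonneg_left h6 h9.le
    have h11 := mu_pos hw p.1
    calc κ ^ 4 * mu2 om p = mu om p.1 * (κ ^ 4 * mu om p.2) := by rw [mu2]; ring
      _ ≤ mu om p.1 * (mu om (p.2.sw y (lt l)) * (m / c) ^ 2) :=
          mul_le_mul_of_nonneg_left h7 h11.le
      _ = _ := by rw [nb, mu2, ← mul_assoc]; rfl

theorem dom_le (h : Hyp om κ) (φ : List V → ℝ) (hφ : ∀ l, 0 ≤ φ l) :
    ∑ z ∈ DomS om, mu2 om z.2 * φ z.1 ≤ XX V κ ^ 4 * ∑ z ∈ CyS V, nb om z.2 z.1 * φ z.1 := by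
  have hk := h.pos
  have hS : 0 ≤ ∑ z ∈ CyS V, nb om z.2 z.1 * φ z.1 :=
    sum_nonneg fun z _ => mul_nonneg (LinB.nb_nonneg h.wt _ _) (hφ _)
  have key : ∑ z ∈ DomS om, κ ^ 4 * (mu2 om z.2 * φ z.1) ≤
      ∑ u ∈ (univ : Finset V) ×ˢ CyS V, nb om u.2.2 u.2.1 * φ u.2.1 := by
    refine sum_le_of_inj _ _
      (fun z => (z.2.2.f (hd z.1), (z.1, sw2 (z.2.2.f (hd z.1)) (lt z.1) z.2))) _ _
      (fun z hz => ?_) (fun z _ z' _ e => ?_)
      (fun u _ => mul_nonneg (LinB.nb_nonneg h.wt _ _) (hφ _)) fun z hz => ?_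
    · exact mem_product.2 ⟨mem_univ _, mem_CyS.2 (LinB.close h (mem_DomS.1 hz)).1⟩
    · simp only [Prod.mk.injEq] at e
      obtain ⟨e1, e2, e3⟩ := e
      rw [← e1, ← e2] at e3
      exact Prod.ext e2 (sw2_inj _ _ e3)
    · rw [← mul_assoc]
      exact mul_le_mul_of_nonneg_right (LinB.close h (mem_DomS.1 hz)).2 (hφ _)
  rw [← mul_sum, sum_product] at key
  simp only [sum_const, card_univ, nsmul_eq_mul] at key
  have h2 := LinB.two_le_card h
  have h3 : (Fintype.card V : ℝ) ≤ (Fintype.card V : ℝ) ^ 4 :=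
    le_self_pow₀ (by linarith) (by norm_num)
  rw [XX, div_pow, div_mul_eq_mul_div, le_div_iff₀ (by positivity), mul_comm]
  exact key.trans (mul_le_mul_of_nonneg_right h3 hS)

/-- an odd alternating path whose two boundary edges are not stronger than its edges -/
structure LinB.DomO (om : V → V → ℝ) (p : PM V × PM V) (l : List V) : Prop where
  nd : l.Nodup
  od : Odd l.length
  a : Prs p.1 l.tail
  b : Prs p.2 l
  left : om (p.1.f (hd l)) (hd l) ≤ str om l
  right : om (lt l) (p.2.f (lt l)) ≤ str om l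

theorem LinB.tele (h : Wt om) (f : PM V → ℝ) {p : PM V × PM V} {ρ : ℝ} (hρ0 : 0 ≤ ρ)
    (hρ : ∀ Q, Dom om p Q ∨ Dom om p.swap Q → |rr om f Q| ≤ ρ) (n : ℕ) :
    ∀ l : List V, l.length = n → ∀ q, q = p ∨ q = p.swap →
      (Dom om q l → |dd om f l| ≤ ((l.length : ℝ) - 1) * ρ) ∧
      (LinB.DomO om q l → |oo om f l| ≤ ((l.length : ℝ) - 1) * ρ) := by
  induction n using Nat.strong_induction_on with
  | _ n ih =>
  intro l hl q hq
  have hq' : q.swap = p ∨ q.swap = p.swap := by
    rcases hq with rfl | rfl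
    · exact Or.inr rfl
    · exact Or.inl (Prod.swap_swap p)
  by_cases h2 : 2 ≤ l.length
  swap
  · refine ⟨fun hd' => absurd (LinB.two_le hd'.ne hd'.ev) h2, fun ho => ?_⟩
    have h1 : l.length = 1 := by
      obtain ⟨k, hk⟩ := ho.od
      omega
    rw [oo_short om f h2, h1]
    simp
  obtain ⟨e, hp0, hs0, hlen, hcut, hsp, hss⟩ := pre_suf h h2
  set P := pre om l with hP
  set S := suf om l with hS
  have hlen2 : P.length + S.length = l.length := by rw [← List.length_append, e]
  have hP1 : 0 < P.length := List.length_pos_iff.2 hp0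
  have hS1 : 0 < S.length := List.length_pos_iff.2 hs0
  have hhd : hd l = hd P := by rw [← e, hd_append hp0]
  have hlt : lt l = lt S := by rw [← e, lt_append _ hs0]
  have hcast : (l.length : ℝ) = P.length + S.length := by exact_mod_cast hlen2.symm
  have ihP := ih P.length (by omega) P rfl
  have ihS := ih S.length (by omega) S rfl
  have ihR := ih P.reverse.length (by rw [List.length_reverse]; omega) P.reverse rfl
  constructor
  · intro hd'
    have hr : |rr om f l| ≤ ρ := by
      rcases hq with rfl | rfl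
      · exact hρ l (Or.inl hd')
      · exact hρ l (Or.inr hd')
    have hnd : (P ++ S).Nodup := by rw [e]; exact hd'.nd
    have hndP : P.Nodup := hnd.of_append_left
    have hndS : S.Nodup := hnd.of_append_right
    have ha : Prs q.1 (P ++ S) := by rw [e]; exact hd'.a
    have hb : Prs q.2 (P ++ S).tail := by rw [e]; exact hd'.b
    have hle := hd'.left
    have hri := hd'.right
    have hev := hd'.ev
    rw [hhd] at hle
    rw [hlt] at hri
    by_cases hk : Even (spl om l)
    · have hPe : Even P.length := by rwa [hlen]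
      have hSe : Even S.length := by
        rw [← hlen2, Nat.even_add] at hev
        exact hev.1 hPe
      rw [prs_append_even _ hPe] at ha
      rw [prs_tail_append_even _ hPe hp0 hs0] at hb
      have d1 : Dom om q P :=
        ⟨hndP, hp0, hPe, ha.1, hb.1, hle.trans hsp, by rw [hb.2.1, hcut]; exact hsp⟩
      have d2 : Dom om q S :=
        ⟨hndS, hs0, hSe, ha.2, hb.2.2, by rw [q.2.eq_comm.1 hb.2.1, hcut]; exact hss,
          hri.trans hss⟩
      have i1 := (ihP q hq).1 d1
      have i2 := (ihS q hq).1 d2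
      rw [rr, if_pos hk, ← hP, ← hS] at hr
      rw [abs_le] at hr i1 i2 ⊢
      rw [hcast]
      constructor <;> linarith [hr.1, hr.2, i1.1, i1.2, i2.1, i2.2]
    · have hPo : Odd P.length := by rw [hlen]; exact Nat.not_even_iff_odd.1 hk
      have hSo : Odd S.length := by
        rw [← hlen2, Nat.even_add'] at hev
        exact hev.1 hPo
      rw [prs_append_odd _ hPo hs0] at ha
      rw [prs_tail_append_odd _ hPo] at hb
      have d1 : LinB.DomO om q P.reverse := by
        refine ⟨List.nodup_reverse.2 hndP, by rwa [List.length_reverse],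
          (prs_reverse_tail_odd _ hPo).2 ha.1, (prs_reverse_odd _ hPo).2 hb.1, ?_, ?_⟩
        · rw [hd_reverse, ha.2.1, str_reverse h, h.symm, hcut]; exact hsp
        · rw [lt_reverse, str_reverse h, h.symm]; exact hle.trans hsp
      have d2 : LinB.DomO om q S :=
        ⟨hndS, hSo, ha.2.2, hb.2, by rw [q.1.eq_comm.1 ha.2.1, hcut]; exact hss, hri.trans hss⟩
      have i1 := (ihR q hq).2 d1
      have i2 := (ihS q hq).2 d2
      rw [List.length_reverse] at i1
      rw [rr, if_neg hk, ← hP, ← hS] at hr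
      rw [abs_le] at hr i1 i2 ⊢
      rw [hcast]
      constructor <;> linarith [hr.1, hr.2, i1.1, i1.2, i2.1, i2.2]
  · intro ho
    have hnd : (P ++ S).Nodup := by rw [e]; exact ho.nd
    have hndP : P.Nodup := hnd.of_append_left
    have hndS : S.Nodup := hnd.of_append_right
    have ha : Prs q.1 (P ++ S).tail := by rw [e]; exact ho.a
    have hb : Prs q.2 (P ++ S) := by rw [e]; exact ho.b
    have hle := ho.left
    have hri := ho.right
    have hod := ho.od
    rw [hhd] at hle
    rw [hlt] at hri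
    rw [oo_long om f h2, nxt]
    by_cases hk : Even (spl om l)
    · have hPe : Even P.length := by rwa [hlen]
      have hSo : Odd S.length := by
        rw [← hlen2, Nat.odd_add'] at hod
        exact hod.2 hPe
      rw [prs_append_even _ hPe] at hb
      rw [prs_tail_append_even _ hPe hp0 hs0] at ha
      have d1 : Dom om q.swap P :=
        ⟨hndP, hp0, hPe, hb.1, ha.1, hle.trans hsp, by
          show om (lt P) (q.1.f (lt P)) ≤ _
          rw [ha.2.1, hcut]; exact hsp⟩
      have d2 : LinB.DomO om q S :=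
        ⟨hndS, hSo, ha.2.2, hb.2, by rw [q.1.eq_comm.1 ha.2.1, hcut]; exact hss, hri.trans hss⟩
      have i1 := (ihP q.swap hq').1 d1
      have i2 := (ihS q hq).2 d2
      rw [if_pos hk, if_pos hk, ← hP, ← hS]
      rw [abs_le] at i1 i2 ⊢
      rw [hcast]
      constructor <;> linarith [i1.1, i1.2, i2.1, i2.2]
    · have hPo : Odd P.length := by rw [hlen]; exact Nat.not_even_iff_odd.1 hk
      have hSe : Even S.length := by
        rw [← hlen2, Nat.odd_add] at hod
        exact hod.1 hPo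
      rw [prs_append_odd _ hPo hs0] at hb
      rw [prs_tail_append_odd _ hPo] at ha
      have d1 : LinB.DomO om q P :=
        ⟨hndP, hPo, ha.1, hb.1, hle.trans hsp, by rw [hb.2.1, hcut]; exact hsp⟩
      have d2 : Dom om q S :=
        ⟨hndS, hs0, hSe, ha.2, hb.2.2, by rw [q.2.eq_comm.1 hb.2.1, hcut]; exact hss,
          hri.trans hss⟩
      have i1 := (ihP q hq).2 d1
      have i2 := (ihS q hq).1 d2
      rw [if_neg hk, if_neg hk, ← hP, ← hS]
      rw [abs_le] at i1 i2 ⊢
      rw [hcast]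
      constructor <;> linarith [i1.1, i1.2, i2.1, i2.2]

theorem dd_le (h : Wt om) (f : PM V → ℝ) {p : PM V × PM V} {ρ : ℝ}
    (hρ : ∀ Q, Dom om p Q ∨ Dom om p.swap Q → |rr om f Q| ≤ ρ) {l : List V}
    (hl : Dom om p l ∨ Dom om p.swap l) : |dd om f l| ≤ Fintype.card V * ρ := by
  have hρ0 : 0 ≤ ρ := (abs_nonneg _).trans (hρ l hl)
  have h1 : |dd om f l| ≤ ((l.length : ℝ) - 1) * ρ := by
    rcases hl with hl | hl
    · exact (LinB.tele h f hρ0 hρ _ l rfl p (Or.inl rfl)).1 hl
    · exact (LinB.tele h f hρ0 hρ _ l rfl p.swap (Or.inr rfl)).1 hl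
  have h2 : (l.length : ℝ) ≤ Fintype.card V := by
    have : l.Nodup := hl.elim (fun h => h.nd) fun h => h.nd
    exact_mod_cast this.length_le_card
  exact h1.trans (mul_le_mul_of_nonneg_right (by linarith) hρ0)

theorem LinB.dom_of_cy {p : PM V × PM V} {l : List V} (hc : Cy p l)
    (hs : om (lt l) (hd l) ≤ str om l) : Dom om p l :=
  ⟨hc.nd, hc.ne, hc.ev, hc.a, hc.b, by rw [p.2.eq_comm.1 hc.c]; exact hs,
    by rw [hc.c]; exact hs⟩

/-- every cycle has a list whose chord is a weakest edge -/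
theorem LinB.exists_rot (h : Wt om) (p : PM V × PM V) (v : V) :
    ∃ l, v ∈ l ∧ om (lt l) (hd l) ≤ str om l ∧ (Cy p l ∨ Cy p.swap l) := by
  obtain ⟨l, hc, hv⟩ := exists_cy p v
  have hvl : v ∈ l := hv ▸ hd_mem hc.ne
  rcases le_total (om (lt l) (hd l)) (str om l) with h0 | h0
  · exact ⟨l, hvl, h0, Or.inl hc⟩
  have h2 := LinB.two_le hc.ne hc.ev
  obtain ⟨e, hp0, hs0, hlen, hcut, hsp, hss⟩ := pre_suf h h2
  set P := pre om l with hP
  set S := suf om l with hS
  have hlen2 : P.length + S.length = l.length := by rw [← List.length_append, e]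
  have hhd : hd l = hd P := by rw [← e, hd_append hp0]
  have hlt : lt l = lt S := by rw [← e, lt_append _ hs0]
  have hperm : (S ++ P).Perm l := by rw [← e]; exact List.perm_append_comm
  have hnd : (S ++ P).Nodup := hperm.nodup_iff.2 hc.nd
  have hne : S ++ P ≠ [] := by simp [hp0]
  have hev : Even (S ++ P).length := by rw [hperm.length_eq]; exact hc.ev
  have ha : Prs p.1 (P ++ S) := by rw [e]; exact hc.a
  have hb : Prs p.2 (P ++ S).tail := by rw [e]; exact hc.b
  have hch : p.2.f (lt S) = hd P := by rw [← hlt, ← hhd]; exact hc.c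
  have hev' := hc.ev
  refine ⟨S ++ P, hperm.mem_iff.2 hvl, ?_, ?_⟩
  · rw [lt_append _ hp0, hd_append hs0, hcut, str_append h hs0 hp0, ← hlt, ← hhd]
    exact le_min hss (le_min h0 hsp)
  by_cases hk : Even (spl om l)
  · have hPe : Even P.length := by rwa [hlen]
    have hSe : Even S.length := by
      rw [← hlen2, Nat.even_add] at hev'
      exact hev'.1 hPe
    rw [prs_append_even _ hPe] at ha
    rw [prs_tail_append_even _ hPe hp0 hs0] at hb
    refine Or.inl ⟨hnd, hne, hev, (prs_append_even _ hSe _).2 ⟨ha.2, ha.1⟩,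
      (prs_tail_append_even _ hSe hs0 hp0).2 ⟨hb.2.2, hch, hb.1⟩, ?_⟩
    rw [lt_append _ hp0, hd_append hs0, hb.2.1]
  · have hPo : Odd P.length := by rw [hlen]; exact Nat.not_even_iff_odd.1 hk
    have hSo : Odd S.length := by
      rw [← hlen2, Nat.even_add'] at hev'
      exact hev'.1 hPo
    rw [prs_append_odd _ hPo hs0] at ha
    rw [prs_tail_append_odd _ hPo] at hb
    refine Or.inr ⟨hnd, hne, hev, (prs_append_odd _ hSo hp0).2 ⟨hb.2, hch, hb.1⟩,
      (prs_tail_append_odd _ hSo _).2 ⟨ha.2.2, ha.1⟩, ?_⟩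
    show p.1.f (lt (S ++ P)) = hd (S ++ P)
    rw [lt_append _ hp0, hd_append hs0, ha.2.1]

open Classical in
/-- the part of `SV` at a pair -/
noncomputable def LinB.AA (om : V → V → ℝ) (f : PM V → ℝ) (p : PM V × PM V) : ℝ :=
  ∑ l ∈ NL V, if Cy p l then mu2 om p * (f (sig (hd l) p).1 - f p.1 - dd om f l) ^ 2 else 0

open Classical in
/-- the squares of the defects of the dominated paths of a pair -/
noncomputable def LinB.RR (om : V → V → ℝ) (f : PM V → ℝ) (p : PM V × PM V) : ℝ :=
  ∑ l ∈ NL V, if Dom om p l then rr om f l ^ 2 else 0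

theorem LinB.sum_AA (f : PM V → ℝ) : ∑ p, LinB.AA om f p = SV om f := by
  unfold LinB.AA SV CyS
  rw [sum_filter, sum_product, sum_comm]

theorem LinB.sum_RR (f : PM V → ℝ) :
    ∑ p, mu2 om p * LinB.RR om f p = ∑ z ∈ DomS om, mu2 om z.2 * rr om f z.1 ^ 2 := by
  unfold LinB.RR DomS
  rw [sum_filter, sum_product, sum_comm]
  refine sum_congr rfl fun p _ => ?_
  rw [mul_sum]
  refine sum_congr rfl fun l _ => ?_
  split_ifs <;> simp

theorem LinB.AA_nonneg (h : Wt om) (f : PM V → ℝ) (p : PM V × PM V) : 0 ≤ LinB.AA om f p := by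
  refine sum_nonneg fun l _ => ?_
  split_ifs
  · exact mul_nonneg (mu2_pos h p).le (sq_nonneg _)
  · exact le_rfl

theorem LinB.RR_nonneg (f : PM V → ℝ) (p : PM V × PM V) : 0 ≤ LinB.RR om f p := by
  refine sum_nonneg fun l _ => ?_
  split_ifs
  · exact sq_nonneg _
  · exact le_rfl

theorem LinB.le_AA (h : Wt om) (f : PM V → ℝ) {p : PM V × PM V} {l : List V} (hc : Cy p l)
    {v : V} (hv : v ∈ l) :
    mu2 om p * (f (sig v p).1 - f p.1 - dd om f l) ^ 2 ≤ LinB.AA om f p := by
  classical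
  have e : sig v p = sig (hd l) p :=
    sig_eq_of_mem (by rw [hc.cyc_eq (hd_mem hc.ne)]; exact List.mem_toFinset.2 hv)
  have := single_le_sum (s := NL V) (f := fun l =>
    if Cy p l then mu2 om p * (f (sig (hd l) p).1 - f p.1 - dd om f l) ^ 2 else 0)
    (fun l _ => by
      split_ifs
      · exact mul_nonneg (mu2_pos h p).le (sq_nonneg _)
      · exact le_rfl) (mem_NL.2 hc.nd)
  rw [if_pos hc] at this
  rw [e]
  exact this

theorem LinB.le_RR (f : PM V → ℝ) {p : PM V × PM V} {l : List V} (hd' : Dom om p l) :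
    rr om f l ^ 2 ≤ LinB.RR om f p := by
  classical
  have := single_le_sum (s := NL V) (f := fun l => if Dom om p l then rr om f l ^ 2 else 0)
    (fun l _ => by
      split_ifs
      · exact sq_nonneg _
      · exact le_rfl) (mem_NL.2 hd'.nd)
  rw [if_pos hd'] at this
  exact this

theorem LinB.dd_sq_le (h : Wt om) (f : PM V → ℝ) {p : PM V × PM V} {l : List V}
    (hl : Dom om p l ∨ Dom om p.swap l) :
    dd om f l ^ 2 ≤ (Fintype.card V : ℝ) ^ 2 * (LinB.RR om f p + LinB.RR om f p.swap) := by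
  have h1 := LinB.RR_nonneg (om := om) f p
  have h2 := LinB.RR_nonneg (om := om) f p.swap
  have h3 : |dd om f l| ≤ Fintype.card V * √(LinB.RR om f p + LinB.RR om f p.swap) := by
    refine dd_le h f (fun Q hQ => Real.abs_le_sqrt ?_) hl
    rcases hQ with hQ | hQ
    · linarith [LinB.le_RR f hQ]
    · linarith [LinB.le_RR f hQ]
  have h4 := pow_le_pow_left₀ (abs_nonneg _) h3 2
  rwa [sq_abs, mul_pow, Real.sq_sqrt (add_nonneg h1 h2)] at h4

theorem LinB.point (h : Wt om) (f : PM V → ℝ) (p : PM V × PM V) (v : V) :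
    mu2 om p * (f (sig v p).1 - f p.1) ^ 2 ≤ 2 * LinB.AA om f p + 2 * LinB.AA om f (sig v p) +
      2 * (Fintype.card V : ℝ) ^ 2 *
        (mu2 om p * LinB.RR om f p + mu2 om p.swap * LinB.RR om f p.swap) := by
  obtain ⟨l, hv, hs, hc⟩ := LinB.exists_rot h p v
  have hm := mu2_pos h p
  have h1 := LinB.dd_sq_le h f (hc.imp (fun hc => LinB.dom_of_cy hc hs) fun hc =>
    LinB.dom_of_cy hc hs)
  have h2 := mul_le_mul_of_nonneg_left h1 hm.le
  have a1 := LinB.AA_nonneg h f p
  have a2 := LinB.AA_nonneg h f (sig v p)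
  rw [mu2_swap]
  rcases hc with hc | hc
  · have h3 := LinB.le_AA h f hc hv
    have h4 : (f (sig v p).1 - f p.1) ^ 2 ≤
        2 * (f (sig v p).1 - f p.1 - dd om f l) ^ 2 + 2 * dd om f l ^ 2 := by
      nlinarith [sq_nonneg (f (sig v p).1 - f p.1 - 2 * dd om f l)]
    have h5 := mul_le_mul_of_nonneg_left h4 hm.le
    nlinarith
  · have hc' : Cy (sig v p) l := by
      have := hc.sig_cy hv
      rwa [sig_swap, Prod.swap_swap] at this
    have h3 := LinB.le_AA h f hc' hv
    rw [sig_sig, mu2_sig] at h3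
    have h4 : (f (sig v p).1 - f p.1) ^ 2 ≤
        2 * (f p.1 - f (sig v p).1 - dd om f l) ^ 2 + 2 * dd om f l ^ 2 := by
      nlinarith [sq_nonneg (f p.1 - f (sig v p).1 - 2 * dd om f l)]
    have h5 := mul_le_mul_of_nonneg_left h4 hm.le
    nlinarith

theorem top_sig (h : Hyp om κ) (f : PM V → ℝ) :
    Dsig om (fun p => f p.1) ≤ XX V κ ^ 12 * (SV om f + SA om f) := by
  have hw := h.wt
  have hV : 0 ≤ SV om f := sum_nonneg fun z _ => mul_nonneg (mu2_pos hw _).le (sq_nonneg _)
  have hA : 0 ≤ SA om f := sum_nonneg fun z _ => mul_nonneg (LinB.nb_nonneg hw _ _) (sq_nonneg _)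
  have hR : ∑ p, mu2 om p * LinB.RR om f p ≤ XX V κ ^ 4 * SA om f := by
    rw [LinB.sum_RR]
    exact dom_le h (fun l => rr om f l ^ 2) fun _ => sq_nonneg _
  have hv : ∀ v : V, ∑ p : PM V × PM V, mu2 om p * (f (sig v p).1 - f p.1) ^ 2 ≤
      4 * SV om f + 4 * (Fintype.card V : ℝ) ^ 2 * (XX V κ ^ 4 * SA om f) := by
    intro v
    refine (sum_le_sum fun p _ => LinB.point hw f p v).trans ?_
    have e1 : ∑ p, LinB.AA om f (sig v p) = SV om f := by
      rw [← LinB.sum_AA]
      exact Fintype.sum_bijective (sig v) (Finite.injective_iff_bijective.1 (sig_inj v)) _ _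
        fun _ => rfl
    have e2 : ∑ p : PM V × PM V, mu2 om p.swap * LinB.RR om f p.swap =
        ∑ p, mu2 om p * LinB.RR om f p :=
      Fintype.sum_bijective Prod.swap Prod.swap_bijective _ _ fun _ => rfl
    rw [sum_add_distrib, sum_add_distrib, ← mul_sum, ← mul_sum, ← mul_sum, sum_add_distrib,
      LinB.sum_AA, e1, e2]
    have := mul_le_mul_of_nonneg_left hR (sq_nonneg (Fintype.card V : ℝ))
    linarith
  have h2 := LinB.two_le_card h
  have h3 := LinB.card_le_XX h
  set X := XX V κ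
  set n := (Fintype.card V : ℝ) with hn
  have hX : 2 ≤ X := h2.trans h3
  have hX1 : 1 ≤ X := by linarith
  have h4 : 4 ≤ X ^ 2 := by nlinarith
  have hn0 : 0 ≤ n := by linarith
  have h5 : n * 4 ≤ X ^ 12 :=
    calc n * 4 ≤ X * X ^ 2 := mul_le_mul h3 h4 (by norm_num) (by linarith)
      _ = X ^ 3 := by ring
      _ ≤ X ^ 12 := pow_le_pow_right₀ hX1 (by norm_num)
  have h6 : 4 * n ^ 3 * X ^ 4 ≤ X ^ 12 :=
    calc 4 * n ^ 3 * X ^ 4 ≤ X ^ 2 * X ^ 3 * X ^ 4 :=
          mul_le_mul_of_nonneg_right (mul_le_mul h4 (pow_le_pow_left₀ hn0 h3 3) (by positivity)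
            (by positivity)) (by positivity)
      _ = X ^ 9 := by ring
      _ ≤ X ^ 12 := pow_le_pow_right₀ hX1 (by norm_num)
  calc Dsig om (fun p => f p.1)
      ≤ ∑ _v : V, (4 * SV om f + 4 * n ^ 2 * (X ^ 4 * SA om f)) := sum_le_sum fun v _ => hv v
    _ = n * 4 * SV om f + 4 * n ^ 3 * X ^ 4 * SA om f := by
        rw [sum_const, card_univ, nsmul_eq_mul, ← hn]; ring
    _ ≤ X ^ 12 * SV om f + X ^ 12 * SA om f :=
        add_le_add (mul_le_mul_of_nonneg_right h5 hV) (mul_le_mul_of_nonneg_right h6 hA)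
    _ = _ := by ring

end Vale.Agent.P308
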