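import Vale.Agent.P308.LinV

/-!
The linearised gap: assembly from the estimates of `SO`, `SA` and of the cycle exchanges.
-/

set_option linter.unusedSectionVars false

namespace Vale.Agent.P308

open Finset

variable {V : Type} [Fintype V] [DecidableEq V] [Inhabited V] {om : V → V → ℝ} {κ : ℝ}

theorem lin_gap_of (h : Hyp om κ) (f : PM V → ℝ)
    (hO : SO om f ≤ XX V κ ^ 12 * (SV om f + Dsw om f))
    (hA1 : ∑ z ∈ (CyS V).filter (fun z => Even (spl om z.1)), nb om z.2 z.1 * rr om f z.1 ^ 2 ≤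
      XX V κ ^ 9 * (SV om f + Dsw om f))
    (hA2 : ∑ z ∈ (CyS V).filter (fun z => ¬ Even (spl om z.1)), nb om z.2 z.1 * rr om f z.1 ^ 2 ≤
      XX V κ ^ 7 * (SV om f + SO om f))
    (hB : Dsig om (fun p => f p.1) ≤ XX V κ ^ 12 * (SV om f + SA om f)) :
    ∑ p : PM V × PM V, mu2 om p * (f p.2 - f p.1) ^ 2 ≤
      XX V κ ^ 40 * (Dsig om (fun p => f p.1 + f p.2) + Dsw om f) := by
  obtain ⟨x1, -, x2⟩ := one_le_XX h
  have h1 := top_swap h.wt fun p => f p.1
  simp only [Prod.fst_swap] at h1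
  have h2 : SA om f ≤ XX V κ ^ 9 * (SV om f + Dsw om f) + XX V κ ^ 7 * (SV om f + SO om f) := by
    rw [SA, ← sum_filter_add_sum_filter_not _ (fun z => Even (spl om z.1))]
    exact add_le_add hA1 hA2
  have h3 := SV_le h.wt f
  have h4 := SV_nonneg h.wt f
  have h5 := Dsw_nonneg h.wt f
  have h6 := Dsig_nonneg h.wt fun p => f p.1
  set X := XX V κ with hX
  set S := SV om f + Dsw om f with hS
  have hS0 : 0 ≤ S := add_nonneg h4 h5
  have hX1 : 1 ≤ X := by linarith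
  have p1 : ∀ {a b : ℕ}, a ≤ b → X ^ a * S ≤ X ^ b * S := fun hab =>
    mul_le_mul_of_nonneg_right (pow_le_pow_right₀ hX1 hab) hS0
  have h7 : X ^ 7 * (SV om f + SO om f) ≤ X ^ 7 * S + X ^ 19 * S := by
    have : SV om f + SO om f ≤ S + X ^ 12 * S := by linarith
    calc _ ≤ X ^ 7 * (S + X ^ 12 * S) := mul_le_mul_of_nonneg_left this (by positivity)
      _ = _ := by ring
  have h8 : SV om f + SA om f ≤ 4 * (X ^ 19 * S) := by
    have a1 := p1 (show 0 ≤ 19 by norm_num)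
    have a2 := p1 (show 9 ≤ 19 by norm_num)
    have a3 := p1 (show 7 ≤ 19 by norm_num)
    rw [pow_zero, one_mul] at a1
    linarith
  have h9 : (4 : ℝ) ≤ X ^ 2 := by nlinarith
  have h10 : SV om f + SA om f ≤ X ^ 21 * S := by
    calc _ ≤ X ^ 2 * (X ^ 19 * S) := h8.trans (mul_le_mul_of_nonneg_right h9 (by positivity))
      _ = _ := by ring
  calc _ ≤ X * Dsig om fun p => f p.1 := h1.trans (mul_le_mul_of_nonneg_right x1 h6)
    _ ≤ X * (X ^ 12 * (X ^ 21 * S)) := mul_le_mul_of_nonneg_left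
        (hB.trans (mul_le_mul_of_nonneg_left h10 (by positivity))) (by positivity)
    _ = X ^ 34 * S := by ring
    _ ≤ X ^ 40 * S := p1 (by norm_num)
    _ ≤ _ := mul_le_mul_of_nonneg_left (by linarith) (by positivity)

theorem sum_mu2_fst (h : Wt om) (φ : PM V → ℝ) :
    ∑ p : PM V × PM V, mu2 om p * φ p.1 = ∑ M, mu om M * φ M := by
  rw [Fintype.sum_prod_type]
  refine sum_congr rfl fun M _ => ?_
  have : ∀ F : PM V, mu2 om (M, F) * φ (M, F).1 = mu om M * φ M * mu om F := fun F => by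
    rw [mu2]; ring
  rw [sum_congr rfl fun F _ => this F, ← mul_sum, sum_mu h M, mul_one]

theorem sum_mu2_snd (h : Wt om) (φ : PM V → ℝ) :
    ∑ p : PM V × PM V, mu2 om p * φ p.2 = ∑ M, mu om M * φ M := by
  rw [← sum_mu2_fst h φ]
  exact sum_mu2_invol (σ := Prod.swap) Prod.swap_swap mu2_swap fun p => φ p.1

theorem sum_mu2_var (h : Wt om) (e : PM V → ℝ) (he : ∑ M, mu om M * e M = 0) :
    ∑ p : PM V × PM V, mu2 om p * (e p.2 - e p.1) ^ 2 = 2 * ∑ M, mu om M * e M ^ 2 := by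
  have h1 : ∑ p : PM V × PM V, mu2 om p * (e p.1 * e p.2) = 0 := by
    rw [Fintype.sum_prod_type]
    refine sum_eq_zero fun M _ => ?_
    have : ∀ F : PM V, mu2 om (M, F) * (e (M, F).1 * e (M, F).2) =
        mu om M * e M * (mu om F * e F) := fun F => by
      rw [mu2]; ring
    rw [sum_congr rfl fun F _ => this F, ← mul_sum, he, mul_zero]
  have h2 := sum_mu2_fst h fun M => e M ^ 2
  have h3 := sum_mu2_snd h fun M => e M ^ 2
  have h4 : ∀ p : PM V × PM V, mu2 om p * (e p.2 - e p.1) ^ 2 =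
      mu2 om p * e p.1 ^ 2 + mu2 om p * e p.2 ^ 2 - 2 * (mu2 om p * (e p.1 * e p.2)) :=
    fun p => by ring
  rw [sum_congr rfl fun p _ => h4 p, sum_sub_distrib, sum_add_distrib, ← mul_sum, h1, h2, h3]
  ring

theorem Dsig_add_le (h : Wt om) (g : PM V × PM V → ℝ) (e : PM V → ℝ) :
    Dsig om (fun p => g p + e p.2) ≤
      2 * Dsig om g + 8 * Fintype.card V * ∑ M, mu om M * e M ^ 2 := by
  have h1 : ∀ v : V, ∑ p : PM V × PM V, mu2 om p * (g (sig v p) + e (sig v p).2 - (g p + e p.2)) ^ 2 ≤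
      2 * ∑ p : PM V × PM V, mu2 om p * (g (sig v p) - g p) ^ 2 + 8 * ∑ M, mu om M * e M ^ 2 := by
    intro v
    have h2 := sum_mu2_snd h fun M => e M ^ 2
    have h3 := (sum_mu2_invol (om := om) (sig_sig v) (mu2_sig v) fun p => e p.2 ^ 2).trans h2
    have h4 : ∑ p : PM V × PM V, mu2 om p * (g (sig v p) + e (sig v p).2 - (g p + e p.2)) ^ 2 ≤
        ∑ p : PM V × PM V, (2 * (mu2 om p * (g (sig v p) - g p) ^ 2) +
          4 * (mu2 om p * e (sig v p).2 ^ 2) + 4 * (mu2 om p * e p.2 ^ 2)) := by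
      refine sum_le_sum fun p _ => ?_
      have a1 := mul_nonneg (mu2_pos h p).le
        (sq_nonneg (g (sig v p) - g p - (e (sig v p).2 - e p.2)))
      have a2 := mul_nonneg (mu2_pos h p).le (sq_nonneg (e (sig v p).2 + e p.2))
      nlinarith [a1, a2]
    rw [sum_add_distrib, sum_add_distrib, ← mul_sum, ← mul_sum, ← mul_sum, h2, h3] at h4
    linarith
  refine (sum_le_sum fun v _ => h1 v).trans (le_of_eq ?_)
  rw [sum_add_distrib, ← mul_sum, sum_const, card_univ, nsmul_eq_mul, Dsig]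
  ring

theorem two_gap_of (h : Hyp om κ) (a b : PM V → ℝ) (ha : ∑ M, mu om M * a M = 0)
    (hb : ∑ M, mu om M * b M = 0)
    (hl : ∑ p : PM V × PM V, mu2 om p * (a p.2 - a p.1) ^ 2 ≤
      XX V κ ^ 40 * (Dsig om (fun p => a p.1 + a p.2) + Dsw om a)) :
    ∑ M, mu om M * a M ^ 2 + ∑ M, mu om M * b M ^ 2 ≤
      XX V κ ^ 46 * (Dsig om (fun p => a p.1 + b p.2) + Dsw om a) := by
  obtain ⟨x1, -, x2⟩ := one_le_XX h
  have he : ∑ M, mu om M * (a M - b M) = 0 := by
    simp only [mul_sub, sum_sub_distrib, ha, hb, sub_zero]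
  have h1 := top_swap h.wt fun p => a p.1 + b p.2
  have h2 := sum_mu2_var h.wt (fun M => a M - b M) he
  have h3 : ∑ p : PM V × PM V, mu2 om p * (a p.swap.1 + b p.swap.2 - (a p.1 + b p.2)) ^ 2 =
      ∑ p : PM V × PM V, mu2 om p * (a p.2 - b p.2 - (a p.1 - b p.1)) ^ 2 :=
    sum_congr rfl fun p _ => by rw [Prod.fst_swap, Prod.snd_swap]; ring
  rw [h3, h2] at h1
  have h4 := Dsig_add_le h.wt (fun p => a p.1 + b p.2) fun M => a M - b M
  have h5 : (fun p : PM V × PM V => a p.1 + b p.2 + (a p.2 - b p.2)) = fun p => a p.1 + a p.2 :=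
    funext fun p => by ring
  rw [h5] at h4
  rw [sum_mu2_var h.wt a ha] at hl
  have h6 : ∑ M, mu om M * b M ^ 2 ≤
      2 * ∑ M, mu om M * a M ^ 2 + 2 * ∑ M, mu om M * (a M - b M) ^ 2 := by
    rw [mul_sum, mul_sum, ← sum_add_distrib]
    refine sum_le_sum fun M _ => ?_
    have := mul_nonneg (mu_pos h.wt M).le (sq_nonneg (2 * a M - b M))
    nlinarith [this]
  have h7 := Dsig_nonneg h.wt fun p => a p.1 + b p.2
  have h8 := Dsw_nonneg h.wt a
  set X := XX V κ with hX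
  set D := Dsig om fun p => a p.1 + b p.2 with hD
  set E := ∑ M, mu om M * (a M - b M) ^ 2 with hE
  have hE0 : 0 ≤ E := sum_nonneg fun M _ => mul_nonneg (mu_pos h.wt M).le (sq_nonneg _)
  have hv : (0 : ℝ) ≤ Fintype.card V := Nat.cast_nonneg _
  have h9 : 2 * E ≤ X * D := h1.trans (mul_le_mul_of_nonneg_right x1 h7)
  have h10 : 8 * Fintype.card V * E ≤ 4 * X ^ 2 * D := by
    calc _ = 4 * (Fintype.card V * (2 * E)) := by ring
      _ ≤ 4 * (X * (X * D)) := by
        refine mul_le_mul_of_nonneg_left (mul_le_mul x1 h9 (by positivity) (by positivity)) ?_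
        norm_num
      _ = _ := by ring
  have h11 : (4 : ℝ) ≤ X ^ 2 := by nlinarith
  have h12 : Dsig om (fun p => a p.1 + a p.2) + Dsw om a ≤ 5 * X ^ 2 * (D + Dsw om a) := by
    have a1 := mul_le_mul_of_nonneg_right h11 h7
    have a2 := mul_le_mul_of_nonneg_right h11 h8
    nlinarith
  have h13 : 2 * ∑ M, mu om M * a M ^ 2 ≤ 5 * (X ^ 42 * (D + Dsw om a)) := by
    calc _ ≤ X ^ 40 * (5 * X ^ 2 * (D + Dsw om a)) :=
        hl.trans (mul_le_mul_of_nonneg_left h12 (by positivity))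
      _ = _ := by ring
  have hX1 : 1 ≤ X := by linarith
  have h14 : X * D ≤ X ^ 42 * (D + Dsw om a) :=
    mul_le_mul (le_self_pow₀ hX1 (by norm_num)) (by linarith) h7 (by positivity)
  have h15 : (16 : ℝ) ≤ X ^ 4 := by nlinarith
  have h16 : 0 ≤ X ^ 42 * (D + Dsw om a) := by positivity
  calc _ ≤ 16 * (X ^ 42 * (D + Dsw om a)) := by linarith
    _ ≤ X ^ 4 * (X ^ 42 * (D + Dsw om a)) := mul_le_mul_of_nonneg_right h15 h16
    _ = _ := by ring

end Vale.Agent.P308
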