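import Vale.Agent.P308.Lists2

/-!
The step estimate along odd paths which are cut as an even part followed by an odd part.
-/

set_option linter.unusedSectionVars false

namespace Vale.Agent.P308

open Finset

variable {V : Type} [Fintype V] [DecidableEq V] [Inhabited V] {om : V → V → ℝ} {κ : ℝ}

namespace O1

theorem split_even {p : PM V × PM V} {Q R : List V} (h : Od p (Q ++ R)) (hQ : Even Q.length)
    (hQn : Q ≠ []) (hRn : R ≠ []) :
    Od p R ∧ p.1.f (hd R) = lt Q ∧ Prs p.1 Q.tail ∧ Prs p.2 Q := by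
  have h1 := (prs_append_even p.2 hQ R).1 h.b
  have h2 := (prs_tail_append_even p.1 hQ hQn hRn).1 h.a
  have h3 : Odd R.length := by
    have := h.od
    rw [List.length_append] at this
    exact (Nat.odd_add'.1 this).2 hQ
  exact ⟨⟨(List.nodup_append.1 h.nd).2.1, h3, h2.2.2, h1.2⟩, p.1.eq_comm.1 h2.2.1, h2.1, h1.1⟩

/-- the intermediate pair -/
noncomputable def midE (Q R : List V) (p : PM V × PM V) : PM V × PM V :=
  sw1 (p.1.f (hd Q)) (lt Q) (tauL R p)

section core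

variable {p : PM V × PM V} {Q R : List V}

theorem midE_cy (h : Od p (Q ++ R)) (hQ : Even Q.length) (hQn : Q ≠ []) (hRn : R ≠ []) :
    Cy (sig (hd Q) (midE Q R p)) Q ∧ (sig (hd Q) (midE Q R p)).1 = (tauL (Q ++ R) p).1 ∧
      (tauL R p).1.f (p.1.f (hd Q)) = hd Q ∧ (tauL R p).1.f (lt Q) = lt R := by
  obtain ⟨hO, haz, hMQ, hFQ⟩ := split_even h hQ hQn hRn
  obtain ⟨t1, t2, t3, t4, -, -⟩ := hO.tau_spec
  obtain ⟨u1, u2, u3, -, -, -⟩ := h.tau_spec
  have hnd := List.nodup_append.1 h.nd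
  have hdis : ∀ x ∈ Q, x ∉ R := fun x hx hx' => hnd.2.2 x hx x hx' rfl
  have hal : p.1.f (hd Q) ∉ Q ++ R := by
    have := h.left_notMem
    rwa [hd_append hQn] at this
  have hbe : p.2.f (lt R) ∉ Q ++ R := by
    have := h.right_notMem
    rwa [lt_append Q hRn] at this
  rw [hd_append hQn] at u1 u3
  rw [lt_append Q hRn] at u3
  rw [List.mem_append, not_or] at hal hbe
  rw [haz] at t1 t3
  have e1 : (tauL R p).1.f (p.1.f (hd Q)) = hd Q := by
    rw [t1 _ hal.2 (fun e => hal.1 (e ▸ lt_mem hQn)), p.1.inv]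
  have e2 : (tauL R p).1.f (lt Q) = lt R := (tauL R p).1.eq_comm.1 t3
  have hne : (tauL R p).1.f (p.1.f (hd Q)) ≠ lt Q := by
    rw [e1]
    exact hd_ne_lt hnd.1 (two_le_of_even hQ hQn)
  have g0 : ∀ x, x ≠ p.1.f (hd Q) → x ≠ lt Q → x ≠ hd Q → x ≠ lt R →
      (midE Q R p).1.f x = (tauL R p).1.f x := fun x h1 h2 h3 h4 =>
    PM.sw_of_ne _ h1 h2 (by rwa [e1]) (by rwa [e2])
  have g1 : (midE Q R p).1.f (lt Q) = hd Q := by
    have := (tauL R p).1.sw_right hne
    rwa [e1] at this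
  have g2 : (midE Q R p).1.f (lt R) = p.1.f (hd Q) := by
    have := (tauL R p).1.sw_partner' hne
    rwa [e2] at this
  have hC : Cy (midE Q R p).swap Q := by
    refine ⟨hnd.1, hQn, hQ, ?_, ?_, g1⟩
    · exact prs_congr (fun x hx => t4 x (hdis x hx) fun e => hbe.1 (e ▸ hx)) hFQ
    · refine prs_congr_tail hnd.1 hQ (fun x hx h1 h2 => ?_) hMQ
      exact (g0 x (fun e => hal.1 (e ▸ hx)) h2 h1 fun e => hdis x hx (e ▸ lt_mem hRn)).trans
        (t1 x (hdis x hx) h2)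
  have hC' := hC.sig_cy (hd_mem hQn)
  rw [sig_swap, Prod.swap_swap] at hC'
  refine ⟨hC', ?_, e1, e2⟩
  have hout : ∀ x, x ∉ Q → (sig (hd Q) (midE Q R p)).1.f x = (midE Q R p).1.f x := by
    intro x hx
    have := (hC.sig_out (hd_mem hQn) hx).2
    rwa [sig_swap] at this
  have hzQ : lt R ∉ Q := fun e => hdis _ e (lt_mem hRn)
  have f1 : (sig (hd Q) (midE Q R p)).1.f (lt R) = p.1.f (hd Q) := by rw [hout _ hzQ, g2]
  have gP : Prs (sig (hd Q) (midE Q R p)).1 (Q ++ R) := by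
    refine (prs_append_even _ hQ R).2 ⟨hC'.a, ?_⟩
    refine prs_congr_odd hO.nd hO.od (fun x hx h1 => ?_) t2
    have hxQ : x ∉ Q := fun e => hdis x e hx
    rw [hout x hxQ, g0 x (fun e => hal.2 (e ▸ hx)) (fun e => hxQ (e ▸ lt_mem hQn))
      (fun e => hxQ (e ▸ hd_mem hQn)) h1]
  ext x
  by_cases hx : x ∈ Q ++ R
  · refine prs_agree_odd h.od gP u2 ?_ hx
    rw [lt_append Q hRn, u3, f1]
  · by_cases hx' : x = p.1.f (hd Q)
    · rw [hx', (tauL (Q ++ R) p).1.eq_comm.1 u3, (sig (hd Q) (midE Q R p)).1.eq_comm.1 f1]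
    · have hx2 := hx
      rw [List.mem_append, not_or] at hx2
      have h3 : x ≠ lt Q := fun e => hx2.1 (e ▸ lt_mem hQn)
      rw [u1 x hx hx', hout x hx2.1, g0 x hx' h3 (fun e => hx2.1 (e ▸ hd_mem hQn))
        (fun e => hx2.2 (e ▸ lt_mem hRn)), t1 x hx2.2 h3]

theorem midE_weights (hy : Hyp om κ) (h : Od p (Q ++ R)) (hQ : Even Q.length) (hQn : Q ≠ [])
    (hRn : R ≠ []) (hs : om (lt Q) (hd R) = str om (Q ++ R)) :
    κ ^ 6 * wb om p (Q ++ R) ≤ mu2 om (midE Q R p) ∧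
      κ ^ 6 * wb om p (Q ++ R) ≤ mu2 om (tauL R p) := by
  obtain ⟨hO, haz, hMQ, hFQ⟩ := split_even h hQ hQn hRn
  obtain ⟨-, -, e1, e2⟩ := midE_cy h hQ hQn hRn
  have hw := hy.wt
  have hnd := List.nodup_append.1 h.nd
  have hdis : ∀ x ∈ Q, x ∉ R := fun x hx hx' => hnd.2.2 x hx x hx' rfl
  have hal : p.1.f (hd Q) ∉ Q ++ R := by
    have := h.left_notMem
    rwa [hd_append hQn] at this
  have hbe : p.2.f (lt R) ∉ Q ++ R := by
    have := h.right_notMem
    rwa [lt_append Q hRn] at this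
  have hal' := hal
  have hbe' := hbe
  rw [List.mem_append, not_or] at hal' hbe'
  have hω : hd Q ≠ lt Q := hd_ne_lt hnd.1 (two_le_of_even hQ hQn)
  -- the weight identities
  have w1 := hO.mu2_tau hw
  rw [haz] at w1
  have w2 := mu_sw hw (tauL R p).1 (b := p.1.f (hd Q)) (c := lt Q)
    (fun e => hal'.1 (e ▸ lt_mem hQn)) (by rw [e1]; exact hω)
  rw [e1, e2] at w2
  have w5 : mu2 om (midE Q R p) =
      mu om ((tauL R p).1.sw (p.1.f (hd Q)) (lt Q)) * mu om (tauL R p).2 := rfl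
  have w6 : mu2 om (tauL R p) = mu om (tauL R p).1 * mu om (tauL R p).2 := rfl
  -- the path property
  have nA : (p.1.f (hd Q) :: (Q ++ R)).Nodup := List.nodup_cons.2 ⟨hal, h.nd⟩
  have nB : (Q ++ R ++ [p.2.f (lt R)]).Nodup := by
    refine List.nodup_append.2 ⟨h.nd, List.nodup_singleton _, ?_⟩
    intro x hx y hy e
    rw [List.mem_singleton] at hy
    exact hbe (hy ▸ e ▸ hx)
  have p1 := hy.path _ h.nd (lt Q) (by simp [lt_mem hQn]) (lt R) (by simp [lt_mem hRn])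
    (fun e => hdis _ (lt_mem hQn) (e ▸ lt_mem hRn))
  have p2 := hy.path _ nB (hd R) (by simp [hd_mem hRn]) (p.2.f (lt R)) (by simp)
    (fun e => hbe'.2 (e ▸ hd_mem hRn))
  have p3 := hy.path _ h.nd (hd Q) (by simp [hd_mem hQn]) (lt Q) (by simp [lt_mem hQn]) hω
  have p4 := hy.path _ nA (p.1.f (hd Q)) (by simp) (lt R) (by simp [lt_mem hRn])
    (fun e => hal'.2 (e ▸ lt_mem hRn))
  have p5 := str_cons_le (om := om) (p.1.f (hd Q)) h.ne
  rw [hd_append hQn] at p5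
  rw [← hs] at p1 p3
  have hwb : wb om p (Q ++ R) = mu2 om p *
      (str om (p.1.f (hd Q) :: (Q ++ R)) / om (p.1.f (hd Q)) (hd Q)) ^ 2 *
      (str om (Q ++ R ++ [p.2.f (lt R)]) / om (lt R) (p.2.f (lt R))) ^ 2 := by
    rw [wb, hd_append hQn, lt_append Q hRn]
  rw [hwb]
  rw [hw.symm (hd Q) (p.1.f (hd Q)), hw.symm (lt R) (lt Q), hw.symm (lt R) (p.1.f (hd Q))] at w2
  have q1 := str_pos hw (p.1.f (hd Q) :: (Q ++ R))
  have q2 := str_pos hw (Q ++ R ++ [p.2.f (lt R)])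
  have q3 := mu2_pos hw p
  have hk := hy.pos
  have hk1 := hy.le
  generalize str om (p.1.f (hd Q) :: (Q ++ R)) = sA at *
  generalize str om (Q ++ R ++ [p.2.f (lt R)]) = sB at *
  have a1 := hw.pos (p.1.f (hd Q)) (hd Q)
  have a2 := hw.pos (lt Q) (hd R)
  have a3 := hw.pos (lt Q) (lt R)
  have a4 := hw.pos (hd R) (p.2.f (lt R))
  have a5 := hw.pos (lt R) (p.2.f (lt R))
  have a6 := hw.pos (hd Q) (lt Q)
  have a7 := hw.pos (p.1.f (hd Q)) (lt R)
  generalize om (p.1.f (hd Q)) (hd Q) = x1 at *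
  generalize om (lt Q) (hd R) = x2 at *
  generalize om (lt Q) (lt R) = x3 at *
  generalize om (hd R) (p.2.f (lt R)) = x4 at *
  generalize om (lt R) (p.2.f (lt R)) = x5 at *
  generalize om (hd Q) (lt Q) = x6 at *
  generalize om (p.1.f (hd Q)) (lt R) = x7 at *
  have b1 : mu2 om (tauL R p) = mu2 om p * (x3 * x4 / (x2 * x5)) ^ 2 := by
    rw [div_pow, ← mul_div_assoc, eq_div_iff (by positivity), w1]
  have v1 : mu2 om (midE Q R p) = mu2 om p * (x4 * x6 * x7 / (x1 * x2 * x5)) ^ 2 := by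
    have b2 : mu om ((tauL R p).1.sw (p.1.f (hd Q)) (lt Q)) =
        mu om (tauL R p).1 * (x6 * x7) ^ 2 / (x1 * x3) ^ 2 := by
      rw [eq_div_iff (by positivity), w2]
    rw [w5, b2, mul_div_assoc, mul_right_comm, ← w6, b1]
    field_simp
  rw [v1, b1]
  constructor
  · have c1 : κ * sB * (κ * x2) * (κ * sA) ≤ x4 * x6 * x7 := by gcongr
    have c2 : κ ^ 6 * (mu2 om p * (sA / x1) ^ 2 * (sB / x5) ^ 2) =
        mu2 om p * (κ * sB * (κ * x2) * (κ * sA) / (x1 * x2 * x5)) ^ 2 := by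
      field_simp
    rw [c2]
    gcongr
  · have c0 : κ * sA ≤ x1 := by
      calc κ * sA ≤ 1 * sA := by gcongr
        _ ≤ x1 := by linarith
    have c1 : κ * sA * (κ * x2) * (κ * sB) ≤ x1 * x3 * x4 := by gcongr
    have c2 : κ ^ 6 * (mu2 om p * (sA / x1) ^ 2 * (sB / x5) ^ 2) =
        mu2 om p * (κ * sA * (κ * x2) * (κ * sB) / (x1 * x2 * x5)) ^ 2 := by
      field_simp
    have c3 : x3 * x4 / (x2 * x5) = x1 * x3 * x4 / (x1 * x2 * x5) := by
      field_simp
    rw [c2, c3]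
    gcongr

end core

theorem even_cut (hw : Wt om) {z : List V × (PM V × PM V)}
    (hz : z ∈ (OdS V).filter (fun z => 2 ≤ z.1.length ∧ Even (spl om z.1))) :
    Od z.2 (pre om z.1 ++ suf om z.1) ∧ pre om z.1 ++ suf om z.1 = z.1 ∧
      Even (pre om z.1).length ∧ pre om z.1 ≠ [] ∧ suf om z.1 ≠ [] ∧
      om (lt (pre om z.1)) (hd (suf om z.1)) = str om (pre om z.1 ++ suf om z.1) := by
  rw [mem_filter, mem_OdS] at hz
  obtain ⟨s1, s2, s3, s4, s5, -, -⟩ := pre_suf hw hz.2.1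
  refine ⟨s1.symm ▸ hz.1, s1, ?_, s2, s3, s1.symm ▸ s5⟩
  rw [s4]
  exact hz.2.2

/-- recovering the odd path from the labels -/
theorem tauL_inj {p p' : PM V × PM V} {Q R Q' R' : List V} (h : Od p (Q ++ R))
    (hQ : Even Q.length) (hQn : Q ≠ []) (hRn : R ≠ []) (h' : Od p' (Q' ++ R'))
    (hQ' : Even Q'.length) (hQn' : Q' ≠ []) (hRn' : R' ≠ [])
    (e1 : p.1.f (hd Q) = p'.1.f (hd Q')) (e2 : p.2.f (lt R) = p'.2.f (lt R'))
    (e3 : lt Q = lt Q') (e4 : tauL R p = tauL R' p') : p = p' ∧ Q ++ R = Q' ++ R' := by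
  have z1 := (split_even h hQ hQn hRn).2.1
  have z2 := (split_even h' hQ' hQn' hRn').2.1
  unfold tauL at e4
  rw [z1, z2, e2, e3] at e4
  have e5 : p = p' := tau_inj _ _ e4
  subst e5
  refine ⟨rfl, h.unique h' ?_ ?_⟩
  · rw [hd_append hQn, hd_append hQn']
    exact p.1.inj e1
  · rw [lt_append Q hRn, lt_append Q' hRn']
    exact p.2.inj e2

theorem step_even_one (h : Hyp om κ) (f : PM V → ℝ) :
    ∑ z ∈ (OdS V).filter (fun z => 2 ≤ z.1.length ∧ Even (spl om z.1)),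
      κ ^ 6 * wb om z.2 z.1 *
        (f (midE (pre om z.1) (suf om z.1) z.2).1 - f (tauL z.1 z.2).1 -
          dd om f (pre om z.1)) ^ 2 ≤ (Fintype.card V : ℝ) ^ 2 * SV om f := by
  have hw := h.wt
  have key := sum_le_of_inj
    ((OdS V).filter (fun z => 2 ≤ z.1.length ∧ Even (spl om z.1)))
    ((univ : Finset (V × V)) ×ˢ CyS V)
    (fun z => ((z.2.1.f (hd (pre om z.1)), z.2.2.f (lt (suf om z.1))),
      (pre om z.1, sig (hd (pre om z.1)) (midE (pre om z.1) (suf om z.1) z.2))))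
    (fun z => κ ^ 6 * wb om z.2 z.1 *
        (f (midE (pre om z.1) (suf om z.1) z.2).1 - f (tauL z.1 z.2).1 -
          dd om f (pre om z.1)) ^ 2)
    (fun y => mu2 om y.2.2 * (f (sig (hd y.2.1) y.2.2).1 - f y.2.2.1 - dd om f y.2.1) ^ 2)
    (fun z hz => by
      obtain ⟨c1, -, c3, c4, c5, -⟩ := even_cut hw hz
      rw [mem_product, mem_CyS]
      exact ⟨mem_univ _, (midE_cy c1 c3 c4 c5).1⟩)
    (fun z hz z' hz' e => by
      obtain ⟨c1, c2, c3, c4, c5, -⟩ := even_cut hw hz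
      obtain ⟨d1, d2, d3, d4, d5, -⟩ := even_cut hw hz'
      simp only [Prod.mk.injEq] at e
      obtain ⟨⟨e1, e2⟩, e3, e4⟩ := e
      have e5 : hd (pre om z.1) = hd (pre om z'.1) := by rw [e3]
      have e6 : lt (pre om z.1) = lt (pre om z'.1) := by rw [e3]
      rw [e5] at e4
      have e7 := sig_inj _ e4
      unfold midE at e7
      rw [e1, e6] at e7
      have := tauL_inj c1 c3 c4 c5 d1 d3 d4 d5 e1 e2 e6 (sw1_inj _ _ e7)
      exact Prod.ext (by rw [← c2, ← d2]; exact this.2) this.1)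
    (fun y _ => mul_nonneg (mu2_pos hw _).le (sq_nonneg _))
    (fun z hz => by
      obtain ⟨c1, c2, c3, c4, c5, c6⟩ := even_cut hw hz
      have w1 := (midE_weights h c1 c3 c4 c5 c6).1
      have w2 := (midE_cy c1 c3 c4 c5).2.1
      rw [c2] at w1 w2
      dsimp only
      rw [sig_sig, mu2_sig, w2]
      exact mul_le_mul_of_nonneg_right w1 (sq_nonneg _))
  refine key.trans (le_of_eq ?_)
  rw [sum_product]
  simp only [sum_const, card_univ, Fintype.card_prod, nsmul_eq_mul, Nat.cast_mul]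
  rw [sq]
  rfl

theorem step_even_two (h : Hyp om κ) (f : PM V → ℝ) :
    ∑ z ∈ (OdS V).filter (fun z => 2 ≤ z.1.length ∧ Even (spl om z.1)),
      κ ^ 6 * wb om z.2 z.1 *
        (f (midE (pre om z.1) (suf om z.1) z.2).1 - f (tauL (suf om z.1) z.2).1) ^ 2 ≤
        (Fintype.card V : ℝ) * Dsw om f := by
  have hw := h.wt
  have key := sum_le_of_inj
    ((OdS V).filter (fun z => 2 ≤ z.1.length ∧ Even (spl om z.1)))
    (univ : Finset (V × (V × V × PM V) × PM V))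
    (fun z => (z.2.2.f (lt (suf om z.1)),
      (z.2.1.f (hd (pre om z.1)), lt (pre om z.1), (tauL (suf om z.1) z.2).1),
      (tauL (suf om z.1) z.2).2))
    (fun z => κ ^ 6 * wb om z.2 z.1 *
        (f (midE (pre om z.1) (suf om z.1) z.2).1 - f (tauL (suf om z.1) z.2).1) ^ 2)
    (fun y => min (mu om y.2.1.2.2) (mu om (y.2.1.2.2.sw y.2.1.1 y.2.1.2.1)) *
      (f (y.2.1.2.2.sw y.2.1.1 y.2.1.2.1) - f y.2.1.2.2) ^ 2 * mu om y.2.2)
    (fun z _ => mem_univ _)
    (fun z hz z' hz' e => by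
      obtain ⟨c1, c2, c3, c4, c5, -⟩ := even_cut hw hz
      obtain ⟨d1, d2, d3, d4, d5, -⟩ := even_cut hw hz'
      simp only [Prod.mk.injEq] at e
      obtain ⟨e2, ⟨e1, e3, e4⟩, e5⟩ := e
      have := tauL_inj c1 c3 c4 c5 d1 d3 d4 d5 e1 e2 e3 (Prod.ext e4 e5)
      exact Prod.ext (by rw [← c2, ← d2]; exact this.2) this.1)
    (fun y _ => mul_nonneg (mul_nonneg (le_min (mu_pos hw _).le (mu_pos hw _).le) (sq_nonneg _))
      (mu_pos hw _).le)
    (fun z hz => by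
      obtain ⟨c1, c2, c3, c4, c5, c6⟩ := even_cut hw hz
      obtain ⟨w1, w2⟩ := midE_weights h c1 c3 c4 c5 c6
      rw [c2] at w1 w2
      dsimp only
      rw [mul_right_comm (min _ _)]
      refine mul_le_mul_of_nonneg_right ?_ (sq_nonneg _)
      rw [min_mul_of_nonneg _ _ (mu_pos hw _).le]
      exact le_min w2 w1)
  refine key.trans ?_
  rw [Fintype.sum_prod_type]
  simp only [sum_const, card_univ, nsmul_eq_mul]
  rw [Fintype.sum_prod_type]
  simp only [← mul_sum]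
  rw [← sum_mul]
  have e : ∑ y : V × V × PM V, min (mu om y.2.2) (mu om (y.2.2.sw y.1 y.2.1)) *
      (f (y.2.2.sw y.1 y.2.1) - f y.2.2) ^ 2 = Dsw om f := by
    simp only [Fintype.sum_prod_type]
    rfl
  rw [e]
  have d := Dsw_nonneg hw f
  have m := sum_mu_le hw
  calc (Fintype.card V : ℝ) * (Dsw om f * ∑ F, mu om F)
      ≤ (Fintype.card V : ℝ) * (Dsw om f * 1) := by gcongr
    _ = _ := by ring

end O1

open O1 in
theorem step_even (h : Hyp om κ) (f : PM V → ℝ) :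
    ∑ z ∈ (OdS V).filter (fun z => 2 ≤ z.1.length ∧ Even (spl om z.1)),
      wb om z.2 z.1 * (ee om f z.2 z.1 - ee om f z.2 (nxt om z.1)) ^ 2 ≤
        XX V κ ^ 7 * (SV om f + Dsw om f) := by
  have hw := h.wt
  have hk := h.pos
  have hk1 := h.le
  have h1 := step_even_one h f
  have h2 := step_even_two h f
  have hv : (2 : ℝ) ≤ Fintype.card V := by exact_mod_cast h.two
  have hS := SV_nonneg hw f
  have hD := Dsw_nonneg hw f
  have h3 : κ ^ 6 * ∑ z ∈ (OdS V).filter (fun z => 2 ≤ z.1.length ∧ Even (spl om z.1)),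
      wb om z.2 z.1 * (ee om f z.2 z.1 - ee om f z.2 (nxt om z.1)) ^ 2 ≤
      2 * ((Fintype.card V : ℝ) ^ 2 * SV om f) + 2 * ((Fintype.card V : ℝ) * Dsw om f) := by
    have z2 : (0 : ℝ) ≤ 2 := by norm_num
    refine le_trans ?_ (add_le_add (mul_le_mul_of_nonneg_left h1 z2)
      (mul_le_mul_of_nonneg_left h2 z2))
    rw [mul_sum, mul_sum, mul_sum, ← sum_add_distrib]
    refine sum_le_sum fun z hz => ?_
    have hz' := (mem_filter.1 hz).2
    have e1 : nxt om z.1 = suf om z.1 := by rw [nxt, if_pos hz'.2]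
    have e3 := oo_long om f hz'.1
    rw [if_pos hz'.2, e1] at e3
    have e4 : 0 ≤ κ ^ 6 * wb om z.2 z.1 := mul_nonneg (by positivity) (wb_nonneg hw _ _)
    rw [e1, ee, ee, e3, ← mul_assoc]
    generalize κ ^ 6 * wb om z.2 z.1 = w at *
    generalize f (tauL z.1 z.2).1 = a
    generalize f (tauL (suf om z.1) z.2).1 = b
    generalize f (midE (pre om z.1) (suf om z.1) z.2).1 = c
    generalize dd om f (pre om z.1) = d
    generalize oo om f (suf om z.1) = o
    generalize f z.2.1 = m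
    have e5 : (a - m - (o + -d) - (b - m - o)) ^ 2 ≤ 2 * (c - a - d) ^ 2 + 2 * (c - b) ^ 2 := by
      nlinarith [sq_nonneg ((c - a - d) + (c - b))]
    nlinarith [mul_le_mul_of_nonneg_left e5 e4]
  have h4 : 2 * (Fintype.card V : ℝ) ^ 2 ≤ κ ^ 6 * XX V κ ^ 7 := by
    have e : κ ^ 6 * XX V κ ^ 7 = (Fintype.card V : ℝ) ^ 6 * XX V κ := by
      unfold XX; field_simp
    have c1 := (one_le_XX h).2.2
    rw [e, mul_comm]
    exact mul_le_mul (pow_le_pow_right₀ (by linarith) (by norm_num)) c1 (by norm_num)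
      (by positivity)
  have h5 : (Fintype.card V : ℝ) ≤ (Fintype.card V : ℝ) ^ 2 :=
    le_self_pow₀ (by linarith) (by norm_num)
  refine le_of_mul_le_mul_left (h3.trans ?_) (pow_pos hk 6)
  calc 2 * ((Fintype.card V : ℝ) ^ 2 * SV om f) + 2 * ((Fintype.card V : ℝ) * Dsw om f)
      ≤ 2 * ((Fintype.card V : ℝ) ^ 2 * SV om f) + 2 * ((Fintype.card V : ℝ) ^ 2 * Dsw om f) := by
        gcongr
    _ = 2 * (Fintype.card V : ℝ) ^ 2 * (SV om f + Dsw om f) := by ring
    _ ≤ κ ^ 6 * XX V κ ^ 7 * (SV om f + Dsw om f) := by gcongr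
    _ = _ := by ring

end Vale.Agent.P308
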