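import Vale.Agent.P308.Lists2

/-!
The step estimate along odd paths which are cut as an odd part followed by an even part.
-/

set_option linter.unusedSectionVars false

namespace Vale.Agent.P308

open Finset

variable {V : Type} [Fintype V] [DecidableEq V] [Inhabited V] {om : V → V → ℝ} {κ : ℝ}

namespace O2

theorem split_odd {p : PM V × PM V} {R Q : List V} (h : Od p (R ++ Q)) (hR : Odd R.length)
    (hQ : Q ≠ []) :
    Od p R ∧ Even Q.length ∧ p.2.f (lt R) = hd Q ∧ Prs p.2 Q.tail ∧ Prs p.1 Q := by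
  have h1 := (prs_append_odd p.2 hR hQ).1 h.b
  have h2 := (prs_tail_append_odd p.1 hR Q).1 h.a
  have h3 : Even Q.length := by
    have := h.od
    rw [List.length_append] at this
    exact (Nat.odd_add.1 this).1 hR
  exact ⟨⟨(List.nodup_append.1 h.nd).1, hR, h2.1, h1.1⟩, h3, h1.2.1, h1.2.2, h2.2⟩

/-- the intermediate pair -/
noncomputable def midO (R Q : List V) (p : PM V × PM V) : PM V × PM V :=
  sw2 (hd Q) (p.2.f (lt Q)) (tauL R p)

section core

variable {p : PM V × PM V} {R Q : List V}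

theorem midO_cy (h : Od p (R ++ Q)) (hR : Odd R.length) (hQ : Q ≠ []) :
    Cy (midO R Q p) Q ∧ (tauL R p).2.f (p.2.f (lt Q)) = lt Q ∧
      (tauL R p).2.f (hd Q) = hd R := by
  obtain ⟨hO, hev, hzb, hFQ, hMQ⟩ := split_odd h hR hQ
  have hRne := ne_nil_of_odd hR
  obtain ⟨t1, t2, t3, t4, t5, t6⟩ := hO.tau_spec
  have hnd := List.nodup_append.1 h.nd
  have hdis : ∀ x ∈ Q, x ∉ R := fun x hx hx' => hnd.2.2 x hx' x hx rfl
  have hal : p.1.f (hd R) ∉ R ++ Q := by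
    have := h.left_notMem
    rwa [hd_append hRne] at this
  have hbe : p.2.f (lt Q) ∉ R ++ Q := by
    have := h.right_notMem
    rwa [lt_append R hQ] at this
  rw [List.mem_append, not_or] at hal hbe
  have hbω : hd Q ≠ lt Q := hd_ne_lt hnd.2.1 (two_le_of_even hev hQ)
  rw [hzb] at t4 t6
  have e1 : (tauL R p).2.f (p.2.f (lt Q)) = lt Q := by
    rw [t4 _ hbe.1 (fun e => hbe.2 (e ▸ hd_mem hQ)), p.2.inv]
  have e2 : (tauL R p).2.f (hd Q) = hd R := (tauL R p).2.eq_comm.1 t6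
  have hne : (tauL R p).2.f (hd Q) ≠ p.2.f (lt Q) := by
    rw [e2]
    exact fun e => hbe.1 (e ▸ hd_mem hRne)
  refine ⟨⟨hnd.2.1, hQ, hev, ?_, ?_, ?_⟩, e1, e2⟩
  · refine prs_congr (fun x hx => ?_) hMQ
    exact t1 x (hdis x hx) fun e => hal.2 (e ▸ hx)
  · refine prs_congr_tail hnd.2.1 hev (fun x hx h1 h2 => ?_) hFQ
    change ((tauL R p).2.sw (hd Q) (p.2.f (lt Q))).f x = _
    have h3 : x ≠ p.2.f (lt Q) := fun e => hbe.2 (e ▸ hx)
    rw [PM.sw_of_ne _ h1 h3 (by rw [e2]; exact fun e => hdis x hx (e ▸ hd_mem hRne))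
      (by rw [e1]; exact h2)]
    exact t4 x (hdis x hx) h1
  · change ((tauL R p).2.sw (hd Q) (p.2.f (lt Q))).f (lt Q) = _
    have := (tauL R p).2.sw_partner' hne
    rwa [e1] at this

theorem midO_sig (h : Od p (R ++ Q)) (hR : Odd R.length) (hQ : Q ≠ []) :
    (sig (hd Q) (midO R Q p)).1.f (lt R) = p.1.f (hd R) ∧
      (sig (hd Q) (midO R Q p)).1.f (lt Q) = hd Q ∧
      (tauL (R ++ Q) p).1 = (sig (hd Q) (midO R Q p)).1.sw (lt R) (lt Q) := by
  obtain ⟨hO, hev, hzb, hFQ, hMQ⟩ := split_odd h hR hQ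
  obtain ⟨hC, e1, e2⟩ := midO_cy h hR hQ
  have hRne := ne_nil_of_odd hR
  obtain ⟨t1, t2, t3, -, -, -⟩ := hO.tau_spec
  obtain ⟨u1, u2, u3, -, -, -⟩ := h.tau_spec
  have hnd := List.nodup_append.1 h.nd
  have hdis : ∀ x ∈ Q, x ∉ R := fun x hx hx' => hnd.2.2 x hx' x hx rfl
  have hal : p.1.f (hd R) ∉ R ++ Q := by
    have := h.left_notMem
    rwa [hd_append hRne] at this
  rw [hd_append hRne] at u1 u3
  rw [lt_append R hQ] at u3
  have hal' := hal
  rw [List.mem_append, not_or] at hal'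
  have hbω : hd Q ≠ lt Q := hd_ne_lt hnd.2.1 (two_le_of_even hev hQ)
  set T := (sig (hd Q) (midO R Q p)).1 with hT
  have hout : ∀ x, x ∉ Q → T.f x = (tauL R p).1.f x := fun x hx =>
    (hC.sig_out (hd_mem hQ) hx).1
  have hin : ∀ x, x ∈ Q → T.f x = (midO R Q p).2.f x := fun x hx =>
    (hC.sig_in (hd_mem hQ) hx).1
  have hzQ : lt R ∉ Q := fun e => hdis _ e (lt_mem hRne)
  have f1 : T.f (lt R) = p.1.f (hd R) := by rw [hout _ hzQ, t3]
  have f2 : T.f (lt Q) = hd Q := by rw [hin _ (lt_mem hQ), hC.c]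
  have hne : T.f (lt R) ≠ lt Q := by
    rw [f1]; exact fun e => hal'.2 (e ▸ lt_mem hQ)
  refine ⟨f1, f2, ?_⟩
  have g1 : (T.sw (lt R) (lt Q)).f (lt Q) = p.1.f (hd R) := by rw [T.sw_right hne, f1]
  have g2 : (T.sw (lt R) (lt Q)).f (lt R) = hd Q := by rw [T.sw_left hne, f2]
  have gP : Prs (T.sw (lt R) (lt Q)) (R ++ Q) := by
    refine (prs_append_odd _ hR hQ).2 ⟨?_, g2, ?_⟩
    · refine prs_congr_odd hnd.1 hR (fun x hx h1 => ?_) t2
      have hxQ : x ∉ Q := fun e => hdis x e hx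
      rw [T.sw_of_ne h1 (fun e => hxQ (e ▸ lt_mem hQ)) (by rw [f1]; exact fun e => hal'.1 (e ▸ hx))
        (by rw [f2]; exact fun e => hxQ (e ▸ hd_mem hQ)), hout x hxQ]
    · refine prs_congr_tail hnd.2.1 hev (fun x hx h1 h2 => ?_) hC.b
      have h3 : x ≠ lt R := fun e => hzQ (e ▸ hx)
      rw [T.sw_of_ne h3 h2 (by rw [f1]; exact fun e => hal'.2 (e ▸ hx))
        (by rw [f2]; exact h1), hin x hx]
  ext x
  by_cases hx : x ∈ R ++ Q
  · refine prs_agree_odd h.od u2 gP ?_ hx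
    rw [lt_append R hQ, u3, g1]
  · by_cases hx' : x = p.1.f (hd R)
    · rw [hx', (tauL (R ++ Q) p).1.eq_comm.1 u3, (T.sw (lt R) (lt Q)).eq_comm.1 g1]
    · have hx2 := hx
      rw [List.mem_append, not_or] at hx2
      have h3 : x ≠ lt R := fun e => hx2.1 (e ▸ lt_mem hRne)
      have h4 : x ≠ lt Q := fun e => hx2.2 (e ▸ lt_mem hQ)
      rw [u1 x hx hx', T.sw_of_ne h3 h4 (by rw [f1]; exact hx')
        (by rw [f2]; exact fun e => hx2.2 (e ▸ hd_mem hQ)), hout x hx2.2, t1 x hx2.1 hx']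

theorem midO_weights (hy : Hyp om κ) (h : Od p (R ++ Q)) (hR : Odd R.length) (hQ : Q ≠ [])
    (hs : om (lt R) (hd Q) = str om (R ++ Q)) :
    κ ^ 6 * wb om p (R ++ Q) ≤ mu2 om (midO R Q p) ∧
      κ ^ 6 * wb om p (R ++ Q) ≤
        mu om (tauL (R ++ Q) p).1 * mu om (sig (hd Q) (midO R Q p)).2 := by
  obtain ⟨hO, hev, hzb, hFQ, hMQ⟩ := split_odd h hR hQ
  obtain ⟨hC, e1, e2⟩ := midO_cy h hR hQ
  obtain ⟨f1, f2, f3⟩ := midO_sig h hR hQ
  have hw := hy.wt
  have hRne := ne_nil_of_odd hR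
  have hnd := List.nodup_append.1 h.nd
  have hdis : ∀ x ∈ Q, x ∉ R := fun x hx hx' => hnd.2.2 x hx' x hx rfl
  have hal : p.1.f (hd R) ∉ R ++ Q := by
    have := h.left_notMem
    rwa [hd_append hRne] at this
  have hbe : p.2.f (lt Q) ∉ R ++ Q := by
    have := h.right_notMem
    rwa [lt_append R hQ] at this
  have hal' := hal
  have hbe' := hbe
  rw [List.mem_append, not_or] at hal' hbe'
  have hbω : hd Q ≠ lt Q := hd_ne_lt hnd.2.1 (two_le_of_even hev hQ)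
  have hzQ : lt R ∉ Q := fun e => hdis _ e (lt_mem hRne)
  -- the weight identities
  have w1 := hO.mu2_tau hw
  rw [hzb] at w1
  have w2 := mu_sw hw (tauL R p).2 (b := hd Q) (c := p.2.f (lt Q))
    (fun e => hbe'.2 (e ▸ hd_mem hQ)) (by rw [e2]; exact fun e => hbe'.1 (e ▸ hd_mem hRne))
  rw [e1, e2] at w2
  have w3 := mu_sw hw (sig (hd Q) (midO R Q p)).1 (b := lt R) (c := lt Q)
    (fun e => hzQ (e ▸ lt_mem hQ)) (by rw [f1]; exact fun e => hal'.2 (e ▸ lt_mem hQ))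
  rw [f1, f2, ← f3] at w3
  have w4 : mu om (sig (hd Q) (midO R Q p)).1 * mu om (sig (hd Q) (midO R Q p)).2 =
      mu2 om (midO R Q p) := mu2_sig _ _
  have w5 : mu2 om (midO R Q p) =
      mu om (tauL R p).1 * mu om ((tauL R p).2.sw (hd Q) (p.2.f (lt Q))) := rfl
  have w6 : mu2 om (tauL R p) = mu om (tauL R p).1 * mu om (tauL R p).2 := rfl
  -- the path property
  have nA : (p.1.f (hd R) :: (R ++ Q)).Nodup := List.nodup_cons.2 ⟨hal, h.nd⟩
  have nB : (R ++ Q ++ [p.2.f (lt Q)]).Nodup := by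
    refine List.nodup_append.2 ⟨h.nd, List.nodup_singleton _, ?_⟩
    intro x hx y hy e
    rw [List.mem_singleton] at hy
    exact hbe (hy ▸ e ▸ hx)
  have p1 := hy.path _ nA (p.1.f (hd R)) (by simp) (lt R) (by simp [lt_mem hRne])
    (fun e => hal'.1 (e ▸ lt_mem hRne))
  have p2 := hy.path _ nB (hd R) (by simp [hd_mem hRne]) (p.2.f (lt Q)) (by simp)
    (fun e => hbe'.1 (e ▸ hd_mem hRne))
  have p3 := hy.path _ h.nd (lt Q) (by simp [lt_mem hQ]) (hd Q) (by simp [hd_mem hQ]) hbω.symm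
  have p4 := hy.path _ nA (p.1.f (hd R)) (by simp) (lt Q) (by simp [lt_mem hQ])
    (fun e => hal'.2 (e ▸ lt_mem hQ))
  rw [← hs] at p3
  have hwb : wb om p (R ++ Q) = mu2 om p *
      (str om (p.1.f (hd R) :: (R ++ Q)) / om (p.1.f (hd R)) (hd R)) ^ 2 *
      (str om (R ++ Q ++ [p.2.f (lt Q)]) / om (lt Q) (p.2.f (lt Q))) ^ 2 := by
    rw [wb, hd_append hRne, lt_append R hQ]
  rw [hwb]
  rw [hw.symm (hd Q) (lt R), hw.symm (hd Q) (lt Q)] at w3
  have q1 := str_pos hw (p.1.f (hd R) :: (R ++ Q))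
  have q2 := str_pos hw (R ++ Q ++ [p.2.f (lt Q)])
  have q3 := mu2_pos hw p
  have hk := hy.pos
  have hk1 := hy.le
  generalize str om (p.1.f (hd R) :: (R ++ Q)) = sA at *
  generalize str om (R ++ Q ++ [p.2.f (lt Q)]) = sB at *
  have a1 := hw.pos (p.1.f (hd R)) (hd R)
  have a2 := hw.pos (lt R) (hd Q)
  have a3 := hw.pos (p.1.f (hd R)) (lt R)
  have a4 := hw.pos (hd R) (hd Q)
  have a5 := hw.pos (lt Q) (p.2.f (lt Q))
  have a6 := hw.pos (hd R) (p.2.f (lt Q))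
  have a7 := hw.pos (lt Q) (hd Q)
  have a8 := hw.pos (p.1.f (hd R)) (lt Q)
  generalize om (p.1.f (hd R)) (hd R) = x1 at *
  generalize om (lt R) (hd Q) = x2 at *
  generalize om (p.1.f (hd R)) (lt R) = x3 at *
  generalize om (hd R) (hd Q) = x4 at *
  generalize om (lt Q) (p.2.f (lt Q)) = x5 at *
  generalize om (hd R) (p.2.f (lt Q)) = x6 at *
  generalize om (lt Q) (hd Q) = x7 at *
  generalize om (p.1.f (hd R)) (lt Q) = x8 at *
  have v1 : mu2 om (midO R Q p) = mu2 om p * (x3 * x6 * x7 / (x1 * x2 * x5)) ^ 2 := by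
    have b1 : mu2 om (tauL R p) = mu2 om p * (x3 * x4) ^ 2 / (x1 * x2) ^ 2 := by
      rw [eq_div_iff (by positivity), w1]
    have b2 : mu om ((tauL R p).2.sw (hd Q) (p.2.f (lt Q))) =
        mu om (tauL R p).2 * (x6 * x7) ^ 2 / (x4 * x5) ^ 2 := by
      rw [eq_div_iff (by positivity), w2]
    rw [w5, b2, mul_div_assoc, ← mul_assoc, ← w6, b1]
    field_simp
  have v2 : mu om (tauL (R ++ Q) p).1 * mu om (sig (hd Q) (midO R Q p)).2 =
      mu2 om p * (x6 * x8 / (x1 * x5)) ^ 2 := by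
    have b1 : mu om (tauL (R ++ Q) p).1 =
        mu om (sig (hd Q) (midO R Q p)).1 * (x8 * x2) ^ 2 / (x3 * x7) ^ 2 := by
      rw [eq_div_iff (by positivity), w3]
    rw [b1, mul_div_assoc, mul_right_comm, w4, v1]
    field_simp
  rw [v1, v2]
  constructor
  · have c1 : κ * sA * (κ * sB) * (κ * x2) ≤ x3 * x6 * x7 := by gcongr
    have c2 : κ ^ 6 * (mu2 om p * (sA / x1) ^ 2 * (sB / x5) ^ 2) =
        mu2 om p * (κ * sA * (κ * sB) * (κ * x2) / (x1 * x2 * x5)) ^ 2 := by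
      field_simp
    rw [c2]
    gcongr
  · have c0 : κ * (κ * sA) ≤ x8 := by
      calc κ * (κ * sA) ≤ 1 * (κ * sA) := by gcongr
        _ ≤ x8 := by linarith
    have c1 : κ * sB * (κ * (κ * sA)) ≤ x6 * x8 := by gcongr
    have c2 : κ ^ 6 * (mu2 om p * (sA / x1) ^ 2 * (sB / x5) ^ 2) =
        mu2 om p * (κ * sB * (κ * (κ * sA)) / (x1 * x5)) ^ 2 := by
      field_simp
    rw [c2]
    gcongr

end core

theorem odd_cut (hw : Wt om) {z : List V × (PM V × PM V)}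
    (hz : z ∈ (OdS V).filter (fun z => 2 ≤ z.1.length ∧ ¬ Even (spl om z.1))) :
    Od z.2 (pre om z.1 ++ suf om z.1) ∧ pre om z.1 ++ suf om z.1 = z.1 ∧
      Odd (pre om z.1).length ∧ suf om z.1 ≠ [] ∧
      om (lt (pre om z.1)) (hd (suf om z.1)) = str om (pre om z.1 ++ suf om z.1) := by
  rw [mem_filter, mem_OdS] at hz
  obtain ⟨s1, -, s3, s4, s5, -, -⟩ := pre_suf hw hz.2.1
  refine ⟨s1.symm ▸ hz.1, s1, ?_, s3, s1.symm ▸ s5⟩
  rw [s4]
  exact Nat.not_even_iff_odd.1 hz.2.2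

/-- recovering the odd path from the labels -/
theorem midO_inj {p p' : PM V × PM V} {R Q R' Q' : List V} (h : Od p (R ++ Q))
    (hR : Odd R.length) (hQ : Q ≠ []) (h' : Od p' (R' ++ Q')) (hR' : Odd R'.length)
    (hQ' : Q' ≠ []) (e1 : p.1.f (hd R) = p'.1.f (hd R')) (e2 : p.2.f (lt Q) = p'.2.f (lt Q'))
    (e3 : hd Q = hd Q') (e4 : midO R Q p = midO R' Q' p') : p = p' ∧ R ++ Q = R' ++ Q' := by
  have z1 := (split_odd h hR hQ).2.2.1
  have z2 := (split_odd h' hR' hQ').2.2.1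
  unfold midO tauL at e4
  rw [z1, z2, e1, e2, e3] at e4
  have e5 : p = p' := tau_inj _ _ (sw2_inj _ _ e4)
  subst e5
  refine ⟨rfl, h.unique h' ?_ ?_⟩
  · rw [hd_append (ne_nil_of_odd hR), hd_append (ne_nil_of_odd hR')]
    exact p.1.inj e1
  · rw [lt_append R hQ, lt_append R' hQ']
    exact p.2.inj e2

theorem step_odd_one (h : Hyp om κ) (f : PM V → ℝ) :
    ∑ z ∈ (OdS V).filter (fun z => 2 ≤ z.1.length ∧ ¬ Even (spl om z.1)),
      κ ^ 6 * wb om z.2 z.1 *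
        (f (sig (hd (suf om z.1)) (midO (pre om z.1) (suf om z.1) z.2)).1 -
          f (midO (pre om z.1) (suf om z.1) z.2).1 - dd om f (suf om z.1)) ^ 2 ≤
        (Fintype.card V : ℝ) ^ 2 * SV om f := by
  have hw := h.wt
  have key := sum_le_of_inj
    ((OdS V).filter (fun z => 2 ≤ z.1.length ∧ ¬ Even (spl om z.1)))
    ((univ : Finset (V × V)) ×ˢ CyS V)
    (fun z => ((z.2.1.f (hd (pre om z.1)), z.2.2.f (lt (suf om z.1))),
      (suf om z.1, midO (pre om z.1) (suf om z.1) z.2)))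
    (fun z => κ ^ 6 * wb om z.2 z.1 *
        (f (sig (hd (suf om z.1)) (midO (pre om z.1) (suf om z.1) z.2)).1 -
          f (midO (pre om z.1) (suf om z.1) z.2).1 - dd om f (suf om z.1)) ^ 2)
    (fun y => mu2 om y.2.2 * (f (sig (hd y.2.1) y.2.2).1 - f y.2.2.1 - dd om f y.2.1) ^ 2)
    (fun z hz => by
      obtain ⟨c1, -, c3, c4, -⟩ := odd_cut hw hz
      rw [mem_product, mem_CyS]
      exact ⟨mem_univ _, (midO_cy c1 c3 c4).1⟩)
    (fun z hz z' hz' e => by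
      obtain ⟨c1, c2, c3, c4, -⟩ := odd_cut hw hz
      obtain ⟨d1, d2, d3, d4, -⟩ := odd_cut hw hz'
      simp only [Prod.mk.injEq] at e
      obtain ⟨⟨e1, e2⟩, e3, e4⟩ := e
      have := midO_inj c1 c3 c4 d1 d3 d4 e1 e2 (by rw [e3]) e4
      exact Prod.ext (by rw [← c2, ← d2]; exact this.2) this.1)
    (fun y _ => mul_nonneg (mu2_pos hw _).le (sq_nonneg _))
    (fun z hz => by
      obtain ⟨c1, c2, c3, c4, c5⟩ := odd_cut hw hz
      have := (midO_weights h c1 c3 c4 c5).1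
      rw [c2] at this
      exact mul_le_mul_of_nonneg_right this (sq_nonneg _))
  refine key.trans (le_of_eq ?_)
  rw [sum_product]
  simp only [sum_const, card_univ, Fintype.card_prod, nsmul_eq_mul, Nat.cast_mul]
  rw [sq]
  rfl

theorem step_odd_two (h : Hyp om κ) (f : PM V → ℝ) :
    ∑ z ∈ (OdS V).filter (fun z => 2 ≤ z.1.length ∧ ¬ Even (spl om z.1)),
      κ ^ 6 * wb om z.2 z.1 *
        (f (tauL z.1 z.2).1 -
          f (sig (hd (suf om z.1)) (midO (pre om z.1) (suf om z.1) z.2)).1) ^ 2 ≤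
        (Fintype.card V : ℝ) ^ 3 * Dsw om f := by
  have hw := h.wt
  have key := sum_le_of_inj
    ((OdS V).filter (fun z => 2 ≤ z.1.length ∧ ¬ Even (spl om z.1)))
    (univ : Finset ((V × V × V) × (V × V × PM V) × PM V))
    (fun z => ((z.2.1.f (hd (pre om z.1)), z.2.2.f (lt (suf om z.1)), hd (suf om z.1)),
      (lt (pre om z.1), lt (suf om z.1),
        (sig (hd (suf om z.1)) (midO (pre om z.1) (suf om z.1) z.2)).1),
      (sig (hd (suf om z.1)) (midO (pre om z.1) (suf om z.1) z.2)).2))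
    (fun z => κ ^ 6 * wb om z.2 z.1 *
        (f (tauL z.1 z.2).1 -
          f (sig (hd (suf om z.1)) (midO (pre om z.1) (suf om z.1) z.2)).1) ^ 2)
    (fun y => min (mu om y.2.1.2.2) (mu om (y.2.1.2.2.sw y.2.1.1 y.2.1.2.1)) *
      (f (y.2.1.2.2.sw y.2.1.1 y.2.1.2.1) - f y.2.1.2.2) ^ 2 * mu om y.2.2)
    (fun z _ => mem_univ _)
    (fun z hz z' hz' e => by
      obtain ⟨c1, c2, c3, c4, -⟩ := odd_cut hw hz
      obtain ⟨d1, d2, d3, d4, -⟩ := odd_cut hw hz'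
      simp only [Prod.mk.injEq] at e
      obtain ⟨⟨e1, e2, e3⟩, ⟨-, -, e4⟩, e5⟩ := e
      have e6 := Prod.ext e4 e5
      rw [e3] at e6
      have := midO_inj c1 c3 c4 d1 d3 d4 e1 e2 e3 (sig_inj _ e6)
      exact Prod.ext (by rw [← c2, ← d2]; exact this.2) this.1)
    (fun y _ => mul_nonneg (mul_nonneg (le_min (mu_pos hw _).le (mu_pos hw _).le) (sq_nonneg _))
      (mu_pos hw _).le)
    (fun z hz => by
      obtain ⟨c1, c2, c3, c4, c5⟩ := odd_cut hw hz
      obtain ⟨w1, w2⟩ := midO_weights h c1 c3 c4 c5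
      have w3 := (midO_sig c1 c3 c4).2.2
      rw [← mu2_sig (hd (suf om z.1))] at w1
      rw [c2] at w1 w2 w3
      dsimp only
      rw [← w3, mul_right_comm (min _ _)]
      refine mul_le_mul_of_nonneg_right ?_ (sq_nonneg _)
      rw [min_mul_of_nonneg _ _ (mu_pos hw _).le]
      exact le_min w1 w2)
  refine key.trans ?_
  rw [Fintype.sum_prod_type]
  simp only [sum_const, card_univ, Fintype.card_prod, nsmul_eq_mul, Nat.cast_mul]
  rw [Fintype.sum_prod_type]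
  simp only [← mul_sum]
  rw [← sum_mul]
  have e : ∑ y : V × V × PM V, min (mu om y.2.2) (mu om (y.2.2.sw y.1 y.2.1)) *
      (f (y.2.2.sw y.1 y.2.1) - f y.2.2) ^ 2 = Dsw om f := by
    simp only [Fintype.sum_prod_type]
    rfl
  rw [e]
  have d := Dsw_nonneg hw f
  have m := sum_mu_le hw
  calc (Fintype.card V : ℝ) * (Fintype.card V * Fintype.card V) * (Dsw om f * ∑ F, mu om F)
      ≤ (Fintype.card V : ℝ) * (Fintype.card V * Fintype.card V) * (Dsw om f * 1) := by gcongr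
    _ = _ := by ring

theorem card_le_XX (h : Hyp om κ) : (Fintype.card V : ℝ) ≤ XX V κ := by
  unfold XX
  rw [le_div_iff₀ h.pos]
  have := h.le
  have h0 : (0 : ℝ) ≤ Fintype.card V := Nat.cast_nonneg _
  nlinarith

theorem two_le_card_real (h : Hyp om κ) : (2 : ℝ) ≤ Fintype.card V := by
  exact_mod_cast h.two

end O2

open O2 in
theorem step_odd (h : Hyp om κ) (f : PM V → ℝ) :
    ∑ z ∈ (OdS V).filter (fun z => 2 ≤ z.1.length ∧ ¬ Even (spl om z.1)),
      wb om z.2 z.1 * (ee om f z.2 z.1 - ee om f z.2 (nxt om z.1)) ^ 2 ≤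
        XX V κ ^ 7 * (SV om f + Dsw om f) := by
  have hw := h.wt
  have hk := h.pos
  have hk1 := h.le
  have h1 := step_odd_one h f
  have h2 := step_odd_two h f
  have hv := two_le_card_real h
  have hS := SV_nonneg hw f
  have hD := Dsw_nonneg hw f
  have h3 : κ ^ 6 * ∑ z ∈ (OdS V).filter (fun z => 2 ≤ z.1.length ∧ ¬ Even (spl om z.1)),
      wb om z.2 z.1 * (ee om f z.2 z.1 - ee om f z.2 (nxt om z.1)) ^ 2 ≤
      2 * ((Fintype.card V : ℝ) ^ 2 * SV om f) + 2 * ((Fintype.card V : ℝ) ^ 3 * Dsw om f) := by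
    have z2 : (0 : ℝ) ≤ 2 := by norm_num
    refine le_trans ?_ (add_le_add (mul_le_mul_of_nonneg_left h1 z2)
      (mul_le_mul_of_nonneg_left h2 z2))
    rw [mul_sum, mul_sum, mul_sum, ← sum_add_distrib]
    refine sum_le_sum fun z hz => ?_
    have hz' := (mem_filter.1 hz).2
    have e1 : nxt om z.1 = pre om z.1 := by rw [nxt, if_neg hz'.2]
    have e2 : (midO (pre om z.1) (suf om z.1) z.2).1 = (tauL (pre om z.1) z.2).1 := rfl
    have e3 := oo_long om f hz'.1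
    rw [if_neg hz'.2, e1] at e3
    have e4 : 0 ≤ κ ^ 6 * wb om z.2 z.1 := mul_nonneg (by positivity) (wb_nonneg hw _ _)
    rw [e1, e2, ee, ee, e3, ← mul_assoc]
    generalize κ ^ 6 * wb om z.2 z.1 = w at *
    generalize f (tauL z.1 z.2).1 = a
    generalize f (tauL (pre om z.1) z.2).1 = b
    generalize f (sig (hd (suf om z.1)) (midO (pre om z.1) (suf om z.1) z.2)).1 = c
    generalize dd om f (suf om z.1) = d
    generalize oo om f (pre om z.1) = o
    generalize f z.2.1 = m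
    have e5 : (a - m - (o + d) - (b - m - o)) ^ 2 ≤ 2 * (c - b - d) ^ 2 + 2 * (a - c) ^ 2 := by
      nlinarith [sq_nonneg ((c - b - d) - (a - c))]
    nlinarith [mul_le_mul_of_nonneg_left e5 e4]
  have h4 : 2 * (Fintype.card V : ℝ) ^ 3 ≤ κ ^ 6 * XX V κ ^ 7 := by
    have e : κ ^ 6 * XX V κ ^ 7 = (Fintype.card V : ℝ) ^ 6 * XX V κ := by
      unfold XX; field_simp
    have c1 := card_le_XX h
    rw [e]
    calc 2 * (Fintype.card V : ℝ) ^ 3 = (1 * (Fintype.card V : ℝ) ^ 3) * 2 := by ring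
      _ ≤ ((Fintype.card V : ℝ) ^ 3 * (Fintype.card V : ℝ) ^ 3) * XX V κ := by
        gcongr
        · exact one_le_pow₀ (by linarith)
        · linarith
      _ = _ := by ring
  have h5 : (Fintype.card V : ℝ) ^ 2 ≤ (Fintype.card V : ℝ) ^ 3 :=
    pow_le_pow_right₀ (by linarith) (by norm_num)
  refine le_of_mul_le_mul_left (h3.trans ?_) (pow_pos hk 6)
  calc 2 * ((Fintype.card V : ℝ) ^ 2 * SV om f) + 2 * ((Fintype.card V : ℝ) ^ 3 * Dsw om f)
      ≤ 2 * ((Fintype.card V : ℝ) ^ 3 * SV om f) + 2 * ((Fintype.card V : ℝ) ^ 3 * Dsw om f) := by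
        gcongr
    _ = 2 * (Fintype.card V : ℝ) ^ 3 * (SV om f + Dsw om f) := by ring
    _ ≤ κ ^ 6 * XX V κ ^ 7 * (SV om f + Dsw om f) := by gcongr
    _ = _ := by ring

end Vale.Agent.P308
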