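import Vale.Agent.P308.LinO
import Vale.Agent.P308.LinO1
import Vale.Agent.P308.LinO2
import Vale.Agent.P308.LinA
import Vale.Agent.P308.LinB
import Vale.Agent.P308.LinGap
import Vale.Agent.P308.Kern
import Vale.Agent.P308.FourPt

/-!
The linearised gap theorem and the gap of the two body kernel.
-/

set_option linter.unusedSectionVars false

namespace Vale.Agent.P308

open Finset

variable {V : Type} [Fintype V] [DecidableEq V] [Inhabited V] {om : V → V → ℝ} {κ : ℝ}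

theorem SO_le (h : Hyp om κ) (f : PM V → ℝ) : SO om f ≤ XX V κ ^ 12 * (SV om f + Dsw om f) :=
  SO_le_of h f (step_even h f) (step_odd h f)

theorem lin_gap (h : Hyp om κ) (f : PM V → ℝ) :
    ∑ p : PM V × PM V, mu2 om p * (f p.2 - f p.1) ^ 2 ≤
      XX V κ ^ 40 * (Dsig om (fun p => f p.1 + f p.2) + Dsw om f) :=
  lin_gap_of h f (SO_le h f) (SA_even h f) (SA_odd h f) (top_sig h f)

theorem two_gap (h : Hyp om κ) (a b : PM V → ℝ) (ha : ∑ M, mu om M * a M = 0)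
    (hb : ∑ M, mu om M * b M = 0) :
    ∑ M, mu om M * a M ^ 2 + ∑ M, mu om M * b M ^ 2 ≤
      XX V κ ^ 46 * (Dsig om (fun p => a p.1 + b p.2) + Dsw om a) :=
  two_gap_of h a b ha hb (lin_gap h a)

theorem nonempty_of_sat {θ : ℝ} (hθ : 0 < θ) (h2 : 2 ≤ Fintype.card V) (hs : Sat om θ) :
    Nonempty (PM V) := by
  obtain ⟨a, b, hab⟩ := Fintype.exists_pair_of_one_lt_card (α := V) (by omega)
  by_contra hn
  rw [not_nonempty_iff] at hn
  have := hs a b hab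
  rw [xm, univ_eq_empty, sum_empty] at this
  linarith

theorem good_KK_of_gap
    (two_gap : ∀ {om : V → V → ℝ} {κ : ℝ}, Hyp om κ → ∀ a b : PM V → ℝ,
      ∑ M, mu om M * a M = 0 → ∑ M, mu om M * b M = 0 →
      ∑ M, mu om M * a M ^ 2 + ∑ M, mu om M * b M ^ 2 ≤
        XX V κ ^ 46 * (Dsig om (fun p => a p.1 + b p.2) + Dsw om a))
    (h : Wt om) {θ ρ : ℝ} (hθ : 0 < θ) (h2 : 2 ≤ Fintype.card V) (hs : Sat om θ)
    (hρ1 : ρ * Fintype.card V ≤ 1) (hρ2 : 1 ≤ 2 * ρ * Fintype.card V) :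
    Good (mu om) (KK om ρ) ((θ / (2 * (Fintype.card V : ℝ) ^ 2)) ^ 53) := by
  obtain ⟨M₀⟩ := nonempty_of_sat hθ h2 hs
  obtain ⟨om', e, H⟩ := path_of_sat h hθ h2 hs
  have hv : (2 : ℝ) ≤ Fintype.card V := by exact_mod_cast h2
  have e' : mu om' = mu om := funext e
  have k : θ / (2 * (Fintype.card V : ℝ) ^ 2) = 1 / XX V (θ / (2 * Fintype.card V)) := by
    unfold XX
    field_simp
  rw [k]
  refine good_KK_of h M₀ h2 ?_ hρ1 hρ2 fun a b ha hb => ?_
  · unfold XX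
    rw [le_div_iff₀ H.pos]
    exact mul_le_of_le_one_right (by linarith) H.le
  · have := two_gap H a b (by rw [e']; exact ha) (by rw [e']; exact hb)
    unfold Dsig Dsw mu2 at this ⊢
    rwa [e'] at this

theorem good_KK (h : Wt om) {θ ρ : ℝ} (hθ : 0 < θ) (h2 : 2 ≤ Fintype.card V) (hs : Sat om θ)
    (hρ1 : ρ * Fintype.card V ≤ 1) (hρ2 : 1 ≤ 2 * ρ * Fintype.card V) :
    Good (mu om) (KK om ρ) ((θ / (2 * (Fintype.card V : ℝ) ^ 2)) ^ 53) :=
  good_KK_of_gap (fun h' a b ha hb => two_gap h' a b ha hb) h hθ h2 hs hρ1 hρ2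

end Vale.Agent.P308
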