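import Vale.Agent.P308.Basic
import Mathlib.Data.Fintype.List

/-!
Alternating paths and cycles as lists of vertices: definitions.
-/

namespace Vale.Agent.P308

open Finset

variable {V : Type} [Fintype V] [DecidableEq V] [Inhabited V]

/-- first element -/
def hd : List V → V
  | [] => default
  | a :: _ => a

/-- last element -/
def lt : List V → V
  | [] => default
  | [a] => a
  | _ :: b :: l => lt (b :: l)

/-- `M` pairs the elements number `0` and `1`, `2` and `3`, and so on -/
def Prs (M : PM V) : List V → Prop
  | a :: b :: l => M.f a = b ∧ Prs M l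
  | _ => True

/-- the least weight of two consecutive elements (a large number for short lists) -/
noncomputable def str (om : V → V → ℝ) : List V → ℝ
  | a :: b :: l => min (om a b) (str om (b :: l))
  | _ => ∑ a, ∑ b, om a b

/-- the path property (H) -/
def PathProp (om : V → V → ℝ) (κ : ℝ) : Prop :=
  ∀ l : List V, l.Nodup → ∀ a ∈ l, ∀ b ∈ l, a ≠ b → κ * str om l ≤ om a b

/-- `F` pairs the elements `1` and `2`, `3` and `4`, ..., and the last one with the first one -/
def Bst (F : PM V) (l : List V) : Prop := Prs F l.tail ∧ F.f (lt l) = hd l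

/-- `l` lists an alternating cycle, starting with an edge of the first matching -/
structure Cy (p : PM V × PM V) (l : List V) : Prop where
  nd : l.Nodup
  ne : l ≠ []
  ev : Even l.length
  a : Prs p.1 l
  b : Prs p.2 l.tail
  c : p.2.f (lt l) = hd l

/-- `l` is an alternating path with an odd number of vertices which starts with an edge of the
second matching -/
structure Od (p : PM V × PM V) (l : List V) : Prop where
  nd : l.Nodup
  od : Odd l.length
  a : Prs p.1 l.tail
  b : Prs p.2 l

/-- an even alternating path, first and last edge in the first matching, whose two boundary edges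
are not stronger than its edges -/
structure Dom (om : V → V → ℝ) (p : PM V × PM V) (l : List V) : Prop where
  nd : l.Nodup
  ne : l ≠ []
  ev : Even l.length
  a : Prs p.1 l
  b : Prs p.2 l.tail
  left : om (p.2.f (hd l)) (hd l) ≤ str om l
  right : om (lt l) (p.2.f (lt l)) ≤ str om l

/-- duplicate free lists -/
noncomputable def NL (V : Type) [Fintype V] [DecidableEq V] : Finset (List V) :=
  (univ : Finset {l : List V // l.Nodup}).map (Function.Embedding.subtype _)

omit [Inhabited V] in
@[simp] theorem mem_NL {l : List V} : l ∈ NL V ↔ l.Nodup := by simp [NL]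

open Classical in
/-- all pairs of matchings with a listed cycle -/
noncomputable def CyS (V : Type) [Fintype V] [DecidableEq V] [Inhabited V] :
    Finset (List V × (PM V × PM V)) := (NL V ×ˢ univ).filter fun z => Cy z.2 z.1

open Classical in
/-- all pairs of matchings with an odd path -/
noncomputable def OdS (V : Type) [Fintype V] [DecidableEq V] :
    Finset (List V × (PM V × PM V)) := (NL V ×ˢ univ).filter fun z => Od z.2 z.1

open Classical in
/-- all pairs of matchings with a dominated even path -/
noncomputable def DomS (om : V → V → ℝ) : Finset (List V × (PM V × PM V)) :=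
  (NL V ×ˢ univ).filter fun z => Dom om z.2 z.1

@[simp] theorem mem_CyS {z : List V × (PM V × PM V)} : z ∈ CyS V ↔ Cy z.2 z.1 := by
  simp only [CyS, mem_filter, mem_product, mem_NL, mem_univ, and_true]
  exact ⟨fun h => h.2, fun h => ⟨h.nd, h⟩⟩

omit [Inhabited V] in
@[simp] theorem mem_OdS {z : List V × (PM V × PM V)} : z ∈ OdS V ↔ Od z.2 z.1 := by
  simp only [OdS, mem_filter, mem_product, mem_NL, mem_univ, and_true]
  exact ⟨fun h => h.2, fun h => ⟨h.nd, h⟩⟩

@[simp] theorem mem_DomS {om : V → V → ℝ} {z : List V × (PM V × PM V)} :
    z ∈ DomS om ↔ Dom om z.2 z.1 := by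
  simp only [DomS, mem_filter, mem_product, mem_NL, mem_univ, and_true]
  exact ⟨fun h => h.2, fun h => ⟨h.nd, h⟩⟩

open Classical in
/-- conditional mean of `f` given `P` -/
noncomputable def cav (om : V → V → ℝ) (P : PM V → Prop) (f : PM V → ℝ) : ℝ :=
  (∑ M : PM V, if P M then mu om M * f M else 0) / ∑ M : PM V, if P M then mu om M else 0

/-- the mean increment of `f` along the cycle `l` -/
noncomputable def dd (om : V → V → ℝ) (f : PM V → ℝ) (l : List V) : ℝ :=
  cav om (fun F => Bst F l) f - cav om (fun M => Prs M l) f

/-- `k` cuts `l` at a weakest pair of consecutive elements -/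
def IsSpl (om : V → V → ℝ) (l : List V) (k : ℕ) : Prop :=
  0 < k ∧ k < l.length ∧ om (lt (l.take k)) (hd (l.drop k)) = str om l

omit [DecidableEq V] in
theorem exists_isSpl (om : V → V → ℝ) (h : Wt om) :
    ∀ l : List V, 2 ≤ l.length → ∃ k, IsSpl om l k
  | [], hl => by simp at hl
  | [_], hl => by simp at hl
  | [a, b], _ => ⟨1, by
      refine ⟨one_pos, by simp, ?_⟩
      simp only [List.take_succ_cons, List.take_zero, List.drop_succ_cons, List.drop_zero, lt, hd,
        str]
      refine (min_eq_left ?_).symm
      exact (single_le_sum (fun y _ => (h.pos a y).le) (mem_univ b)).trans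
        (single_le_sum (f := fun x => ∑ y, om x y)
          (fun x _ => sum_nonneg fun y _ => (h.pos x y).le) (mem_univ a))⟩
  | a :: b :: c :: l, _ => by
    obtain ⟨k, h1, h2, h3⟩ := exists_isSpl om h (b :: c :: l) (by simp)
    rcases le_total (om a b) (str om (b :: c :: l)) with h4 | h4
    · refine ⟨1, one_pos, by simp, ?_⟩
      rw [str, min_eq_left h4]
      rfl
    · refine ⟨k + 1, by omega, by simp only [List.length_cons] at h2 ⊢; omega, ?_⟩
      rw [str, min_eq_right h4, ← h3]
      obtain ⟨k, rfl⟩ : ∃ j, k = j + 1 := ⟨k - 1, by omega⟩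
      rfl

open Classical in
/-- the chosen cut -/
noncomputable def spl (om : V → V → ℝ) (l : List V) : ℕ :=
  if h : ∃ k, IsSpl om l k then h.choose else 1

omit [DecidableEq V] in
theorem spl_spec {om : V → V → ℝ} (h : Wt om) {l : List V} (hl : 2 ≤ l.length) :
    IsSpl om l (spl om l) := by
  have h1 := exists_isSpl om h l hl
  rw [spl, dif_pos h1]
  exact h1.choose_spec

omit [DecidableEq V] in
theorem spl_bounds (om : V → V → ℝ) {l : List V} (hl : 2 ≤ l.length) :
    0 < spl om l ∧ spl om l < l.length := by
  unfold spl
  split_ifs with h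
  · exact ⟨h.choose_spec.1, h.choose_spec.2.1⟩
  · omega

/-- the part before the cut -/
noncomputable def pre (om : V → V → ℝ) (l : List V) : List V := l.take (spl om l)

/-- the part after the cut -/
noncomputable def suf (om : V → V → ℝ) (l : List V) : List V := l.drop (spl om l)

/-- the odd part of an odd list -/
noncomputable def nxt (om : V → V → ℝ) (l : List V) : List V :=
  if Even (spl om l) then suf om l else pre om l

omit [DecidableEq V] in
theorem nxt_length_lt (om : V → V → ℝ) {l : List V} (hl : 2 ≤ l.length) :
    (nxt om l).length < l.length := by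
  have := spl_bounds om hl
  unfold nxt suf pre
  split_ifs
  · rw [List.length_drop]; omega
  · rw [List.length_take]; omega

/-- the predicted increment of `f` along an odd path -/
noncomputable def oo (om : V → V → ℝ) (f : PM V → ℝ) (l : List V) : ℝ :=
  if _h : 2 ≤ l.length then
    oo om f (nxt om l) + if Even (spl om l) then -dd om f (pre om l) else dd om f (suf om l)
  else 0
termination_by l.length
decreasing_by exact nxt_length_lt om _h

theorem oo_short (om : V → V → ℝ) (f : PM V → ℝ) {l : List V} (hl : ¬ 2 ≤ l.length) :
    oo om f l = 0 := by rw [oo, dif_neg hl]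

theorem oo_long (om : V → V → ℝ) (f : PM V → ℝ) {l : List V} (hl : 2 ≤ l.length) :
    oo om f l = oo om f (nxt om l) +
      if Even (spl om l) then -dd om f (pre om l) else dd om f (suf om l) := by
  rw [oo, dif_pos hl]

/-- the defect of additivity at an even list -/
noncomputable def rr (om : V → V → ℝ) (f : PM V → ℝ) (l : List V) : ℝ :=
  if Even (spl om l) then dd om f l - dd om f (pre om l) - dd om f (suf om l)
  else dd om f l - oo om f (pre om l).reverse - oo om f (suf om l)

/-- exchange along the odd path `l` -/
noncomputable def tauL (l : List V) (p : PM V × PM V) : PM V × PM V :=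
  tau (p.1.f (hd l)) (p.2.f (lt l)) p

/-- the error of the prediction along an odd path -/
noncomputable def ee (om : V → V → ℝ) (f : PM V → ℝ) (p : PM V × PM V) (l : List V) : ℝ :=
  f (tauL l p).1 - f p.1 - oo om f l

/-- pretended weight of a pair with an odd path -/
noncomputable def wb (om : V → V → ℝ) (p : PM V × PM V) (l : List V) : ℝ :=
  mu2 om p * (str om (p.1.f (hd l) :: l) / om (p.1.f (hd l)) (hd l)) ^ 2 *
    (str om (l ++ [p.2.f (lt l)]) / om (lt l) (p.2.f (lt l))) ^ 2

/-- pretended weight of a pair with a listed cycle -/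
noncomputable def nb (om : V → V → ℝ) (p : PM V × PM V) (l : List V) : ℝ :=
  mu2 om p * (str om (lt l :: l) / om (lt l) (hd l)) ^ 2

/-- mean square deviation of the increments along cycles from their means -/
noncomputable def SV (om : V → V → ℝ) (f : PM V → ℝ) : ℝ :=
  ∑ z ∈ CyS V, mu2 om z.2 * (f (sig (hd z.1) z.2).1 - f z.2.1 - dd om f z.1) ^ 2

/-- mean square error along odd paths -/
noncomputable def SO (om : V → V → ℝ) (f : PM V → ℝ) : ℝ :=
  ∑ z ∈ OdS V, wb om z.2 z.1 * ee om f z.2 z.1 ^ 2

/-- mean square defect of additivity -/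
noncomputable def SA (om : V → V → ℝ) (f : PM V → ℝ) : ℝ :=
  ∑ z ∈ CyS V, nb om z.2 z.1 * rr om f z.1 ^ 2

/-- the standing assumptions of the linearised gap theorem -/
structure Hyp (om : V → V → ℝ) (κ : ℝ) : Prop where
  wt : Wt om
  pos : 0 < κ
  le : κ ≤ 1
  path : PathProp om κ
  two : 2 ≤ Fintype.card V

/-- the large parameter -/
noncomputable def XX (V : Type) [Fintype V] (κ : ℝ) : ℝ := (Fintype.card V : ℝ) / κ

end Vale.Agent.P308
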