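import Vale.Agent.P308.Lists2

/-!
Telescoping along the chain of odd paths.
-/

set_option linter.unusedSectionVars false

namespace Vale.Agent.P308

open Finset

variable {V : Type} [Fintype V] [DecidableEq V] [Inhabited V] {om : V → V → ℝ} {κ : ℝ}

theorem Od.parity (hw : Wt om) {p : PM V × PM V} {l : List V} (h : Od p l) (h2 : 2 ≤ l.length) :
    (Even (spl om l) → Even (pre om l).length ∧ Odd (suf om l).length) ∧
      (¬ Even (spl om l) → Odd (pre om l).length ∧ Even (suf om l).length) := by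
  obtain ⟨e1, -, -, e4, -⟩ := pre_suf hw h2
  have e5 : (pre om l).length + (suf om l).length = l.length := by rw [← List.length_append, e1]
  have h3 := h.od
  rw [← e5, e4, Nat.odd_add] at h3
  rw [e4]
  refine ⟨fun he => ⟨he, ?_⟩, fun he => ⟨Nat.not_even_iff_odd.1 he, ?_⟩⟩
  · rw [← Nat.not_even_iff_odd, ← h3, Nat.not_odd_iff_even]; exact he
  · exact h3.1 (Nat.not_even_iff_odd.1 he)

/-- the next path of the chain, even cut -/
theorem Od.nxt_even (hw : Wt om) {p : PM V × PM V} {l : List V} (h : Od p l) (h2 : 2 ≤ l.length)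
    (he : Even (spl om l)) : Od p (suf om l) ∧ p.1.f (hd (suf om l)) = lt (pre om l) ∧
      lt (suf om l) = lt l := by
  obtain ⟨e1, e2, e3, -⟩ := pre_suf hw h2
  obtain ⟨p1, p2⟩ := (h.parity hw h2).1 he
  have ha := h.a
  have hb := h.b
  have hn := h.nd
  rw [← e1] at ha hb hn
  rw [prs_tail_append_even _ p1 e2 e3] at ha
  rw [prs_append_even _ p1] at hb
  refine ⟨⟨(List.nodup_append.1 hn).2.1, p2, ha.2.2, hb.2⟩, p.1.eq_comm.1 ha.2.1, ?_⟩
  conv_rhs => rw [← e1, lt_append _ e3]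

/-- the next path of the chain, odd cut -/
theorem Od.nxt_odd (hw : Wt om) {p : PM V × PM V} {l : List V} (h : Od p l) (h2 : 2 ≤ l.length)
    (he : ¬ Even (spl om l)) : Od p (pre om l) ∧ p.2.f (lt (pre om l)) = hd (suf om l) ∧
      hd (pre om l) = hd l := by
  obtain ⟨e1, e2, e3, -⟩ := pre_suf hw h2
  obtain ⟨p1, p2⟩ := (h.parity hw h2).2 he
  have ha := h.a
  have hb := h.b
  have hn := h.nd
  rw [← e1] at ha hb hn
  rw [prs_tail_append_odd _ p1] at ha
  rw [prs_append_odd _ p1 e3] at hb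
  refine ⟨⟨(List.nodup_append.1 hn).1, p1, ha.1, hb.1⟩, hb.2.1, ?_⟩
  conv_rhs => rw [← e1, hd_append e2]

theorem Od.nxt (hw : Wt om) {p : PM V × PM V} {l : List V} (h : Od p l) (h2 : 2 ≤ l.length) :
    Od p (nxt om l) := by
  unfold P308.nxt
  split_ifs with he
  · exact (h.nxt_even hw h2 he).1
  · exact (h.nxt_odd hw h2 he).1

theorem sq_div_mono {a b c : ℝ} (ha : 0 < a) (hab : a ≤ b) (hc : 0 < c) :
    (a / c) ^ 2 ≤ (b / c) ^ 2 :=
  pow_le_pow_left₀ (div_pos ha hc).le (div_le_div_of_nonneg_right hab hc.le) 2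

theorem sq_div_le_one {a c : ℝ} (ha : 0 < a) (hac : a ≤ c) : (a / c) ^ 2 ≤ 1 :=
  pow_le_one₀ (div_pos ha (ha.trans_le hac)).le ((div_le_one (ha.trans_le hac)).2 hac)

theorem wb_mono (hw : Wt om) {p : PM V × PM V} {l : List V} (h : Od p l) (h2 : 2 ≤ l.length) :
    wb om p l ≤ wb om p (nxt om l) := by
  obtain ⟨e1, e2, e3, -, e5, e6, e7⟩ := pre_suf hw h2
  unfold P308.nxt
  split_ifs with he
  · obtain ⟨-, k1, k2⟩ := h.nxt_even hw h2 he
    unfold wb
    rw [k1, k2, str_cons (lt (pre om l)) e3, min_eq_left (e5.le.trans e7),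
      div_self (hw.pos _ _).ne', one_pow, mul_one]
    refine mul_le_mul (mul_le_of_le_one_right (mu2_pos hw p).le
      (sq_div_le_one (str_pos hw _) (str_cons_le _ h.ne))) (sq_div_mono (str_pos hw _) ?_
        (hw.pos _ _)) (sq_nonneg _) (mu2_pos hw p).le
    rw [str_concat hw h.ne, str_concat hw e3, k2]
    exact min_le_min_right _ e7
  · obtain ⟨-, k1, k2⟩ := h.nxt_odd hw h2 he
    unfold wb
    rw [k1, k2, str_concat hw e2, min_eq_right (e5.le.trans e6),
      div_self (hw.pos _ _).ne', one_pow, mul_one]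
    refine (mul_le_of_le_one_right (mul_nonneg (mu2_pos hw p).le (sq_nonneg _))
      (sq_div_le_one (str_pos hw _) (str_concat_le hw h.ne _))).trans
      (mul_le_mul_of_nonneg_left (sq_div_mono (str_pos hw _) ?_ (hw.pos _ _)) (mu2_pos hw p).le)
    rw [str_cons _ h.ne, str_cons _ e2, k2]
    exact min_le_min_left _ e6

theorem ee_short (f : PM V → ℝ) {p : PM V × PM V} {l : List V} (h : Od p l)
    (h2 : ¬ 2 ≤ l.length) : ee om f p l = 0 := by
  obtain ⟨t1, -, t3, -⟩ := h.tau_spec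
  have hl := h.ne
  match l, hl, h2 with
  | [a], _, _ =>
    have : (tauL [a] p).1 = p.1 := by
      ext x
      by_cases h1 : x = a
      · rw [h1]; exact t3
      by_cases h3 : x = p.1.f a
      · rw [h3, p.1.inv]; exact (tauL [a] p).1.eq_comm.1 t3
      exact t1 x (by simpa using h1) h3
    rw [ee, this, oo_short om f (by simp)]
    ring
  | _ :: _ :: _, _, h2 => exact absurd (by simp) h2

theorem wb_ee_le (hw : Wt om) (f : PM V → ℝ) (p : PM V × PM V) {B : ℝ}
    (hB : ∀ l, Od p l → 2 ≤ l.length →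
      wb om p l * (ee om f p l - ee om f p (nxt om l)) ^ 2 ≤ B) :
    ∀ (k : ℕ) (l : List V), l.length ≤ k → Od p l →
      √(wb om p l) * |ee om f p l| ≤ k * √B := by
  intro k
  induction k with
  | zero =>
    intro l hl h
    exact absurd (List.length_eq_zero_iff.1 (Nat.le_zero.1 hl)) h.ne
  | succ k ih =>
    intro l hl h
    by_cases h2 : 2 ≤ l.length
    · have h3 := ih (nxt om l) (by have := nxt_length_lt om h2; omega) (h.nxt hw h2)
      have h4 : √(wb om p l) * |ee om f p l - ee om f p (nxt om l)| ≤ √B := by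
        rw [← Real.sqrt_sq_eq_abs, ← Real.sqrt_mul (wb_nonneg hw p l)]
        exact Real.sqrt_le_sqrt (hB l h h2)
      have h5 : √(wb om p l) * |ee om f p (nxt om l)| ≤ k * √B :=
        (mul_le_mul_of_nonneg_right (Real.sqrt_le_sqrt (wb_mono hw h h2)) (abs_nonneg _)).trans h3
      have h6 : |ee om f p l| ≤ |ee om f p l - ee om f p (nxt om l)| + |ee om f p (nxt om l)| := by
        simpa using abs_add_le (ee om f p l - ee om f p (nxt om l)) (ee om f p (nxt om l))
      have h7 := mul_le_mul_of_nonneg_left h6 (Real.sqrt_nonneg (wb om p l))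
      push_cast
      linarith
    · rw [ee_short f h h2, abs_zero, mul_zero]
      positivity

theorem SO_le_steps (hw : Wt om) (f : PM V → ℝ) :
    SO om f ≤ (Fintype.card V : ℝ) ^ 4 * ∑ z ∈ (OdS V).filter (fun z => 2 ≤ z.1.length),
      wb om z.2 z.1 * (ee om f z.2 z.1 - ee om f z.2 (nxt om z.1)) ^ 2 := by
  classical
  set G : List V × (PM V × PM V) → ℝ := fun z =>
    wb om z.2 z.1 * (ee om f z.2 z.1 - ee om f z.2 (nxt om z.1)) ^ 2 with hG
  have hG0 : ∀ z, 0 ≤ G z := fun z => mul_nonneg (wb_nonneg hw _ _) (sq_nonneg _)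
  unfold SO
  rw [← sum_fiberwise (OdS V) Prod.snd,
    ← sum_fiberwise ((OdS V).filter fun z => 2 ≤ z.1.length) Prod.snd, mul_sum]
  refine sum_le_sum fun p _ => ?_
  set B := ∑ z ∈ ((OdS V).filter fun z => 2 ≤ z.1.length) with z.2 = p, G z with hBd
  have hB0 : 0 ≤ B := sum_nonneg fun z _ => hG0 z
  have h1 : ∀ z ∈ (OdS V).filter (fun z => z.2 = p),
      wb om z.2 z.1 * ee om f z.2 z.1 ^ 2 ≤ (Fintype.card V : ℝ) ^ 2 * B := by
    rintro ⟨l, p'⟩ hz
    obtain ⟨hz1, rfl⟩ := mem_filter.1 hz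
    have hz2 : Od p' l := mem_OdS.1 hz1
    have h2 := wb_ee_le hw f p' (B := B) (fun l' hl' h2 => single_le_sum (f := G) (a := (l', p'))
      (fun z _ => hG0 z) (by simp [hl', h2])) (Fintype.card V) l hz2.nd.length_le_card hz2
    have h3 := pow_le_pow_left₀ (by positivity) h2 2
    rwa [mul_pow, mul_pow, Real.sq_sqrt (wb_nonneg hw _ _), Real.sq_sqrt hB0, sq_abs] at h3
  have h4 : ((OdS V).filter fun z => z.2 = p).card ≤ Fintype.card (V × V) :=
    card_le_of_inj _ (fun z => (hd z.1, lt z.1)) (by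
      rintro ⟨l, p1⟩ ha ⟨l', p2⟩ hb e
      obtain ⟨ha1, rfl⟩ := mem_filter.1 ha
      obtain ⟨hb1, hb2⟩ := mem_filter.1 hb
      obtain rfl : p2 = p1 := hb2
      have k1 : Od p2 l := mem_OdS.1 ha1
      have k2 : Od p2 l' := mem_OdS.1 hb1
      rw [Od.unique k1 k2 (congrArg Prod.fst e) (congrArg Prod.snd e)])
  refine (sum_le_card_nsmul _ _ _ h1).trans ?_
  rw [nsmul_eq_mul]
  rw [Fintype.card_prod] at h4
  have h5 : (((OdS V).filter fun z => z.2 = p).card : ℝ) ≤ (Fintype.card V : ℝ) ^ 2 := by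
    rw [sq]; exact_mod_cast h4
  calc _ ≤ (Fintype.card V : ℝ) ^ 2 * ((Fintype.card V : ℝ) ^ 2 * B) :=
        mul_le_mul_of_nonneg_right h5 (by positivity)
    _ = _ := by ring

theorem SO_le_of (h : Hyp om κ) (f : PM V → ℝ)
    (h1 : ∑ z ∈ (OdS V).filter (fun z => 2 ≤ z.1.length ∧ Even (spl om z.1)),
      wb om z.2 z.1 * (ee om f z.2 z.1 - ee om f z.2 (nxt om z.1)) ^ 2 ≤
        XX V κ ^ 7 * (SV om f + Dsw om f))
    (h2 : ∑ z ∈ (OdS V).filter (fun z => 2 ≤ z.1.length ∧ ¬ Even (spl om z.1)),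
      wb om z.2 z.1 * (ee om f z.2 z.1 - ee om f z.2 (nxt om z.1)) ^ 2 ≤
        XX V κ ^ 7 * (SV om f + Dsw om f)) :
    SO om f ≤ XX V κ ^ 12 * (SV om f + Dsw om f) := by
  have h3 := SO_le_steps h.wt f
  rw [← sum_filter_add_sum_filter_not _ (fun z => Even (spl om z.1)), filter_filter,
    filter_filter] at h3
  obtain ⟨x1, -, x2⟩ := one_le_XX h
  have h4 : 0 ≤ SV om f + Dsw om f := add_nonneg (SV_nonneg h.wt f) (Dsw_nonneg h.wt f)
  have h5 : (Fintype.card V : ℝ) ^ 4 ≤ XX V κ ^ 4 := pow_le_pow_left₀ (by positivity) x1 4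
  have h6 : 0 ≤ XX V κ ^ 7 * (SV om f + Dsw om f) := by positivity
  calc SO om f ≤ (Fintype.card V : ℝ) ^ 4 * (2 * (XX V κ ^ 7 * (SV om f + Dsw om f))) :=
        h3.trans (mul_le_mul_of_nonneg_left (by linarith) (by positivity))
    _ ≤ XX V κ ^ 4 * (XX V κ * (XX V κ ^ 7 * (SV om f + Dsw om f))) :=
        mul_le_mul h5 (mul_le_mul_of_nonneg_right x2 h6) (by positivity) (by positivity)
    _ = _ := by ring

end Vale.Agent.P308
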