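import Vale.Agent.P308.Lists2

/-!
Two estimates by the energy of the cycle exchanges: the deviation of the increments along a cycle
from their mean, and the exchange of the two matchings.
-/

set_option linter.unusedSectionVars false

namespace Vale.Agent.P308

open Finset

variable {V : Type} [Fintype V] [DecidableEq V] [Inhabited V] {om : V → V → ℝ} {κ : ℝ}

theorem Cy.of_prs_bst {p : PM V × PM V} {l : List V} (h : Cy p l) {E F : PM V} (hE : Prs E l)
    (hF : Bst F l) : Cy (E, F) l := ⟨h.nd, h.ne, h.ev, hE, hF.1, hF.2⟩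

/-- the first component after the exchange does not depend on the second matching -/
theorem sig_fst_indep {M F₀ F : PM V} {l : List V} (h : Cy (M, F₀) l) (hF : Bst F l) :
    (sig (hd l) (M, F)).1 = (sig (hd l) (M, F₀)).1 := by
  have h' : Cy (M, F) l := h.of_prs_bst h.a hF
  ext x
  by_cases hx : x ∈ l
  · rw [(h'.sig_in (hd_mem h.ne) hx).1, (h.sig_in (hd_mem h.ne) hx).1]
    exact bst_agree h.ev hF h.bst hx
  · rw [(h'.sig_out (hd_mem h.ne) hx).1, (h.sig_out (hd_mem h.ne) hx).1]

open Classical in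
/-- the second component after the exchange is distributed as a matching which pairs `l` -/
theorem sum_sig_snd (hw : Wt om) {M F₀ : PM V} {l : List V} (h : Cy (M, F₀) l) (φ : PM V → ℝ) :
    ∑ F ∈ univ.filter (fun F : PM V => Bst F l), mu om F * φ (sig (hd l) (M, F)).2 =
      mu om (sig (hd l) (M, F₀)).1 / mu om M *
        ∑ E ∈ univ.filter (fun E : PM V => Prs E l), mu om E * φ E := by
  have hv := hd_mem h.ne
  rw [mul_sum]
  refine sum_nbij' (fun F => (sig (hd l) (M, F)).2) (fun E => (sig (hd l) (E, F₀)).1) ?_ ?_ ?_ ?_ ?_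
  · intro F hF
    simp only [mem_filter, mem_univ, true_and] at hF ⊢
    exact prs_congr (fun x hx => ((h.of_prs_bst h.a hF).sig_in hv hx).2) h.a
  · intro E hE
    simp only [mem_filter, mem_univ, true_and] at hE ⊢
    exact bst_congr h.ne (fun x hx => ((h.of_prs_bst hE h.bst).sig_in hv hx).1) h.bst
  · intro F hF
    simp only [mem_filter, mem_univ, true_and] at hF
    have h1 := h.of_prs_bst h.a hF
    have h2 : Prs (sig (hd l) (M, F)).2 l := prs_congr (fun x hx => (h1.sig_in hv hx).2) h.a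
    have h3 := h.of_prs_bst h2 h.bst
    ext x
    by_cases hx : x ∈ l
    · rw [(h3.sig_in hv hx).1]
      exact bst_agree h.ev h.bst hF hx
    · rw [(h3.sig_out hv hx).1]
      exact (h1.sig_out hv hx).2
  · intro E hE
    simp only [mem_filter, mem_univ, true_and] at hE
    have h1 := h.of_prs_bst hE h.bst
    have h2 : Bst (sig (hd l) (E, F₀)).1 l :=
      bst_congr h.ne (fun x hx => (h1.sig_in hv hx).1) h.bst
    have h3 := h.of_prs_bst h.a h2
    ext x
    by_cases hx : x ∈ l
    · rw [(h3.sig_in hv hx).2]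
      exact prs_agree_even h.ev h.a hE hx
    · rw [(h3.sig_out hv hx).2]
      exact (h1.sig_out hv hx).1
  · intro F hF
    simp only [mem_filter, mem_univ, true_and] at hF
    have h1 : mu om (sig (hd l) (M, F)).1 * mu om (sig (hd l) (M, F)).2 = mu om M * mu om F :=
      mu2_sig (hd l) (M, F)
    rw [sig_fst_indep h hF] at h1
    have h2 := (mu_pos hw M).ne'
    field_simp
    linear_combination (-φ (sig (hd l) (M, F)).2) * h1

open Classical in
theorem cav_mul (hw : Wt om) {P : PM V → Prop} {M : PM V} (hM : P M) (f : PM V → ℝ) :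
    cav om P f * ∑ E ∈ univ.filter P, mu om E = ∑ E ∈ univ.filter P, mu om E * f E := by
  have h : 0 < ∑ E ∈ univ.filter P, mu om E :=
    sum_pos (fun E _ => mu_pos hw E) ⟨M, by simpa using hM⟩
  rw [cav, ← sum_filter, ← sum_filter, div_mul_cancel₀ _ h.ne']

open Classical in
theorem SV_fibre (hw : Wt om) (f : PM V → ℝ) {M F₀ : PM V} {l : List V} (h : Cy (M, F₀) l) :
    ∑ F ∈ univ.filter (fun F : PM V => Bst F l),
        mu om F * (f (sig (hd l) (M, F)).1 - f M - dd om f l) ^ 2 ≤
      ∑ F ∈ univ.filter (fun F : PM V => Bst F l),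
        mu om F * (f (sig (hd l) (M, F)).1 + f (sig (hd l) (M, F)).2 - (f M + f F)) ^ 2 := by
  set c := f (sig (hd l) (M, F₀)).1 - f M - dd om f l with hc
  have h1 := sum_sig_snd hw h f
  have h2 := sum_sig_snd hw h fun _ => 1
  simp only [mul_one] at h2
  have h3 := cav_mul hw (P := fun E => Prs E l) h.a f
  have h4 := cav_mul hw (P := fun F => Bst F l) h.bst f
  have h5 : ∑ F ∈ univ.filter (fun F : PM V => Bst F l), mu om F * (f (sig (hd l) (M, F)).2 - f F) =
      -dd om f l * ∑ F ∈ univ.filter (fun F : PM V => Bst F l), mu om F := by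
    simp only [mul_sub, sum_sub_distrib]
    rw [h1, ← h3, ← h4, dd, h2]
    ring
  have h6 : ∀ F ∈ univ.filter (fun F : PM V => Bst F l),
      mu om F * (f (sig (hd l) (M, F)).1 - f M - dd om f l) ^ 2 +
        2 * c * (mu om F * (f (sig (hd l) (M, F)).2 - f F) + dd om f l * mu om F) ≤
      mu om F * (f (sig (hd l) (M, F)).1 + f (sig (hd l) (M, F)).2 - (f M + f F)) ^ 2 := by
    intro F hF
    simp only [mem_filter, mem_univ, true_and] at hF
    rw [sig_fst_indep h hF, hc]
    have := mul_nonneg (mu_pos hw F).le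
      (sq_nonneg (f (sig (hd l) (M, F)).2 - f F + dd om f l))
    nlinarith [this]
  refine le_trans (le_of_eq ?_) (sum_le_sum h6)
  rw [sum_add_distrib, ← mul_sum, sum_add_distrib, h5, ← mul_sum]
  ring

open Classical in
theorem sum_CyS (H : List V × (PM V × PM V) → ℝ) :
    ∑ z ∈ CyS V, H z = ∑ l ∈ NL V, ∑ M : PM V,
      ∑ F ∈ univ.filter (fun F : PM V => Cy (M, F) l), H (l, (M, F)) := by
  rw [CyS, sum_filter, sum_product]
  refine sum_congr rfl fun l _ => ?_
  rw [Fintype.sum_prod_type]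
  refine sum_congr rfl fun M _ => ?_
  rw [sum_filter]

theorem SV_le (h : Wt om) (f : PM V → ℝ) : SV om f ≤ Dsig om fun p => f p.1 + f p.2 := by
  classical
  have h1 : SV om f ≤ ∑ z ∈ CyS V, mu2 om z.2 *
      (f (sig (hd z.1) z.2).1 + f (sig (hd z.1) z.2).2 - (f z.2.1 + f z.2.2)) ^ 2 := by
    rw [SV, sum_CyS, sum_CyS]
    refine sum_le_sum fun l _ => sum_le_sum fun M _ => ?_
    by_cases h0 : ∃ F₀, Cy (M, F₀) l
    · obtain ⟨F₀, h0⟩ := h0
      have h2 : univ.filter (fun F : PM V => Cy (M, F) l) = univ.filter fun F : PM V => Bst F l :=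
        filter_congr fun F _ => ⟨fun h' => h'.bst, fun h' => h0.of_prs_bst h0.a h'⟩
      have h3 := mul_le_mul_of_nonneg_left (SV_fibre h f h0) (mu_pos h M).le
      rw [mul_sum, mul_sum] at h3
      rw [h2]
      simpa only [mu2, mul_assoc] using h3
    · rw [filter_false_of_mem fun F _ hF => h0 ⟨F, hF⟩]
      simp
  refine h1.trans ?_
  rw [Dsig, ← sum_product']
  refine sum_le_of_inj _ _ (fun z => (hd z.1, z.2)) _ _ (fun _ _ => by simp) ?_
    (fun b _ => mul_nonneg (mu2_pos h _).le (sq_nonneg _)) fun _ _ => le_rfl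
  intro a ha b hb hab
  rw [mem_CyS] at ha hb
  simp only [Prod.mk.injEq] at hab
  refine Prod.ext (ha.unique (hab.2 ▸ hb) hab.1) hab.2

/-! ### the exchange of the two matchings -/

theorem cl_biUnion (p : PM V × PM V) (A : Finset V) : Cl p (A.biUnion (cyc p)) := by
  intro x hx
  rw [mem_biUnion] at hx
  obtain ⟨a, ha, hx⟩ := hx
  exact ⟨mem_biUnion.2 ⟨a, ha, (cl_cyc p a x hx).1⟩, mem_biUnion.2 ⟨a, ha, (cl_cyc p a x hx).2⟩⟩

/-- exchange on all cycles which meet `A` -/
noncomputable def xA (A : Finset V) (p : PM V × PM V) : PM V × PM V :=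
  xch p (A.biUnion (cyc p)) (cl_biUnion p A)

theorem xA_fst (A : Finset V) (p : PM V × PM V) (x : V) :
    (xA A p).1.f x = if x ∈ A.biUnion (cyc p) then p.2.f x else p.1.f x := rfl

theorem xA_snd (A : Finset V) (p : PM V × PM V) (x : V) :
    (xA A p).2.f x = if x ∈ A.biUnion (cyc p) then p.1.f x else p.2.f x := rfl

theorem cyc_xA (A : Finset V) (p : PM V × PM V) : cyc (xA A p) = cyc p :=
  funext fun u => cyc_xch _ _ _ u

theorem xA_xA (A : Finset V) (p : PM V × PM V) : xA A (xA A p) = p := by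
  refine Prod.ext ?_ ?_ <;> ext x
  · rw [xA_fst, cyc_xA, xA_fst, xA_snd]; split_ifs <;> rfl
  · rw [xA_snd, cyc_xA, xA_fst, xA_snd]; split_ifs <;> rfl

theorem xA_empty (p : PM V × PM V) : xA ∅ p = p := by
  refine Prod.ext ?_ ?_ <;> ext x
  · rw [xA_fst, if_neg (by simp)]
  · rw [xA_snd, if_neg (by simp)]

theorem xA_univ (p : PM V × PM V) : xA univ p = p.swap := by
  have h : ∀ x, x ∈ (univ : Finset V).biUnion (cyc p) := fun x =>
    mem_biUnion.2 ⟨x, mem_univ x, self_mem_cyc p x⟩
  refine Prod.ext ?_ ?_ <;> ext x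
  · rw [xA_fst, if_pos (h x)]; rfl
  · rw [xA_snd, if_pos (h x)]; rfl

theorem xA_insert (a : V) (A : Finset V) (p : PM V × PM V) :
    xA (insert a A) p = xA A p ∨ xA (insert a A) p = sig a (xA A p) := by
  by_cases ha : a ∈ A.biUnion (cyc p)
  · left
    have h : (insert a A).biUnion (cyc p) = A.biUnion (cyc p) := by
      rw [biUnion_insert, union_eq_right]
      exact cyc_subset (cl_biUnion p A) ha
    refine Prod.ext ?_ ?_ <;> ext x
    · rw [xA_fst, xA_fst, h]
    · rw [xA_snd, xA_snd, h]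
  · right
    have h : ∀ x ∈ cyc p a, x ∉ A.biUnion (cyc p) := fun x hx hx' =>
      ha (cyc_subset (cl_biUnion p A) hx' (mem_cyc_symm hx))
    refine Prod.ext ?_ ?_ <;> ext x
    · rw [xA_fst, sig_fst, cyc_xA, xA_fst, xA_snd, biUnion_insert]
      by_cases hx : x ∈ cyc p a
      · rw [if_pos (mem_union_left _ hx), if_pos hx, if_neg (h x hx)]
      · rw [if_neg hx]
        simp only [mem_union, hx, false_or]
    · rw [xA_snd, sig_snd, cyc_xA, xA_fst, xA_snd, biUnion_insert]
      by_cases hx : x ∈ cyc p a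
      · rw [if_pos (mem_union_left _ hx), if_pos hx, if_neg (h x hx)]
      · rw [if_neg hx]
        simp only [mem_union, hx, false_or]

theorem sum_mu2_invol {σ : PM V × PM V → PM V × PM V} (h : ∀ p, σ (σ p) = p)
    (hm : ∀ p, mu2 om (σ p) = mu2 om p) (φ : PM V × PM V → ℝ) :
    ∑ p, mu2 om p * φ (σ p) = ∑ p, mu2 om p * φ p := by
  rw [← Equiv.sum_comp (Function.Involutive.toPerm σ h) fun p => mu2 om p * φ p]
  exact sum_congr rfl fun p _ => by rw [← hm p]; rfl

theorem xA_step (h : Wt om) (g : PM V × PM V → ℝ) (a : V) (A : Finset V) :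
    ∑ p : PM V × PM V, mu2 om p * (g (xA (insert a A) p) - g (xA A p)) ^ 2 ≤
      ∑ p : PM V × PM V, mu2 om p * (g (sig a p) - g p) ^ 2 := by
  rw [← sum_mu2_invol (xA_xA A) (fun p => mu2_xch _ _ _) fun p => (g (sig a p) - g p) ^ 2]
  refine sum_le_sum fun p _ => mul_le_mul_of_nonneg_left ?_ (mu2_pos h p).le
  rcases xA_insert a A p with h1 | h1 <;> rw [h1]
  rw [sub_self, zero_pow two_ne_zero]
  exact sq_nonneg _

theorem xA_le (h : Wt om) (g : PM V × PM V → ℝ) (A : Finset V) :
    ∑ p : PM V × PM V, mu2 om p * (g (xA A p) - g p) ^ 2 ≤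
      A.card * ∑ a ∈ A, ∑ p : PM V × PM V, mu2 om p * (g (sig a p) - g p) ^ 2 := by
  induction A using Finset.induction_on with
  | empty => simp [xA_empty]
  | insert a A ha ih =>
    have h1 := xA_step h g a A
    rw [sum_insert ha, card_insert_of_notMem ha]
    rcases A.eq_empty_or_nonempty with rfl | hA
    · simpa [xA_empty] using h1
    have hk : (0 : ℝ) < A.card := by exact_mod_cast hA.card_pos
    have h2 : (A.card : ℝ) * ∑ p : PM V × PM V, mu2 om p * (g (xA (insert a A) p) - g p) ^ 2 ≤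
        (A.card + 1) * ∑ p : PM V × PM V, mu2 om p * (g (xA A p) - g p) ^ 2 +
          A.card * (A.card + 1) *
            ∑ p : PM V × PM V, mu2 om p * (g (xA (insert a A) p) - g (xA A p)) ^ 2 := by
      rw [mul_sum, mul_sum, mul_sum, ← sum_add_distrib]
      refine sum_le_sum fun p _ => ?_
      have := mul_nonneg (mu2_pos h p).le
        (sq_nonneg (g (xA A p) - g p - A.card * (g (xA (insert a A) p) - g (xA A p))))
      nlinarith [this]
    refine le_of_mul_le_mul_left (h2.trans ?_) hk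
    have h3 := mul_le_mul_of_nonneg_left ih (by positivity : (0 : ℝ) ≤ A.card + 1)
    have h4 := mul_le_mul_of_nonneg_left h1 (by positivity : (0 : ℝ) ≤ A.card * (A.card + 1))
    push_cast
    nlinarith [h3, h4]

theorem top_swap (h : Wt om) (g : PM V × PM V → ℝ) :
    ∑ p : PM V × PM V, mu2 om p * (g p.swap - g p) ^ 2 ≤ Fintype.card V * Dsig om g := by
  simpa only [xA_univ, card_univ, Dsig] using xA_le h g univ

end Vale.Agent.P308
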