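import Vale.Agent.P308.LDefs

/-!
Alternating paths and cycles as lists of vertices: basic facts.
-/

set_option linter.unusedSectionVars false

namespace Vale.Agent.P308

open Finset

variable {V : Type} [Fintype V] [DecidableEq V] [Inhabited V] {om : V → V → ℝ} {κ : ℝ}

@[simp] theorem hd_cons (a : V) (l : List V) : hd (a :: l) = a := rfl
@[simp] theorem lt_singleton (a : V) : lt [a] = a := rfl
@[simp] theorem lt_cons_cons (a b : V) (l : List V) : lt (a :: b :: l) = lt (b :: l) := rfl
@[simp] theorem prs_nil (M : PM V) : Prs M [] := trivial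
@[simp] theorem prs_singleton (M : PM V) (a : V) : Prs M [a] := trivial
@[simp] theorem prs_cons_cons (M : PM V) (a b : V) (l : List V) :
    Prs M (a :: b :: l) ↔ M.f a = b ∧ Prs M l := Iff.rfl

theorem hd_mem {l : List V} (h : l ≠ []) : hd l ∈ l := by
  cases l with
  | nil => exact absurd rfl h
  | cons a l => simp

theorem lt_mem : ∀ {l : List V}, l ≠ [] → lt l ∈ l
  | [], h => absurd rfl h
  | [a], _ => by simp
  | a :: b :: l, _ => List.mem_cons_of_mem a (lt_mem (l := b :: l) (by simp))

theorem cons_hd_tail {l : List V} (h : l ≠ []) : hd l :: l.tail = l := by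
  cases l with
  | nil => exact absurd rfl h
  | cons a l => rfl

theorem hd_append {l : List V} (h : l ≠ []) (l' : List V) : hd (l ++ l') = hd l := by
  cases l with
  | nil => exact absurd rfl h
  | cons a l => rfl

theorem lt_cons (a : V) {l : List V} (h : l ≠ []) : lt (a :: l) = lt l := by
  cases l with
  | nil => exact absurd rfl h
  | cons b l => rfl

theorem lt_append (l : List V) {l' : List V} (h : l' ≠ []) : lt (l ++ l') = lt l' := by
  induction l with
  | nil => rfl
  | cons a l ih => rw [List.cons_append, lt_cons a (by simp [h]), ih]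

theorem lt_concat (l : List V) (a : V) : lt (l ++ [a]) = a := lt_append l (by simp)

theorem lt_reverse (l : List V) : lt l.reverse = hd l := by
  cases l with
  | nil => rfl
  | cons a l => rw [List.reverse_cons, lt_concat]; rfl

theorem hd_reverse (l : List V) : hd l.reverse = lt l := by
  rw [← lt_reverse, List.reverse_reverse]

theorem hd_notMem_tail {l : List V} (h : l.Nodup) : hd l ∉ l.tail := by
  cases l with
  | nil => simp
  | cons a l => exact (List.nodup_cons.1 h).1

theorem lt_tail {l : List V} (h2 : 2 ≤ l.length) : lt l.tail = lt l := by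
  match l, h2 with
  | _ :: _ :: _, _ => rfl

theorem tail_ne_nil {l : List V} (h2 : 2 ≤ l.length) : l.tail ≠ [] := by
  match l, h2 with
  | _ :: _ :: _, _ => simp

theorem hd_ne_lt {l : List V} (h : l.Nodup) (h2 : 2 ≤ l.length) : hd l ≠ lt l := fun e =>
  hd_notMem_tail h (by rw [e, ← lt_tail h2]; exact lt_mem (tail_ne_nil h2))

theorem two_le_of_even {l : List V} (h : Even l.length) (hl : l ≠ []) : 2 ≤ l.length := by
  have := List.length_pos_iff.2 hl
  obtain ⟨k, hk⟩ := h
  omega

theorem ne_nil_of_odd {l : List V} (h : Odd l.length) : l ≠ [] := by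
  rintro rfl
  simp at h

theorem mem_tail_of_ne {l : List V} {x : V} (hx : x ∈ l) (h : x ≠ hd l) : x ∈ l.tail := by
  cases l with
  | nil => simp at hx
  | cons a l => exact (List.mem_cons.1 hx).resolve_left h

theorem odd_tail {l : List V} (h : Even l.length) (hl : l ≠ []) : Odd l.tail.length := by
  cases l with
  | nil => exact absurd rfl hl
  | cons a l =>
    rw [List.length_cons, Nat.even_add_one, Nat.not_even_iff_odd] at h
    exact h

theorem even_tail {l : List V} (h : Odd l.length) : Even l.tail.length := by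
  cases l with
  | nil => simp
  | cons a l =>
    rw [List.length_cons, Nat.odd_add_one, Nat.not_odd_iff_even] at h
    exact h

theorem even_two {a b : V} {l : List V} (h : Even (a :: b :: l).length) : Even l.length := by
  simp only [List.length_cons] at h
  rwa [add_assoc, Nat.even_add, iff_true_right (by decide)] at h

theorem odd_two {a b : V} {l : List V} (h : Odd (a :: b :: l).length) : Odd l.length := by
  simp only [List.length_cons] at h
  rwa [add_assoc, Nat.odd_add, iff_true_right (by decide)] at h

theorem prs_append_even (M : PM V) : ∀ {l : List V}, Even l.length → ∀ l' : List V,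
    (Prs M (l ++ l') ↔ Prs M l ∧ Prs M l')
  | [], _, l' => by simp
  | [a], h, _ => by simp at h
  | a :: b :: l, h, l' => by
    simp only [List.cons_append, prs_cons_cons, prs_append_even M (even_two h) l', and_assoc]

theorem prs_append_odd (M : PM V) : ∀ {l l' : List V}, Odd l.length → l' ≠ [] →
    (Prs M (l ++ l') ↔ Prs M l ∧ M.f (lt l) = hd l' ∧ Prs M l'.tail)
  | [], _, h, _ => by simp at h
  | [a], [], _, h => absurd rfl h
  | [a], b :: l', _, _ => by simp
  | a :: b :: l, l', h, h' => by
    have h1 := odd_two h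
    simp only [List.cons_append, prs_cons_cons, prs_append_odd M h1 h', and_assoc, lt_cons_cons,
      lt_cons b (ne_nil_of_odd h1)]

theorem prs_tail_append_odd (M : PM V) {l : List V} (h : Odd l.length) (l' : List V) :
    Prs M (l ++ l').tail ↔ Prs M l.tail ∧ Prs M l' := by
  rw [List.tail_append_of_ne_nil (ne_nil_of_odd h), prs_append_even M (even_tail h)]

theorem prs_tail_append_even (M : PM V) {l l' : List V} (h : Even l.length) (hl : l ≠ [])
    (h' : l' ≠ []) :
    Prs M (l ++ l').tail ↔ Prs M l.tail ∧ M.f (lt l) = hd l' ∧ Prs M l'.tail := by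
  rw [List.tail_append_of_ne_nil hl, prs_append_odd M (odd_tail h hl) h',
    lt_tail (two_le_of_even h hl)]

theorem prs_reverse_even (M : PM V) : ∀ {l : List V}, Even l.length → (Prs M l.reverse ↔ Prs M l)
  | [], _ => by simp
  | [a], h => by simp at h
  | a :: b :: l, h => by
    have h1 := even_two h
    rw [List.reverse_cons, List.reverse_cons, List.append_assoc,
      prs_append_even M (by rwa [List.length_reverse]), prs_reverse_even M h1]
    simp only [List.cons_append, List.nil_append, prs_cons_cons, prs_nil, and_true]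
    rw [M.eq_comm, and_comm]

theorem prs_reverse_odd (M : PM V) {l : List V} (h : Odd l.length) :
    Prs M l.reverse ↔ Prs M l.tail := by
  conv_lhs => rw [← cons_hd_tail (ne_nil_of_odd h), List.reverse_cons]
  rw [prs_append_even M (by rw [List.length_reverse]; exact even_tail h),
    prs_reverse_even M (even_tail h)]
  simp

theorem prs_reverse_tail_odd (M : PM V) {l : List V} (h : Odd l.length) :
    Prs M l.reverse.tail ↔ Prs M l := by
  rw [← prs_reverse_odd M (by rwa [List.length_reverse]), List.reverse_reverse]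

theorem prs_mem_even {M : PM V} : ∀ {l : List V}, Even l.length → Prs M l → ∀ {x : V}, x ∈ l →
    M.f x ∈ l
  | [], _, _, _, hx => by simp at hx
  | [a], h, _, _, _ => by simp at h
  | a :: b :: l, h, hp, x, hx => by
    rcases List.mem_cons.1 hx with rfl | hx
    · simp [hp.1]
    rcases List.mem_cons.1 hx with rfl | hx
    · simp [M.eq_comm.1 hp.1]
    · simp [prs_mem_even (even_two h) hp.2 hx]

theorem prs_mem_odd {M : PM V} : ∀ {l : List V}, l.Nodup → Odd l.length → Prs M l →
    ∀ {x : V}, x ∈ l → x ≠ lt l → M.f x ∈ l ∧ M.f x ≠ lt l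
  | [], _, h, _, _, _, _ => by simp at h
  | [a], _, _, _, x, hx, hx' => absurd (List.mem_singleton.1 hx) hx'
  | a :: b :: l, hn, h, hp, x, hx, hx' => by
    have h1 := odd_two h
    have h2 := ne_nil_of_odd h1
    have h3 := lt_mem h2
    rw [lt_cons_cons, lt_cons b h2] at hx' ⊢
    simp only [List.nodup_cons, List.mem_cons, not_or] at hn
    rcases List.mem_cons.1 hx with rfl | hx
    · rw [hp.1]
      exact ⟨by simp, fun e => hn.2.1 (e ▸ h3)⟩
    rcases List.mem_cons.1 hx with rfl | hx
    · rw [M.eq_comm.1 hp.1]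
      exact ⟨by simp, fun e => hn.1.2 (e ▸ h3)⟩
    · have := prs_mem_odd hn.2.2 h1 hp.2 hx hx'
      exact ⟨by simp [this.1], this.2⟩

/-- interior of an even list under the second matching -/
theorem prs_mem_tail {M : PM V} {l : List V} (hn : l.Nodup) (h : Even l.length)
    (hp : Prs M l.tail) {x : V} (hx : x ∈ l) (h1 : x ≠ hd l) (h2 : x ≠ lt l) :
    M.f x ∈ l ∧ M.f x ≠ hd l ∧ M.f x ≠ lt l := by
  have hl : l ≠ [] := List.ne_nil_of_mem hx
  have h3 := lt_tail (two_le_of_even h hl)
  have := prs_mem_odd hn.tail (odd_tail h hl) hp (mem_tail_of_ne hx h1) (by rwa [h3])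
  rw [h3] at this
  exact ⟨List.mem_of_mem_tail this.1, fun e => hd_notMem_tail hn (e ▸ this.1), this.2⟩

theorem prs_congr {M M' : PM V} : ∀ {l : List V}, (∀ x ∈ l, M'.f x = M.f x) → Prs M l → Prs M' l
  | [], _, _ => trivial
  | [_], _, _ => trivial
  | a :: b :: l, h, hp =>
    ⟨(h a (by simp)).trans hp.1, prs_congr (fun x hx => h x (by simp [hx])) hp.2⟩

theorem prs_congr_odd {M M' : PM V} : ∀ {l : List V}, l.Nodup → Odd l.length →
    (∀ x ∈ l, x ≠ lt l → M'.f x = M.f x) → Prs M l → Prs M' l
  | [], _, _, _, _ => trivial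
  | [_], _, _, _, _ => trivial
  | a :: b :: l, hn, ho, h, hp => by
    have h1 := odd_two ho
    have h2 := ne_nil_of_odd h1
    refine ⟨(h a (by simp) (hd_ne_lt hn (by simp))).trans hp.1,
      prs_congr_odd hn.of_cons.of_cons h1 (fun x hx hx' => h x (by simp [hx]) ?_) hp.2⟩
    rwa [lt_cons_cons, lt_cons b h2]

theorem prs_congr_tail {M M' : PM V} {l : List V} (hn : l.Nodup) (he : Even l.length)
    (h : ∀ x ∈ l, x ≠ hd l → x ≠ lt l → M'.f x = M.f x) (hp : Prs M l.tail) : Prs M' l.tail := by
  rcases eq_or_ne l [] with rfl | hl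
  · trivial
  refine prs_congr_odd hn.tail (odd_tail he hl) (fun x hx hx' => h x (List.mem_of_mem_tail hx)
    (fun e => hd_notMem_tail hn (e ▸ hx)) ?_) hp
  rwa [lt_tail (two_le_of_even he hl)] at hx'

theorem prs_agree_even {M M' : PM V} : ∀ {l : List V}, Even l.length → Prs M l → Prs M' l →
    ∀ {x : V}, x ∈ l → M.f x = M'.f x
  | [], _, _, _, _, hx => by simp at hx
  | [a], h, _, _, _, _ => by simp at h
  | a :: b :: l, h, hp, hp', x, hx => by
    rcases List.mem_cons.1 hx with rfl | hx
    · rw [hp.1, hp'.1]
    rcases List.mem_cons.1 hx with rfl | hx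
    · rw [M.eq_comm.1 hp.1, M'.eq_comm.1 hp'.1]
    · exact prs_agree_even (even_two h) hp.2 hp'.2 hx

theorem prs_agree_odd {M M' : PM V} : ∀ {l : List V}, Odd l.length → Prs M l → Prs M' l →
    M.f (lt l) = M'.f (lt l) → ∀ {x : V}, x ∈ l → M.f x = M'.f x
  | [], h, _, _, _, _, _ => by simp at h
  | [a], _, _, _, hl, x, hx => by rw [List.mem_singleton.1 hx]; exact hl
  | a :: b :: l, h, hp, hp', hl, x, hx => by
    have h1 := odd_two h
    rw [lt_cons_cons, lt_cons b (ne_nil_of_odd h1)] at hl
    rcases List.mem_cons.1 hx with rfl | hx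
    · rw [hp.1, hp'.1]
    rcases List.mem_cons.1 hx with rfl | hx
    · rw [M.eq_comm.1 hp.1, M'.eq_comm.1 hp'.1]
    · exact prs_agree_odd h1 hp.2 hp'.2 hl hx

theorem bst_agree {M M' : PM V} {l : List V} (h : Even l.length) (hp : Bst M l)
    (hp' : Bst M' l) {x : V} (hx : x ∈ l) : M.f x = M'.f x := by
  have hl : l ≠ [] := List.ne_nil_of_mem hx
  by_cases h1 : x = hd l
  · rw [h1, M.eq_comm.1 hp.2, M'.eq_comm.1 hp'.2]
  · refine prs_agree_odd (odd_tail h hl) hp.1 hp'.1 ?_ (mem_tail_of_ne hx h1)
    rw [lt_tail (two_le_of_even h hl), hp.2, hp'.2]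

theorem bst_mem {M : PM V} {l : List V} (hn : l.Nodup) (h : Even l.length) (hp : Bst M l) {x : V}
    (hx : x ∈ l) : M.f x ∈ l := by
  have hl : l ≠ [] := List.ne_nil_of_mem hx
  by_cases h1 : x = hd l
  · rw [h1, M.eq_comm.1 hp.2]; exact lt_mem hl
  by_cases h2 : x = lt l
  · rw [h2, hp.2]; exact hd_mem hl
  exact (prs_mem_tail hn h hp.1 hx h1 h2).1

theorem bst_congr {M M' : PM V} {l : List V} (hl : l ≠ []) (h : ∀ x ∈ l, M'.f x = M.f x)
    (hp : Bst M l) : Bst M' l :=
  ⟨prs_congr (fun x hx => h x (List.mem_of_mem_tail hx)) hp.1, (h _ (lt_mem hl)).trans hp.2⟩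

/-- a matching which maps the members of `l` into `l` maps the other vertices outside -/
theorem notMem_of_closed {M : PM V} {l : List V} (h : ∀ x ∈ l, M.f x ∈ l) {x : V} (hx : x ∉ l) :
    M.f x ∉ l := fun h' => hx (by simpa [M.inv] using h _ h')

/-! ### strength -/

theorem om_le_base (h : Wt om) (a b : V) : om a b ≤ ∑ a, ∑ b, om a b :=
  (single_le_sum (fun y _ => (h.pos a y).le) (mem_univ b)).trans
    (single_le_sum (f := fun x => ∑ y, om x y)
      (fun x _ => sum_nonneg fun y _ => (h.pos x y).le) (mem_univ a))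

theorem str_pos (h : Wt om) : ∀ l : List V, 0 < str om l
  | [] => (h.pos default default).trans_le (om_le_base h _ _)
  | [_] => (h.pos default default).trans_le (om_le_base h _ _)
  | a :: b :: l => lt_min (h.pos a b) (str_pos h (b :: l))

theorem str_cons (a : V) {l : List V} (hl : l ≠ []) :
    str om (a :: l) = min (om a (hd l)) (str om l) := by
  cases l with
  | nil => exact absurd rfl hl
  | cons b l => rfl

theorem str_le_base (h : Wt om) : ∀ l : List V, str om l ≤ ∑ a, ∑ b, om a b
  | [] => le_rfl
  | [_] => le_rfl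
  | a :: b :: _ => (min_le_left _ _).trans (om_le_base h a b)

theorem str_append (h : Wt om) : ∀ {l l' : List V}, l ≠ [] → l' ≠ [] →
    str om (l ++ l') = min (str om l) (min (om (lt l) (hd l')) (str om l'))
  | [], _, hl, _ => absurd rfl hl
  | [a], l', _, hl' => by
    rw [List.singleton_append, str_cons a hl', lt_singleton, eq_comm]
    exact min_eq_right ((min_le_left _ _).trans (om_le_base h _ _))
  | a :: b :: l, l', _, hl' => by
    have := str_append h (l := b :: l) (by simp) hl'
    rw [List.cons_append] at this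
    rw [List.cons_append, List.cons_append, str, this, str, lt_cons_cons, min_assoc]

theorem str_concat (h : Wt om) {l : List V} (hl : l ≠ []) (a : V) :
    str om (l ++ [a]) = min (str om l) (om (lt l) a) := by
  rw [str_append h hl (by simp)]
  congr 1
  exact min_eq_left (om_le_base h _ _)

theorem str_reverse (h : Wt om) : ∀ l : List V, str om l.reverse = str om l
  | [] => rfl
  | [_] => rfl
  | a :: b :: l => by
    rw [List.reverse_cons, str_concat h (by simp), str_reverse h (b :: l), lt_reverse, str,
      min_comm, h.symm]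
    rfl

theorem le_str_short (h : Wt om) (a b : V) {l : List V} (hl : l.length ≤ 1) :
    om a b ≤ str om l := by
  match l, hl with
  | [], _ => exact om_le_base h a b
  | [_], _ => exact om_le_base h a b

/-- the facts about the cut -/
theorem pre_suf (h : Wt om) {l : List V} (hl : 2 ≤ l.length) :
    pre om l ++ suf om l = l ∧ pre om l ≠ [] ∧ suf om l ≠ [] ∧ (pre om l).length = spl om l ∧
      om (lt (pre om l)) (hd (suf om l)) = str om l ∧
      str om l ≤ str om (pre om l) ∧ str om l ≤ str om (suf om l) := by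
  obtain ⟨h1, h2, h3⟩ := spl_spec h hl
  have e1 : pre om l ++ suf om l = l := List.take_append_drop _ _
  have e4 : (pre om l).length = spl om l := by rw [pre, List.length_take]; omega
  have e2 : pre om l ≠ [] := List.length_pos_iff.1 (by omega)
  have e3 : suf om l ≠ [] := List.length_pos_iff.1 (by rw [suf, List.length_drop]; omega)
  have e5 := str_append h e2 e3
  rw [e1] at e5
  refine ⟨e1, e2, e3, e4, h3, ?_, ?_⟩
  · rw [e5]; exact min_le_left _ _
  · rw [e5]; exact (min_le_right _ _).trans (min_le_right _ _)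

end Vale.Agent.P308
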