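import Vale.Agent.P308.Lists

/-!
Listed cycles and odd paths: existence, uniqueness, description of the exchanges.
-/

set_option linter.unusedSectionVars false

namespace Vale.Agent.P308

open Finset

variable {V : Type} [Fintype V] [DecidableEq V] [Inhabited V] {om : V → V → ℝ} {κ : ℝ}

theorem Cy.bst {p : PM V × PM V} {l : List V} (h : Cy p l) : Bst p.2 l := ⟨h.b, h.c⟩

theorem Cy.two {p : PM V × PM V} {l : List V} (h : Cy p l) : 2 ≤ l.length :=
  two_le_of_even h.ev h.ne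

theorem Od.ne {p : PM V × PM V} {l : List V} (h : Od p l) : l ≠ [] := ne_nil_of_odd h.od

theorem Cy.fst_mem {p : PM V × PM V} {l : List V} (h : Cy p l) {x : V} (hx : x ∈ l) :
    p.1.f x ∈ l := prs_mem_even h.ev h.a hx

theorem Cy.snd_mem {p : PM V × PM V} {l : List V} (h : Cy p l) {x : V} (hx : x ∈ l) :
    p.2.f x ∈ l := bst_mem h.nd h.ev h.bst hx

theorem Cy.cl {p : PM V × PM V} {l : List V} (h : Cy p l) : Cl p l.toFinset := fun _ hx =>
  ⟨List.mem_toFinset.2 (h.fst_mem (List.mem_toFinset.1 hx)),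
    List.mem_toFinset.2 (h.snd_mem (List.mem_toFinset.1 hx))⟩

theorem path_subset {S : Finset V} : ∀ (l : List V) (p : PM V × PM V), Cl p S → Prs p.1 l →
    Prs p.2 l.tail → hd l ∈ S → ∀ x ∈ l, x ∈ S
  | [], _, _, _, _, _, x, hx => by simp at hx
  | [a], _, _, _, _, h, x, hx => by rw [List.mem_singleton.1 hx]; exact h
  | a :: b :: l, p, hc, ha, hb, h, x, hx => by
    rcases List.mem_cons.1 hx with rfl | hx
    · exact h
    · refine path_subset (b :: l) p.swap hc.swap hb ha.2 ?_ x hx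
      rw [hd_cons, ← ha.1]
      exact (hc a h).1

theorem Cy.cyc_eq {p : PM V × PM V} {l : List V} (h : Cy p l) {v : V} (hv : v ∈ l) :
    cyc p v = l.toFinset := by
  have h1 := path_subset l p (cl_cyc p (hd l)) h.a h.b (self_mem_cyc p _)
  refine Subset.antisymm (cyc_subset h.cl (List.mem_toFinset.2 hv)) fun x hx => ?_
  rw [cyc_eq_of_mem (h1 v hv)]
  exact h1 x (List.mem_toFinset.1 hx)

theorem exists_cy_aux (p : PM V × PM V) : ∀ (k : ℕ) (l : List V), l.Nodup → l ≠ [] →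
    Even l.length → Prs p.1 l → Prs p.2 l.tail → Fintype.card V ≤ l.length + k →
    ∃ l', Cy p l' ∧ hd l' = hd l := by
  intro k
  induction k with
  | zero =>
    intro l hn hl he ha hb hk
    by_cases hy : p.2.f (lt l) = hd l
    · exact ⟨l, ⟨hn, hl, he, ha, hb, hy⟩, rfl⟩
    exfalso
    have h1 : p.2.f (lt l) ∉ l := fun hm =>
      (prs_mem_tail hn he hb hm hy (p.2.ne _)).2.2 (p.2.inv _)
    have h2 := (List.nodup_cons.2 ⟨h1, hn⟩).length_le_card
    rw [List.length_cons] at h2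
    omega
  | succ k ih =>
    intro l hn hl he ha hb hk
    by_cases hy : p.2.f (lt l) = hd l
    · exact ⟨l, ⟨hn, hl, he, ha, hb, hy⟩, rfl⟩
    have h1 : p.2.f (lt l) ∉ l := fun hm =>
      (prs_mem_tail hn he hb hm hy (p.2.ne _)).2.2 (p.2.inv _)
    have h2 : p.1.f (p.2.f (lt l)) ∉ l :=
      notMem_of_closed (fun x hx => prs_mem_even he ha hx) h1
    have k1 : (l ++ [p.2.f (lt l), p.1.f (p.2.f (lt l))]).Nodup := by
      rw [List.nodup_append]
      refine ⟨hn, by simp [(p.1.ne _).symm], fun a ha b hb => ?_⟩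
      simp only [List.mem_cons, List.not_mem_nil, or_false] at hb
      rcases hb with rfl | rfl
      · exact fun e => h1 (e ▸ ha)
      · exact fun e => h2 (e ▸ ha)
    obtain ⟨l', h3, h4⟩ := ih (l ++ [p.2.f (lt l), p.1.f (p.2.f (lt l))]) k1 (by simp)
      (by rw [List.length_append]; exact he.add (by simp))
      (by rw [prs_append_even _ he]; exact ⟨ha, rfl, trivial⟩)
      (by rw [prs_tail_append_even _ he hl (by simp)]; exact ⟨hb, rfl, trivial⟩)
      (by rw [List.length_append]; simp only [List.length_cons, List.length_nil]; omega)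
    exact ⟨l', h3, h4.trans (hd_append hl _)⟩

theorem exists_cy (p : PM V × PM V) (v : V) : ∃ l, Cy p l ∧ hd l = v :=
  exists_cy_aux p (Fintype.card V) [v, p.1.f v] (by simp [(p.1.ne v).symm]) (by simp) (by simp)
    ⟨rfl, trivial⟩ trivial (by omega)

theorem path_unique_aux : ∀ (l l' : List V) (p : PM V × PM V), l.Nodup → l'.Nodup → l ≠ [] →
    l' ≠ [] → Prs p.1 l → Prs p.2 l.tail → Prs p.1 l' → Prs p.2 l'.tail → hd l = hd l' →
    lt l = lt l' → l = l'
  | [], _, _, _, _, h, _, _, _, _, _, _, _ => absurd rfl h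
  | _ :: _, [], _, _, _, _, h, _, _, _, _, _, _ => absurd rfl h
  | [a], [b], _, _, _, _, _, _, _, _, _, h, _ => by rw [show a = b from h]
  | [a], b :: c :: l', _, _, hn', _, _, _, _, _, _, h1, h2 =>
    absurd (h1.symm.trans h2) (hd_ne_lt hn' (by simp))
  | a :: c :: l, [b], _, hn, _, _, _, _, _, _, _, h1, h2 =>
    absurd (h1.trans h2.symm) (hd_ne_lt hn (by simp))
  | a :: b :: l, a' :: b' :: l', p, hn, hn', _, _, ha, hb, ha', hb', h1, h2 => by
    have e1 : a = a' := h1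
    have e2 : b = b' := by rw [← ha.1, ← ha'.1, e1]
    rw [e1, path_unique_aux (b :: l) (b' :: l') p.swap hn.of_cons hn'.of_cons (by simp) (by simp)
      hb ha.2 hb' ha'.2 e2 h2]

theorem path_unique {p : PM V × PM V} {l l' : List V} (hn : l.Nodup) (hn' : l'.Nodup)
    (hl : l ≠ []) (hl' : l' ≠ []) (ha : Prs p.1 l) (hb : Prs p.2 l.tail) (ha' : Prs p.1 l')
    (hb' : Prs p.2 l'.tail) (h1 : hd l = hd l') (h2 : lt l = lt l') : l = l' :=
  path_unique_aux l l' p hn hn' hl hl' ha hb ha' hb' h1 h2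

theorem Cy.unique {p : PM V × PM V} {l l' : List V} (h : Cy p l) (h' : Cy p l')
    (h1 : hd l = hd l') : l = l' :=
  path_unique h.nd h'.nd h.ne h'.ne h.a h.b h'.a h'.b h1
    (p.2.inj (by rw [h.c, h'.c, h1]))

theorem Od.unique {p : PM V × PM V} {l l' : List V} (h : Od p l) (h' : Od p l')
    (h1 : hd l = hd l') (h2 : lt l = lt l') : l = l' :=
  path_unique (p := p.swap) h.nd h'.nd h.ne h'.ne h.b h.a h'.b h'.a h1 h2

theorem Dom.unique {p : PM V × PM V} {l l' : List V} (h : Dom om p l) (h' : Dom om p l')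
    (h1 : hd l = hd l') (h2 : lt l = lt l') : l = l' :=
  path_unique h.nd h'.nd h.ne h'.ne h.a h.b h'.a h'.b h1 h2

theorem Cy.sig_in {p : PM V × PM V} {l : List V} (h : Cy p l) {v : V} (hv : v ∈ l) {x : V}
    (hx : x ∈ l) : (sig v p).1.f x = p.2.f x ∧ (sig v p).2.f x = p.1.f x := by
  rw [sig_fst, sig_snd, h.cyc_eq hv, if_pos (List.mem_toFinset.2 hx),
    if_pos (List.mem_toFinset.2 hx)]
  exact ⟨rfl, rfl⟩

theorem Cy.sig_out {p : PM V × PM V} {l : List V} (h : Cy p l) {v : V} (hv : v ∈ l) {x : V}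
    (hx : x ∉ l) : (sig v p).1.f x = p.1.f x ∧ (sig v p).2.f x = p.2.f x := by
  rw [sig_fst, sig_snd, h.cyc_eq hv, if_neg (by simpa using hx), if_neg (by simpa using hx)]
  exact ⟨rfl, rfl⟩

theorem Cy.sig_eq {p : PM V × PM V} {l : List V} (h : Cy p l) {v u : V} (hv : v ∈ l)
    (hu : u ∈ l) : sig v p = sig u p :=
  sig_eq_of_mem (by rw [h.cyc_eq hu]; exact List.mem_toFinset.2 hv)

theorem Cy.sig_cy {p : PM V × PM V} {l : List V} (h : Cy p l) {v : V} (hv : v ∈ l) :
    Cy (sig v p).swap l := by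
  have h1 : Bst (sig v p).1 l := bst_congr h.ne (fun x hx => (h.sig_in hv hx).1) h.bst
  exact ⟨h.nd, h.ne, h.ev, prs_congr (fun x hx => (h.sig_in hv hx).2) h.a, h1.1, h1.2⟩

theorem Od.left_notMem {p : PM V × PM V} {l : List V} (h : Od p l) : p.1.f (hd l) ∉ l := fun hm =>
  hd_notMem_tail h.nd (by
    simpa [p.1.inv] using prs_mem_even (even_tail h.od) h.a (mem_tail_of_ne hm (p.1.ne _)))

theorem Od.right_notMem {p : PM V × PM V} {l : List V} (h : Od p l) : p.2.f (lt l) ∉ l := fun hm =>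
  (prs_mem_odd h.nd h.od h.b hm (p.2.ne _)).2 (p.2.inv _)

theorem Od.snd_left_ne {p : PM V × PM V} {l : List V} (h : Od p l) :
    p.2.f (p.1.f (hd l)) ≠ p.2.f (lt l) := fun e =>
  h.left_notMem (p.2.inj e ▸ lt_mem h.ne)

/-- closing an odd path by a switch -/
theorem Od.cy {p : PM V × PM V} {l : List V} (h : Od p l) :
    Cy (sw2 (p.1.f (hd l)) (p.2.f (lt l)) p) (p.1.f (hd l) :: l) := by
  refine ⟨List.nodup_cons.2 ⟨h.left_notMem, h.nd⟩, by simp, ?_, ?_, ?_, ?_⟩
  · rw [List.length_cons]; exact h.od.add_one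
  · rw [← cons_hd_tail h.ne]
    exact ⟨p.1.inv _, h.a⟩
  · refine prs_congr_odd h.nd h.od (fun x hx hx' => p.2.sw_of_ne ?_ ?_ ?_ ?_) h.b
    · exact fun e => h.left_notMem (e ▸ hx)
    · exact fun e => h.right_notMem (e ▸ hx)
    · intro e
      have := (prs_mem_odd h.nd h.od h.b hx hx').1
      rw [e, p.2.inv] at this
      exact h.left_notMem this
    · rwa [p.2.inv]
  · have := p.2.sw_partner' h.snd_left_ne
    rw [p.2.inv] at this
    rw [lt_cons _ h.ne]
    exact this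

/-- description of the exchange along an odd path -/
theorem Od.tau_spec {p : PM V × PM V} {l : List V} (h : Od p l) :
    (∀ x, x ∉ l → x ≠ p.1.f (hd l) → (tauL l p).1.f x = p.1.f x) ∧ Prs (tauL l p).1 l ∧
      (tauL l p).1.f (lt l) = p.1.f (hd l) ∧
      (∀ x, x ∉ l → x ≠ p.2.f (lt l) → (tauL l p).2.f x = p.2.f x) ∧ Prs (tauL l p).2 l.tail ∧
      (tauL l p).2.f (hd l) = p.2.f (lt l) := by
  have hc := h.cy
  have hα := h.left_notMem
  have hβ := h.right_notMem
  have hne := h.snd_left_ne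
  set α := p.1.f (hd l) with hαd
  set β := p.2.f (lt l) with hβd
  have hm : α ∈ α :: l := by simp
  have hcy := hc.sig_cy hm
  set E' := (sig α (sw2 α β p)).2 with hE'
  have e1 : (tauL l p).1 = (sig α (sw2 α β p)).1 := rfl
  have e2 : (tauL l p).2 = E'.sw α β := rfl
  have e3 : E'.f α = hd l := by
    rw [(hc.sig_in hm hm).2]; exact p.1.inv _
  have e4 : E'.f α ≠ β := by rw [e3]; exact fun e => hβ (e ▸ hd_mem h.ne)
  have e5 : ∀ x, x ∉ l → x ≠ α → E'.f x = (p.2.sw α β).f x := fun x h1 h2 =>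
    (hc.sig_out hm (by simp [h1, h2])).2
  refine ⟨fun x h1 h2 => ?_, hcy.b, ?_, fun x h1 h2 => ?_, ?_, ?_⟩
  · rw [e1]; exact (hc.sig_out hm (by simp [h1, h2])).1
  · have := hcy.c
    rwa [lt_cons _ h.ne] at this
  · rw [e2]
    rcases eq_or_ne α β with e | e
    · rw [← e, PM.sw_self, e5 x h1 (by rwa [e]), ← e, PM.sw_self]
    have e6 : E'.f β = p.2.f α := by rw [e5 β hβ e.symm, p.2.sw_right hne]
    by_cases h3 : x = α
    · rw [h3, E'.sw_left e4, e6]
    by_cases h4 : x = p.2.f α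
    · rw [h4, p.2.inv, ← e6, E'.sw_partner' e4]
    rw [E'.sw_of_ne h3 h2 (by rw [e3]; exact fun e => h1 (e ▸ hd_mem h.ne)) (by rwa [e6]),
      e5 x h1 h3, p.2.sw_of_ne h3 h2 h4]
    rw [hβd, p.2.inv]
    exact fun e => h1 (e ▸ lt_mem h.ne)
  · have h0 : Prs E' l.tail := by
      have := hcy.a
      rw [← cons_hd_tail h.ne] at this
      exact this.2
    rw [e2]
    rcases eq_or_ne α β with e | e
    · rw [← e, PM.sw_self]; exact h0
    refine prs_congr (fun x hx => E'.sw_of_ne ?_ ?_ ?_ ?_) h0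
    · exact fun e => hα (e ▸ List.mem_of_mem_tail hx)
    · exact fun e => hβ (e ▸ List.mem_of_mem_tail hx)
    · rw [e3]; exact fun e => hd_notMem_tail h.nd (e ▸ hx)
    · intro e'
      have h5 := prs_mem_even (even_tail h.od) h0 hx
      rw [e', E'.inv] at h5
      exact hβ (List.mem_of_mem_tail h5)
  · rw [e2, ← e3, E'.sw_partner e4]

theorem Od.mu2_tau (hw : Wt om) {p : PM V × PM V} {l : List V} (h : Od p l) :
    mu2 om (tauL l p) * (om (p.1.f (hd l)) (hd l) * om (lt l) (p.2.f (lt l))) ^ 2 =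
      mu2 om p * (om (p.1.f (hd l)) (lt l) * om (hd l) (p.2.f (lt l))) ^ 2 := by
  have hc := h.cy
  have hα := h.left_notMem
  have hβ := h.right_notMem
  have hne := h.snd_left_ne
  have e0 : tauL l p = sw2 (p.1.f (hd l)) (p.2.f (lt l))
    (sig (p.1.f (hd l)) (sw2 (p.1.f (hd l)) (p.2.f (lt l)) p)) := rfl
  rw [e0]
  set α := p.1.f (hd l) with hαd
  set β := p.2.f (lt l) with hβd
  have hm : α ∈ α :: l := by simp
  rcases eq_or_ne α β with e | e
  · rw [← e]
    have : ∀ q : PM V × PM V, sw2 α α q = q := fun q => by simp [sw2]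
    rw [this, this, mu2_sig, hw.symm α (hd l), hw.symm (lt l) α, mul_comm (om (hd l) α)]
  have e1 := mu2_sig (om := om) α (sw2 α β p)
  set E' := (sig α (sw2 α β p)).2 with hE'
  have e3 : E'.f α = hd l := by
    rw [(hc.sig_in hm hm).2]; exact p.1.inv _
  have e4 : E'.f α ≠ β := by rw [e3]; exact fun e => hβ (e ▸ hd_mem h.ne)
  have e6 : E'.f β = p.2.f α := by
    rw [(hc.sig_out hm (x := β) (by simp [hβ, e.symm])).2]
    exact p.2.sw_right hne
  have k1 := mu_sw hw p.2 e hne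
  have k2 := mu_sw hw E' e e4
  rw [e3, e6] at k2
  rw [show p.2.f β = lt l from p.2.inv _] at k1
  unfold mu2 at e1 ⊢
  simp only [sw2] at e1 ⊢
  rw [hw.symm α (hd l), hw.symm α (lt l)]
  have hpos : (om (p.2.f α) β * om (p.2.f α) α) ^ 2 ≠ 0 :=
    (pow_pos (mul_pos (hw.pos _ _) (hw.pos _ _)) 2).ne'
  apply mul_right_cancel₀ hpos
  change mu om (sig α (sw2 α β p)).1 * mu om E' = _ at e1
  change mu om (sig α (sw2 α β p)).1 * mu om (E'.sw α β) * _ * _ = _
  linear_combination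
    (mu om (sig α (sw2 α β p)).1 * (om (p.2.f α) α * om (lt l) β) ^ 2) * k2 +
      ((om (hd l) β * om (p.2.f α) α) ^ 2 * (om (p.2.f α) α * om (lt l) β) ^ 2) * e1 +
      (mu om p.1 * (om (hd l) β * om (p.2.f α) α) ^ 2) * k1

/-! ### counting lists -/

theorem card_le_of_inj {α β : Type*} [Fintype β] (s : Finset α) (φ : α → β)
    (h : ∀ a ∈ s, ∀ b ∈ s, φ a = φ b → a = b) : s.card ≤ Fintype.card β := by
  classical
  rw [← card_univ]
  exact card_le_card_of_injOn φ (fun _ _ => mem_coe.2 (mem_univ _)) fun a ha b hb e => h a ha b hb e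

theorem one_le_XX (h : Hyp om κ) : (Fintype.card V : ℝ) ≤ XX V κ ∧ 1 / κ ≤ XX V κ ∧ 2 ≤ XX V κ := by
  have h2 : (2 : ℝ) ≤ Fintype.card V := by exact_mod_cast h.two
  have h1 : (Fintype.card V : ℝ) ≤ XX V κ := by
    rw [XX, le_div_iff₀ h.pos]
    nlinarith [h.le]
  exact ⟨h1, div_le_div_of_nonneg_right (by linarith) h.pos.le, h2.trans h1⟩

/-- `v ^ a / κ ^ b ≤ X ^ b` for `a ≤ b` -/
theorem pow_div_le_XX (h : Hyp om κ) {a b : ℕ} (hab : a ≤ b) :
    (Fintype.card V : ℝ) ^ a / κ ^ b ≤ XX V κ ^ b := by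
  have h2 : (2 : ℝ) ≤ Fintype.card V := by exact_mod_cast h.two
  rw [XX, div_pow]
  exact div_le_div_of_nonneg_right (pow_le_pow_right₀ (by linarith) hab) (pow_pos h.pos b).le

theorem str_cons_le (a : V) {l : List V} (hl : l ≠ []) : str om (a :: l) ≤ om a (hd l) := by
  rw [str_cons a hl]; exact min_le_left _ _

theorem str_concat_le (h : Wt om) {l : List V} (hl : l ≠ []) (a : V) :
    str om (l ++ [a]) ≤ om (lt l) a := by
  rw [str_concat h hl]; exact min_le_right _ _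

theorem wb_nonneg (h : Wt om) (p : PM V × PM V) (l : List V) : 0 ≤ wb om p l :=
  mul_nonneg (mul_nonneg (mu2_pos h p).le (sq_nonneg _)) (sq_nonneg _)

theorem nb_nonneg (h : Wt om) (p : PM V × PM V) (l : List V) : 0 ≤ nb om p l :=
  mul_nonneg (mu2_pos h p).le (sq_nonneg _)

theorem nb_le (h : Wt om) (p : PM V × PM V) {l : List V} (hl : l ≠ []) : nb om p l ≤ mu2 om p := by
  refine mul_le_of_le_one_right (mu2_pos h p).le (pow_le_one₀ ?_ ?_)
  · exact div_nonneg (str_pos h _).le (h.pos _ _).le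
  · exact (div_le_one (h.pos _ _)).2 (str_cons_le _ hl)

theorem SV_nonneg (h : Wt om) (f : PM V → ℝ) : 0 ≤ SV om f :=
  sum_nonneg fun _ _ => mul_nonneg (mu2_pos h _).le (sq_nonneg _)

theorem SO_nonneg (h : Wt om) (f : PM V → ℝ) : 0 ≤ SO om f :=
  sum_nonneg fun _ _ => mul_nonneg (wb_nonneg h _ _) (sq_nonneg _)

theorem SA_nonneg (h : Wt om) (f : PM V → ℝ) : 0 ≤ SA om f :=
  sum_nonneg fun _ _ => mul_nonneg (nb_nonneg h _ _) (sq_nonneg _)

end Vale.Agent.P308
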