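import Vale.Agent.P308.Unif
import Vale.Agent.P308.ADefs

/-!
The law of the first population.
-/

namespace Vale.Agent.P308

open Finset Vale.Agent.Lib.PTM Vale.Agent.Lib.PolyTime

theorem M0_val (n : ℕ) (x : Fin (2 * n)) : ((M0 n).f x).val = mate x.val := rfl

open Classical in
/-- the matchings which agree with the standard matching from `2 j` on -/
noncomputable def VV (n j : ℕ) : Finset (PM (Fin (2 * n))) :=
  univ.filter fun M => ∀ x : Fin (2 * n), 2 * j ≤ x.val → (M.f x).val = mate x.val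

theorem mem_VV {n j : ℕ} {M : PM (Fin (2 * n))} : M ∈ VV n j ↔
    ∀ x : Fin (2 * n), 2 * j ≤ x.val → (M.f x).val = mate x.val := by
  simp [VV]

theorem VV_zero (n : ℕ) : VV n 0 = {M0 n} := by
  ext M
  rw [mem_VV, mem_singleton]
  constructor
  · intro h
    ext x
    rw [h x (by omega), M0_val]
  · rintro rfl x -
    rfl

theorem VV_self (n : ℕ) : VV n n = univ := by
  ext M
  simp only [mem_VV, mem_univ, iff_true]
  intro x hx
  omega

theorem swN_eq {n j r : ℕ} (hj : j < n) (hr : r < 2 * j + 1) (M : PM (Fin (2 * n))) :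
    swN (2 * j) r M = M.sw ⟨2 * j, by omega⟩ ⟨r, by omega⟩ := by
  unfold swN
  rw [dif_pos ⟨by omega, by omega⟩]

theorem swN_mem_VV {n j r : ℕ} (hj : j < n) (hr : r < 2 * j + 1) {M : PM (Fin (2 * n))}
    (hM : M ∈ VV n (j + 1)) : swN (2 * j) r M ∈ VV n (j + 1) := by
  rw [mem_VV] at hM ⊢
  intro x h1
  have h3 := hM x h1
  have h4 : 2 * (j + 1) ≤ mate x.val := by unfold mate; split_ifs <;> omega
  have e1 : Equiv.swap (⟨2 * j, by omega⟩ : Fin (2 * n)) ⟨r, by omega⟩ x = x :=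
    Equiv.swap_apply_of_ne_of_ne (Fin.ne_of_val_ne (by simp only; omega))
      (Fin.ne_of_val_ne (by simp only; omega))
  have e2 : Equiv.swap (⟨2 * j, by omega⟩ : Fin (2 * n)) ⟨r, by omega⟩ (M.f x) = M.f x :=
    Equiv.swap_apply_of_ne_of_ne (Fin.ne_of_val_ne (by simp only; omega))
      (Fin.ne_of_val_ne (by simp only; omega))
  rw [swN_eq hj hr, PM.sw_f, e1, e2, h3]

theorem swN_apply_odd {n j r : ℕ} (hj : j < n) (hr : r < 2 * j + 1) (M : PM (Fin (2 * n))) :
    (swN (2 * j) r M).f ⟨2 * j + 1, by omega⟩ =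
      Equiv.swap ⟨2 * j, by omega⟩ ⟨r, by omega⟩ (M.f ⟨2 * j + 1, by omega⟩) := by
  have e1 : Equiv.swap (⟨2 * j, by omega⟩ : Fin (2 * n)) ⟨r, by omega⟩ ⟨2 * j + 1, by omega⟩ =
      ⟨2 * j + 1, by omega⟩ :=
    Equiv.swap_apply_of_ne_of_ne (Fin.ne_of_val_ne (by simp only; omega))
      (Fin.ne_of_val_ne (by simp only; omega))
  rw [swN_eq hj hr, PM.sw_f, e1]

theorem mem_VV_iff {n j : ℕ} (hj : j < n) {M : PM (Fin (2 * n))} :
    M ∈ VV n j ↔ M ∈ VV n (j + 1) ∧ M.f ⟨2 * j + 1, by omega⟩ = ⟨2 * j, by omega⟩ := by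
  rw [mem_VV, mem_VV]
  constructor
  · intro h
    refine ⟨fun x h1 => h x (by omega), Fin.ext ?_⟩
    rw [h ⟨2 * j + 1, by omega⟩ (by simp only; omega)]
    simp only [mate]
    split_ifs <;> omega
  · rintro ⟨h, h'⟩ x h1
    by_cases h3 : 2 * (j + 1) ≤ x.val
    · exact h x h3
    by_cases h4 : x.val = 2 * j
    · have : x = ⟨2 * j, by omega⟩ := Fin.ext h4
      rw [this, M.eq_comm.1 h']
      simp only [mate]
      split_ifs <;> omega
    · have : x = ⟨2 * j + 1, by omega⟩ := Fin.ext (by simp only; omega)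
      rw [this, h']
      simp only [mate]
      split_ifs <;> omega

theorem partner_lt {n j : ℕ} (hj : j < n) {M : PM (Fin (2 * n))} (hM : M ∈ VV n (j + 1)) :
    (M.f ⟨2 * j + 1, by omega⟩).val < 2 * j + 1 := by
  rw [mem_VV] at hM
  by_contra hc
  set r := M.f ⟨2 * j + 1, by omega⟩ with hr
  have h0 : r.val ≠ 2 * j + 1 := fun h => M.ne ⟨2 * j + 1, by omega⟩ (Fin.ext h)
  have h1 : M.f r = ⟨2 * j + 1, by omega⟩ := M.inv _
  have h2 := hM r (by omega)
  rw [h1] at h2
  simp only [mate] at h2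
  split_ifs at h2 <;> omega

theorem swN_swN {v : ℕ} (x y : ℕ) (M : PM (Fin v)) : swN x y (swN x y M) = M := by
  unfold swN
  split_ifs
  · exact M.sw_sw _ _
  · rfl

theorem sum_VV {n j : ℕ} (hj : j < n) {β : Type} [AddCommMonoid β] (g : PM (Fin (2 * n)) → β) :
    ∑ M ∈ VV n (j + 1), g M = ∑ M ∈ VV n j, ∑ r ∈ range (2 * j + 1), g (swN (2 * j) r M) := by
  rw [← Finset.sum_product']
  refine Finset.sum_nbij'
    (fun M => (swN (2 * j) (M.f ⟨2 * j + 1, by omega⟩).val M, (M.f ⟨2 * j + 1, by omega⟩).val))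
    (fun p => swN (2 * j) p.2 p.1) (fun M hM => ?_) (fun p hp => ?_)
    (fun M _ => swN_swN _ _ M) (fun p hp => ?_) fun M _ => by rw [swN_swN]
  · have h := partner_lt hj hM
    refine mem_product.2 ⟨(mem_VV_iff hj).2 ⟨swN_mem_VV hj h hM, ?_⟩, mem_range.2 h⟩
    rw [swN_apply_odd hj h]
    exact Equiv.swap_apply_right _ _
  · obtain ⟨h1, h2⟩ := mem_product.1 hp
    exact swN_mem_VV hj (mem_range.1 h2) ((mem_VV_iff hj).1 h1).1
  · obtain ⟨h1, h2⟩ := mem_product.1 hp
    have h3 : ((swN (2 * j) p.2 p.1).f ⟨2 * j + 1, by omega⟩).val = p.2 := by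
      rw [swN_apply_odd hj (mem_range.1 h2), ((mem_VV_iff hj).1 h1).2, Equiv.swap_apply_left]
    simp only [h3, swN_swN]

theorem card_VV_succ {n j : ℕ} (hj : j < n) :
    (VV n (j + 1)).card = (VV n j).card * (2 * j + 1) := by
  have h := sum_VV hj (fun _ => (1 : ℕ))
  simpa only [sum_const, card_range, smul_eq_mul, mul_one] using h

theorem init_foldr (n K : ℕ) (hK : 2 * n ≤ 2 ^ K) {j : ℕ} (hj : j ≤ n)
    (g : PM (Fin (2 * n)) → ℝ) (hg : ∀ M, 0 ≤ g M) :
    (1 - (2 * n : ℝ) / 2 ^ K) ^ j * ((∑ M ∈ VV n j, g M) / (VV n j).card) ≤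
      (List.range j).foldr
        (fun x g => op K (fun M ρ => swN (2 * x) (val ρ % (2 * x + 1)) M) g) g (M0 n) := by
  have h2 : (0 : ℝ) < 2 ^ K := by positivity
  have hc : 0 ≤ 1 - (2 * n : ℝ) / 2 ^ K := by
    rw [sub_nonneg, div_le_one h2]
    exact_mod_cast hK
  induction j generalizing g with
  | zero => simp [VV_zero]
  | succ j ih =>
    rw [List.range_succ, List.foldr_append, List.foldr_cons, List.foldr_nil]
    refine le_trans ?_ (ih (by omega) _ fun M => Ex_nonneg fun _ => hg _)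
    rw [pow_succ, mul_assoc]
    refine mul_le_mul_of_nonneg_left ?_ (pow_nonneg hc _)
    rw [sum_VV (by omega), card_VV_succ (by omega), Nat.cast_mul,
      mul_comm ((VV n j).card : ℝ), ← div_div, sum_div, ← mul_div_assoc, mul_sum]
    refine div_le_div_of_nonneg_right (sum_le_sum fun M _ => ?_) (Nat.cast_nonneg _)
    have h3 := Ex_mod (K := K) (m := K) (k := 2 * j + 1) le_rfl (by omega)
      (F := fun r => g (swN (2 * j) r M)) fun _ => hg _
    refine le_trans ?_ (h3.trans (Ex_congr fun ρ hρ => ?_).le)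
    · refine mul_le_mul_of_nonneg_right ?_
        (div_nonneg (sum_nonneg fun _ _ => hg _) (Nat.cast_nonneg _))
      have : ((2 * j + 1 : ℕ) : ℝ) ≤ 2 * n := by exact_mod_cast (by omega : 2 * j + 1 ≤ 2 * n)
      gcongr
    · rw [List.take_of_length_le hρ.le]

theorem init_law (n K m : ℕ) (hK : 2 * n ≤ 2 ^ K) (hm : n * K ≤ m) (g : PM (Fin (2 * n)) → ℝ)
    (hg : ∀ M, 0 ≤ g M) :
    (1 - (2 * n : ℝ) / 2 ^ K) ^ n * ((∑ M, g M) / Fintype.card (PM (Fin (2 * n)))) ≤
      Ex m fun ρ => g (initA n K ρ) := by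
  have h := init_foldr n K hK le_rfl g hg
  rw [VV_self, card_univ] at h
  unfold initA
  rw [Ex_runL K _ g _ _ (by rwa [List.length_range])]
  exact h

theorem popA_succ (n K N : ℕ) (ρ : List Bool) : popA n K (N + 1) ρ =
    Fin.cons (initA n K (ρ.take (n * K))) (popA n K N (ρ.drop (n * K))) := by
  funext i
  refine Fin.cases ?_ (fun i => ?_) i
  · simp [popA, blk]
  · simp only [popA, blk, Fin.cons_succ, Fin.val_succ, List.drop_drop]
    rw [show n * K + i.val * (n * K) = (i.val + 1) * (n * K) by ring]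

theorem pop_law (n K N : ℕ) (hK : 2 * n ≤ 2 ^ K) (G : (Fin N → PM (Fin (2 * n))) → ℝ)
    (hG : ∀ x, 0 ≤ G x) :
    (1 - (2 * n : ℝ) / 2 ^ K) ^ (n * N) *
        ∑ x, pw (fun _ => 1 / (Fintype.card (PM (Fin (2 * n))) : ℝ)) x * G x ≤
      Ex (N * (n * K)) fun ρ => G (popA n K N ρ) := by
  have h2 : (0 : ℝ) < 2 ^ K := by positivity
  have hc : 0 ≤ 1 - (2 * n : ℝ) / 2 ^ K := by
    rw [sub_nonneg, div_le_one h2]
    exact_mod_cast hK
  induction N with
  | zero =>
    simp only [mul_zero, pow_zero, one_mul, zero_mul, univ_unique, sum_singleton, pw,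
      univ_eq_empty, prod_empty, Ex]
    exact le_of_eq (congrArg G (Subsingleton.elim _ _))
  | succ N ih =>
    have hpw : ∀ x : Fin N → PM (Fin (2 * n)),
        0 ≤ pw (fun _ => 1 / (Fintype.card (PM (Fin (2 * n))) : ℝ)) x :=
      fun x => prod_nonneg fun _ _ => by positivity
    simp only [popA_succ]
    rw [show (N + 1) * (n * K) = n * K + N * (n * K) by ring,
      Ex_split (n * K) (N * (n * K)) fun x y => G (Fin.cons (initA n K x) (popA n K N y))]
    refine le_trans ?_ (Ex_mono fun x _ =>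
      ih (fun X => G (Fin.cons (initA n K x) X)) fun _ => hG _)
    refine le_trans (le_of_eq ?_) (init_law n K (n * K) hK le_rfl
      (fun M => (1 - (2 * n : ℝ) / 2 ^ K) ^ (n * N) *
        ∑ X, pw (fun _ => 1 / (Fintype.card (PM (Fin (2 * n))) : ℝ)) X * G (Fin.cons M X))
      fun M => mul_nonneg (pow_nonneg hc _) (sum_nonneg fun X _ => mul_nonneg (hpw X) (hG _)))
    rw [← (Fin.consEquiv fun _ : Fin (N + 1) => PM (Fin (2 * n))).sum_comp, Fintype.sum_prod_type,
      ← mul_sum]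
    generalize (1 - (2 * n : ℝ) / 2 ^ K) = c
    rw [mul_div_assoc, ← mul_assoc, ← pow_add, show n + n * N = n * (N + 1) by ring, sum_div]
    congr 1
    refine sum_congr rfl fun M _ => ?_
    rw [sum_div]
    refine sum_congr rfl fun X _ => ?_
    have he : (Fin.consEquiv fun _ : Fin (N + 1) => PM (Fin (2 * n))) (M, X) = Fin.cons M X := rfl
    rw [he]
    simp only [pw, prod_const, card_univ, Fintype.card_fin, pow_succ]
    ring

end Vale.Agent.P308
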