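import Vale.Agent.P308.ChainLaw
import Vale.Agent.P308.UnifLaw
import Vale.Agent.P308.Many

/-!
The accuracy of one thread.
-/

namespace Vale.Agent.P308

open Finset Vale.Agent.Lib.PTM Vale.Agent.Lib.PolyTime

theorem PP_nonneg {Ω : Type} [Fintype Ω] [DecidableEq Ω] {K : Ω × Ω → Ω × Ω → ℝ}
    (hK : ∀ p q, 0 ≤ K p q) {N : ℕ} {F : (Fin N → Ω) → ℝ} (hF : ∀ x, 0 ≤ F x) (x : Fin N → Ω) :
    0 ≤ PP K N F x := by
  refine div_nonneg (sum_nonneg fun i _ => sum_nonneg fun j _ => ?_) (sq_nonneg _)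
  split_ifs
  · exact hF x
  · exact sum_nonneg fun q _ => mul_nonneg (hK _ _) (hF _)

theorem ops_nonneg {Ω σ : Type} [Fintype Ω] [DecidableEq Ω] {K : σ → Ω × Ω → Ω × Ω → ℝ}
    {N : ℕ} (t : ℕ) {G : (Fin N → Ω) → ℝ} (hG : ∀ x, 0 ≤ G x) :
    ∀ hist : List σ, (∀ c ∈ hist, ∀ p q, 0 ≤ K c p q) → ∀ x, 0 ≤ ops K N t hist G x
  | [], _ => hG
  | c :: rest, hg => by
    have h1 := ops_nonneg t hG rest fun c' h' => hg c' (List.mem_cons_of_mem _ h')
    change ∀ x, 0 ≤ (PP (K c) N)^[t] (ops K N t rest G) x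
    generalize ops K N t rest G = F at h1
    induction t with
    | zero => exact h1
    | succ t ih =>
      rw [Function.iterate_succ_apply']
      exact PP_nonneg (hg c List.mem_cons_self) ih

/-- two sided form of the law of the first population -/
theorem pop_law_abs (n K N : ℕ) (hK : 2 * n ≤ 2 ^ K) (H : (Fin N → PM (Fin (2 * n))) → ℝ)
    (hH0 : ∀ x, 0 ≤ H x) (hH : ∀ x, H x ≤ 1) :
    |(Ex (N * (n * K)) fun ρ => H (popA n K N ρ)) -
        ∑ x, pw (fun _ => 1 / (Fintype.card (PM (Fin (2 * n))) : ℝ)) x * H x| ≤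
      (n * N) * (2 * n / 2 ^ K) := by
  have h2 : (0 : ℝ) < 2 ^ K := by positivity
  have hc : (2 * n : ℝ) / 2 ^ K ≤ 1 := by
    rw [div_le_one h2]; exact_mod_cast hK
  have hcard : (0 : ℝ) < Fintype.card (PM (Fin (2 * n))) := by
    have : Nonempty (PM (Fin (2 * n))) := ⟨M0 n⟩
    exact_mod_cast Fintype.card_pos
  have p1 := pop_law n K N hK H hH0
  have p2 := pop_law n K N hK (fun x => 1 - H x) fun x => by linarith [hH x]
  rw [Ex_sub, Ex_const] at p2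
  have s1 : ∑ x : Fin N → PM (Fin (2 * n)),
      pw (fun _ => 1 / (Fintype.card (PM (Fin (2 * n))) : ℝ)) x = 1 := by
    rw [MB.sum_pw]
    simp only [sum_const, card_univ, nsmul_eq_mul]
    rw [mul_one_div_cancel hcard.ne', one_pow]
  have w0 : ∀ x : Fin N → PM (Fin (2 * n)),
      0 ≤ pw (fun _ => 1 / (Fintype.card (PM (Fin (2 * n))) : ℝ)) x :=
    fun x => prod_nonneg fun _ _ => by positivity
  have u0 : 0 ≤ ∑ x, pw (fun _ => 1 / (Fintype.card (PM (Fin (2 * n))) : ℝ)) x * H x :=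
    sum_nonneg fun x _ => mul_nonneg (w0 x) (hH0 x)
  have u1 : ∑ x, pw (fun _ => 1 / (Fintype.card (PM (Fin (2 * n))) : ℝ)) x * H x ≤ 1 :=
    le_trans (sum_le_sum fun x _ => mul_le_of_le_one_right (w0 x) (hH x)) s1.le
  simp only [mul_sub, mul_one, sum_sub_distrib, s1] at p2
  have b1 : 1 - (n * N : ℕ) * ((2 * n : ℝ) / 2 ^ K) ≤ (1 - (2 * n : ℝ) / 2 ^ K) ^ (n * N) := by
    have := one_add_mul_le_pow (a := -((2 * n : ℝ) / 2 ^ K)) (by linarith) (n * N)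
    rwa [mul_neg, ← sub_eq_add_neg, ← sub_eq_add_neg] at this
  have b2 : (1 - (2 * n : ℝ) / 2 ^ K) ^ (n * N) ≤ 1 :=
    pow_le_one₀ (by linarith) (by have : 0 ≤ (2 * n : ℝ) / 2 ^ K := by positivity
                                  linarith)
  rw [Nat.cast_mul] at b1
  generalize (1 - (2 * n : ℝ) / 2 ^ K) ^ (n * N) = s at *
  generalize (n : ℝ) * N * ((2 * n : ℝ) / 2 ^ K) = e at *
  generalize ∑ x, pw (fun _ => 1 / (Fintype.card (PM (Fin (2 * n))) : ℝ)) x * H x = U at *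
  rw [abs_le]
  constructor <;> nlinarith

/-- the first particle of a thread is nearly distributed like the last Gibbs distribution -/
theorem thr_acc {n K a k b C t B m D : ℕ} (hK : 2 * n ≤ 2 ^ K) (hk : 2 * n ≤ 2 ^ k) (hb : 0 < b)
    (hD : D = 2 ^ b) {hist : List (Fin (2 * n) → Fin (2 * n) → ℕ)}
    (hc : ∀ c ∈ hist, ∀ x y, c x y ≤ C) (hB : 2 * a + 2 + 2 * k + b * (2 * n * C) ≤ B) {N : ℕ}
    (hN : N = 2 ^ a) (hm : N * (n * K) + hist.length * (t * B) ≤ m) {γ η : ℝ} (hγ : γ ≤ 1)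
    (hγN : 6 ≤ γ * N) (hη : 0 ≤ η) (hNη : N * η ^ 2 ≤ 1) {T : ℕ}
    {c₁ : Fin (2 * n) → Fin (2 * n) → ℕ} (h0 : hist.head? = some fun _ _ => T)
    (h1 : hist.getLast? = some c₁)
    (hg : ∀ c ∈ hist, Good (mu (omc (((D : ℝ) - 1) / D) c))
      (KK (omc (((D : ℝ) - 1) / D) c) (1 / 2 ^ k)) γ)
    (hch : hist.IsChain fun c c' =>
      Close η (mu (omc (((D : ℝ) - 1) / D) c)) (mu (omc (((D : ℝ) - 1) / D) c')))
    (i : Fin N) (g : PM (Fin (2 * n)) → ℝ) (hg0 : ∀ M, 0 ≤ g M)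
    (hg2 : ∀ M, g M ≤ 1) :
    |(Ex m fun ρ => g (thrA n K N a k b t B hist ρ i)) -
        ∑ M, mu (omc (((D : ℝ) - 1) / D) c₁) M * g M| ≤
      hist.length * stErr2 γ η N t + (n * N) * (2 * n / 2 ^ K) := by
  have hN0 : 0 < N := i.pos
  have hg1 : ∀ M, |g M| ≤ 1 := fun M => abs_le.2 ⟨by linarith [hg0 M], hg2 M⟩
  have h2b : (1 : ℝ) < D := by
    rw [hD]; push_cast; exact one_lt_pow₀ one_lt_two hb.ne'
  have q0 : 0 < ((D : ℝ) - 1) / D := div_pos (by linarith) (by linarith)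
  have hcard : (0 : ℝ) < Fintype.card (PM (Fin (2 * n))) := by
    have : Nonempty (PM (Fin (2 * n))) := ⟨M0 n⟩
    exact_mod_cast Fintype.card_pos
  rw [thr_law hk hb hD hc hB hN hm fun X => g (X i)]
  have e1 := pop_law_abs n K N hK _
    (ops_nonneg (K := fun c => KK (omc (((D : ℝ) - 1) / D) c) (1 / 2 ^ k)) t
      (G := fun X => g (X i)) (fun X => hg0 _) hist fun c hc => (hg c hc).nn)
    fun X => (abs_le.1 (ops_abs_le (μ := fun c => mu (omc (((D : ℝ) - 1) / D) c))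
    (K := fun c => KK (omc (((D : ℝ) - 1) / D) c) (1 / 2 ^ k)) hN0 t
    (G := fun X => g (X i)) (fun X => hg1 _) hist hg X)).2
  have hmu : ∀ M : PM (Fin (2 * n)), mu (omc (((D : ℝ) - 1) / D) fun _ _ => T) M =
      1 / (Fintype.card (PM (Fin (2 * n))) : ℝ) := fun M => mu_const (pow_pos q0 T) M
  have e2 := many_stages (μ := fun c => mu (omc (((D : ℝ) - 1) / D) c))
    (K := fun c => KK (omc (((D : ℝ) - 1) / D) c) (1 / 2 ^ k)) hγ hγN hη hNη t hist _ c₁ h0 h1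
    hg hch (ν := fun _ => 1 / (Fintype.card (PM (Fin (2 * n))) : ℝ))
    (by simp only [sum_const, card_univ, nsmul_eq_mul]; exact mul_one_div_cancel hcard.ne')
    (fun M => by rw [hmu, sub_self, abs_zero]; positivity) (fun X => g (X i)) fun X => hg1 _
  rw [pw_marginal (hg c₁ (List.mem_of_getLast? h1)).sum] at e2
  have := abs_sub_le (Ex (N * (n * K)) fun ρ => ops
      (fun c => KK (omc (((D : ℝ) - 1) / D) c) (1 / 2 ^ k)) N t hist (fun X => g (X i))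
      (popA n K N ρ))
    (∑ x, pw (fun _ => 1 / (Fintype.card (PM (Fin (2 * n))) : ℝ)) x * ops
      (fun c => KK (omc (((D : ℝ) - 1) / D) c) (1 / 2 ^ k)) N t hist (fun X => g (X i)) x)
    (∑ M, mu (omc (((D : ℝ) - 1) / D) c₁) M * g M)
  linarith

/-- the form for edge probabilities -/
theorem thread_acc {n K a k b C t B m D : ℕ} (hK : 2 * n ≤ 2 ^ K) (hk : 2 * n ≤ 2 ^ k)
    (hb : 0 < b) (hD : D = 2 ^ b) {hist : List (Fin (2 * n) → Fin (2 * n) → ℕ)}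
    (hc : ∀ c ∈ hist, ∀ x y, c x y ≤ C) (hB : 2 * a + 2 + 2 * k + b * (2 * n * C) ≤ B) {N : ℕ}
    (hN : N = 2 ^ a) (hm : N * (n * K) + hist.length * (t * B) ≤ m) {γ η : ℝ} (hγ : γ ≤ 1)
    (hγN : 6 ≤ γ * N) (hη : 0 ≤ η) (hNη : N * η ^ 2 ≤ 1) {T : ℕ}
    {c₁ : Fin (2 * n) → Fin (2 * n) → ℕ} (h0 : hist.head? = some fun _ _ => T)
    (h1 : hist.getLast? = some c₁)
    (hg : ∀ c ∈ hist, Good (mu (omc (((D : ℝ) - 1) / D) c))
      (KK (omc (((D : ℝ) - 1) / D) c) (1 / 2 ^ k)) γ)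
    (hch : hist.IsChain fun c c' =>
      Close η (mu (omc (((D : ℝ) - 1) / D) c)) (mu (omc (((D : ℝ) - 1) / D) c')))
    (i : Fin N) (x y : Fin (2 * n)) :
    |(Ex m fun ρ => if (thrA n K N a k b t B hist ρ i).f x = y then 1 else 0) -
        xm (omc (((D : ℝ) - 1) / D) c₁) x y| ≤
      hist.length * stErr2 γ η N t + (n * N) * (2 * n / 2 ^ K) := by
  have h := thr_acc hK hk hb hD hc hB hN hm hγ hγN hη hNη h0 h1 hg hch i
    (fun M => if M.f x = y then 1 else 0) (fun M => by split_ifs <;> simp)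
    fun M => by split_ifs <;> simp
  simpa only [xm, mul_ite, mul_one, mul_zero] using h

end Vale.Agent.P308
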