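import Vale.Agent.P308.Comm2
import Vale.Agent.P308.ThreadAcc
import Vale.Agent.P308.Chern
import Vale.Agent.P308.Anneal
import Vale.Agent.P308.KernGood

/-!
The main loop reaches an accurate state with high probability.
-/

namespace Vale.Agent.P308

open Finset Vale.Agent.Lib.PTM Vale.Agent.Lib.PolyTime

/-- the base of the weights -/
noncomputable def Par.q (P : Par) : ℝ := (((2 ^ P.b : ℕ) : ℝ) - 1) / ((2 ^ P.b : ℕ) : ℝ)

/-- the invariant of the main loop -/
def Inv (P : Par) (adj : Fin (2 * P.n) → Fin (2 * P.n) → Bool) (e k : ℕ) (st : St) : Prop :=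
  ∃ (hist : List (Fin (2 * P.n) → Fin (2 * P.n) → ℕ)) (s : AS (Fin (2 * P.n))),
    st = encS hist s ∧ Reach P.ap adj P.q (P.τ e) k s ∧ hist.length = k + 1 ∧
      hist.head? = some (fun _ _ => P.T) ∧ hist.getLast? = some s.c ∧
      (∀ c ∈ hist, (∀ x y, c x y ≤ 2 * P.T) ∧
        Good (mu (omc P.q c)) (KK (omc P.q c) (1 / 2 ^ P.k)) P.γ) ∧
      hist.IsChain fun c c' => Close P.η (mu (omc P.q c)) (mu (omc P.q c'))

variable {P : Par} {e l : ℕ} {adj : Fin (2 * P.n) → Fin (2 * P.n) → Bool} {adjL : List Bool}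

theorem reach_good (h : PCond P e l) (hadj : ∀ x y, adj x y = adj y x) {k : ℕ} (hk : k ≤ P.T)
    {s : AS (Fin (2 * P.n))} (hs : Reach P.ap adj P.q (P.τ e) k s) :
    ((∀ x y, s.c x y ≤ 2 * P.T) ∧
      Good (mu (omc P.q s.c)) (KK (omc P.q s.c) (1 / 2 ^ P.k)) P.γ) ∧
      ∀ cnt, k < P.T → Close P.η (mu (omc P.q s.c)) (mu (omc P.q (astep P.ap adj s cnt).c)) := by
  have h2 := h.hA.v2
  have : Inhabited (Fin (2 * P.n)) := ⟨⟨0, by omega⟩⟩
  have hA : ACond P.ap (Fintype.card (Fin (2 * P.n))) e (2 ^ P.b) (P.τ e) := by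
    rw [Fintype.card_fin]; exact h.hA
  obtain ⟨h3, h4, h5, h6⟩ := reach_facts hA (M0 P.n) hadj hk hs
  have hΘ : (0 : ℝ) < P.Θ := by
    have h7 : P.Θ = 100 * (2 * P.n) ^ 2 * e := h.hA.hΘ
    have := h.hA.e1
    exact_mod_cast (show 0 < P.Θ by rw [h7]; positivity)
  have hk0 : (0 : ℝ) < 2 ^ P.k := by positivity
  have k1 : ((2 * P.n : ℕ) : ℝ) ≤ 2 ^ P.k := by exact_mod_cast h.hk1
  have k2 : (2 : ℝ) ^ P.k ≤ 2 * ((2 * P.n : ℕ) : ℝ) := by exact_mod_cast h.hk2
  have h8 := good_KK (ρ := 1 / 2 ^ P.k) h3 (by positivity) hA.v2 h4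
    (by rw [Fintype.card_fin, one_div_mul_eq_div, div_le_one hk0]; exact k1)
    (by rw [Fintype.card_fin, mul_one_div, div_mul_eq_mul_div, one_le_div hk0]; exact k2)
  rw [Fintype.card_fin] at h6 h8
  exact ⟨⟨h5, h8⟩, h6⟩

theorem inv_zero (h : PCond P e l) (hadj : ∀ x y, adj x y = adj y x) :
    Inv P adj e 0 ([tabL P fun _ _ => P.T], 0, 0, false) := by
  have h1 := (reach_good h hadj (Nat.zero_le _) Reach.zero).1
  refine ⟨[fun _ _ => P.T], ainit P.ap, ?_, Reach.zero, rfl, rfl, rfl, fun c hc => ?_,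
    List.isChain_singleton _⟩
  · rw [tabL_eq (c := fun _ _ => P.T) (fun _ _ => rfl) h1.1]
    rfl
  · rw [List.mem_singleton.1 hc]
    exact h1

theorem inv_step (h : PCond P e l) (hadj : ∀ x y, adj x y = adj y x)
    (hL : ∀ x y : Fin (2 * P.n), adjL.getD (x * (2 * P.n) + y) false = adj x y) {k : ℕ}
    (hk : k < P.T) {st : St} (hs : Inv P adj e k st) :
    1 - 2 * ((2 * P.n : ℕ) : ℝ) ^ 2 * Real.exp (-(P.m * P.τ e ^ 2 / 16)) ≤
      Ex (P.m * P.Bt) fun ρ => ind (Inv P adj e (k + 1) (topL P adjL st ρ)) := by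
  obtain ⟨hist, s, rfl, h1, h2, h3, h4, h5, h6⟩ := hs
  have hN : 0 < P.N := by rw [h.hN]; positivity
  have hη : 0 ≤ P.η := by unfold Par.η; positivity
  have hγ : 0 < P.γ := by
    by_contra h7
    have := mul_nonpos_of_nonpos_of_nonneg (not_lt.1 h7) (Nat.cast_nonneg (α := ℝ) P.N)
    linarith [h.hγ]
  have hlen : hist.length ≤ P.T := by omega
  have hS := thread_acc (t := P.t) (m := P.Bt) h.hK h.hk1 h.hb rfl (fun c hc => (h5 c hc).1) h.hB
    h.hN (le_trans (Nat.add_le_add_left (Nat.mul_le_mul_right _ hlen) _) h.hBt) h.γ1 h.hγ hη h.hη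
    h3 h4 (fun c hc => (h5 c hc).2) h6 ⟨0, hN⟩
  have hE : 0 ≤ stErr2 P.γ P.η P.N P.t := by
    have h7 : (1 : ℝ) ≤ P.N := by exact_mod_cast hN
    have h8 : 0 ≤ 1 - P.γ / (2 * P.N) := by
      rw [sub_nonneg, div_le_one (by linarith)]
      linarith [h.γ1]
    unfold stErr2
    positivity
  have hI : (P.n * P.N : ℝ) * (2 * P.n / 2 ^ P.K) ≤ 4 * (P.n : ℝ) ^ 2 * P.N / 2 ^ P.K := by
    rw [← mul_div_assoc]
    refine div_le_div_of_nonneg_right ?_ (by positivity)
    nlinarith [show (0 : ℝ) ≤ (P.n : ℝ) ^ 2 * P.N by positivity]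
  have hA := accu_law P.ap h.hA.hm (omc P.q s.c)
    (fun ρ => thrA P.n P.K P.N P.a P.k P.b P.t P.B hist ρ ⟨0, hN⟩) h.hA.τ0 h.τ1 P.Bt
    fun x y _ => (hS x y).trans (le_trans (add_le_add
      (mul_le_mul_of_nonneg_right (Nat.cast_le.2 hlen) hE) hI) h.err)
  refine hA.trans (Ex_mono fun ρ _ => ind_mono fun ha => ?_)
  have h7 := Reach.succ h1 ha
  have h8 := (reach_good h hadj hk h7).1
  refine ⟨hist ++ [_], _, ?_, h7, by simp [h2], ?_, List.getLast?_concat, fun c hc => ?_, ?_⟩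
  · unfold topL
    rw [show (encS hist s).1 = hist.map encC from rfl, cntL_enc hN fun c hc => (h5 c hc).1,
      List.getLast?_map, h4]
    exact updL_enc hL hist s _ h8.1
  · rw [List.head?_append, h3]
    rfl
  · rcases List.mem_append.1 hc with hc | hc
    · exact h5 c hc
    · rw [List.mem_singleton.1 hc]
      exact h8
  · refine List.IsChain.append h6 (List.isChain_singleton _) fun x hx y hy => ?_
    rw [h4] at hx
    rw [← Option.some.inj (Option.mem_def.1 hx), ← Option.some.inj (Option.mem_def.1 hy)]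
    exact (reach_good h hadj hk.le h1).2 _ hk

theorem loop_law (h : PCond P e l) (hadj : ∀ x y, adj x y = adj y x)
    (hL : ∀ x y : Fin (2 * P.n), adjL.getD (x * (2 * P.n) + y) false = adj x y) {m : ℕ}
    (hm : P.T * (P.m * P.Bt) ≤ m) : 1 - (1 / 2 : ℝ) ^ l ≤
      Ex m fun ρ => ind (|(outL P (loopL P adjL ρ) : ℝ) - nPM adj| ≤ nPM adj / e) := by
  have h1 := runL_good (step := fun _ : ℕ => topL P adjL) (I := Inv P adj e) (by positivity)
    (fun _ k hk s hs => inv_step h hadj hL hk hs) (List.range P.T) (k := 0) (by simp)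
    (inv_zero h hadj) (m := m) (by simpa using hm)
  rw [List.length_range, zero_add] at h1
  refine le_trans (le_trans (by linarith [h.fail]) h1) (Ex_mono fun ρ _ => ind_mono ?_)
  rintro ⟨hist, s, h2, h3, -⟩
  have h4 := reach_up h3
  rw [Fintype.card_fin] at h4
  have h5 := h.hA.v2
  have : Inhabited (Fin (2 * P.n)) := ⟨⟨0, by omega⟩⟩
  rw [loopL, h2, outL_enc hist h4.1 h4.2]
  exact reach_out (by rw [Fintype.card_fin]; exact h.hA) (M0 P.n) hadj h3

end Vale.Agent.P308
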