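import Vale.Agent.P308.PCond
import Vale.Agent.Lib.PolyTime.NatArith2

/-!
The choice of the parameters.
-/

namespace Vale.Agent.P308

open Vale.Agent.Lib.PTM Vale.Agent.Lib.PolyTime

namespace Pm

/-- inverse saturation level -/
def Θ (n e : ℕ) : ℕ := 100 * (2 * n) ^ 2 * e
/-- inverse accuracy -/
def R (n e : ℕ) : ℕ := 1000 * (2 * n) ^ 4 * Θ n e * e
/-- inverse gap -/
def Γ (n e : ℕ) : ℕ := (8 * Θ n e * (2 * n) ^ 2) ^ 53
/-- total change -/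
def A (n e : ℕ) : ℕ := 32 * (2 * n) ^ 3 * Θ n e
/-- logarithm of the large number -/
def s (n e : ℕ) : ℕ := Nat.size (1000 * A n e * R n e * Γ n e ^ 2)
/-- the large number -/
def y (n e : ℕ) : ℕ := 2 ^ s n e
/-- number of stages -/
def T (n e : ℕ) : ℕ := 4 * (2 * n) ^ 2 * Θ n e * y n e ^ 3
/-- coins for a step -/
def B (n e : ℕ) : ℕ := 2 * (2 * s n e) + 2 + 2 * Nat.size (2 * n) + 3 * s n e * (2 * n * (2 * T n e))
/-- samples -/
def m (n e l : ℕ) : ℕ := 16 * R n e ^ 2 * (l + 2 * (2 * n) ^ 2 * T n e)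
/-- coins for a thread -/
def Bt (n e : ℕ) : ℕ := y n e ^ 2 * (n * (4 * s n e)) + T n e * (y n e ^ 5 * B n e)

end Pm

open Pm

/-- the parameters -/
def par (n e l : ℕ) : Par :=
  ([⟨n⟩, ⟨4 * s n e⟩, ⟨y n e ^ 2⟩, ⟨2 * s n e⟩, ⟨Nat.size (2 * n)⟩, ⟨3 * s n e⟩, ⟨y n e ^ 5⟩,
    ⟨B n e⟩, ⟨m n e l⟩, ⟨T n e⟩, ⟨Θ n e⟩, ⟨Bt n e⟩] : List Un)

theorem par_n (n e l : ℕ) : (par n e l).n = n := rfl
theorem par_K (n e l : ℕ) : (par n e l).K = 4 * s n e := rfl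
theorem par_N (n e l : ℕ) : (par n e l).N = y n e ^ 2 := rfl
theorem par_a (n e l : ℕ) : (par n e l).a = 2 * s n e := rfl
theorem par_k (n e l : ℕ) : (par n e l).k = Nat.size (2 * n) := rfl
theorem par_b (n e l : ℕ) : (par n e l).b = 3 * s n e := rfl
theorem par_t (n e l : ℕ) : (par n e l).t = y n e ^ 5 := rfl
theorem par_B (n e l : ℕ) : (par n e l).B = B n e := rfl
theorem par_m (n e l : ℕ) : (par n e l).m = m n e l := rfl
theorem par_T (n e l : ℕ) : (par n e l).T = T n e := rfl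
theorem par_Θ (n e l : ℕ) : (par n e l).Θ = Θ n e := rfl
theorem par_Bt (n e l : ℕ) : (par n e l).Bt = Bt n e := rfl

namespace Pm

theorem two_pow_size_le {x : ℕ} : 2 ^ Nat.size x ≤ 2 * x + 1 := by
  rcases Nat.eq_zero_or_pos x with rfl | h
  · simp
  · have h1 : 0 < Nat.size x := Nat.size_pos.2 h
    have h2 : 2 ^ (Nat.size x - 1) ≤ x := Nat.lt_size.1 (by omega)
    have h3 : 2 ^ Nat.size x = 2 * 2 ^ (Nat.size x - 1) := by
      rw [← pow_succ']; congr 1; omega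
    omega

theorem two_pow_size_le' {x : ℕ} (h : 0 < x) : 2 ^ Nat.size x ≤ 2 * x := by
  have h1 : 0 < Nat.size x := Nat.size_pos.2 h
  have h2 : 2 ^ (Nat.size x - 1) ≤ x := Nat.lt_size.1 (by omega)
  have h3 : 2 ^ Nat.size x = 2 * 2 ^ (Nat.size x - 1) := by
    rw [← pow_succ']; congr 1; omega
  omega

/-- polynomial time and polynomially bounded -/
def Q (f : Un × Un × Un → ℕ) : Prop := PT ∅ f ∧ PBd f

theorem Q.const (c : ℕ) : Q fun _ => c := ⟨PT.const c, PBd.const c⟩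

theorem Q.add {f g : Un × Un × Un → ℕ} (hf : Q f) (hg : Q g) : Q fun d => f d + g d :=
  ⟨hf.1.add hg.1, hf.2.add hg.2⟩

theorem Q.mul {f g : Un × Un × Un → ℕ} (hf : Q f) (hg : Q g) : Q fun d => f d * g d :=
  ⟨hf.1.mul hg.1, hf.2.mul hg.2⟩

theorem Q.pow {f : Un × Un × Un → ℕ} (hf : Q f) (k : ℕ) : Q fun d => f d ^ k :=
  ⟨hf.1.powConst k, hf.2.pow k⟩

theorem Q.size {f : Un × Un × Un → ℕ} (hf : Q f) : Q fun d => Nat.size (f d) :=
  ⟨hf.1.natSize, hf.2.mono fun _ => Nat.size_le.2 Nat.lt_two_pow_self⟩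

theorem Q.two_size {f : Un × Un × Un → ℕ} (hf : Q f) : Q fun d => 2 ^ Nat.size (f d) :=
  ⟨(PT.const 2).pow hf.size.1 hf.size.2,
    (((PBd.const 2).mul hf.2).add (PBd.const 1)).mono fun _ => two_pow_size_le⟩

theorem Q.un {f : Un × Un × Un → ℕ} (hf : Q f) : PT ∅ fun d => Un.mk (f d) := hf.1.mkUn hf.2

theorem q_n : Q fun d => d.1.v := ⟨PT.unVal PT.fst', PBd.unVal (A := ∅) PT.fst'⟩
theorem q_e : Q fun d => d.2.1.v := ⟨PT.unVal PT.snd'.fst, PBd.unVal (A := ∅) PT.snd'.fst⟩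
theorem q_l : Q fun d => d.2.2.v := ⟨PT.unVal PT.snd'.snd, PBd.unVal (A := ∅) PT.snd'.snd⟩
theorem q_v : Q fun d => 2 * d.1.v := (Q.const 2).mul q_n
theorem q_Θ : Q fun d => Θ d.1.v d.2.1.v := ((Q.const 100).mul (q_v.pow 2)).mul q_e
theorem q_R : Q fun d => R d.1.v d.2.1.v :=
  (((Q.const 1000).mul (q_v.pow 4)).mul q_Θ).mul q_e
theorem q_Γ : Q fun d => Γ d.1.v d.2.1.v := (((Q.const 8).mul q_Θ).mul (q_v.pow 2)).pow 53
theorem q_A : Q fun d => A d.1.v d.2.1.v := ((Q.const 32).mul (q_v.pow 3)).mul q_Θ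
theorem q_s : Q fun d => s d.1.v d.2.1.v :=
  ((((Q.const 1000).mul q_A).mul q_R).mul (q_Γ.pow 2)).size
theorem q_y : Q fun d => y d.1.v d.2.1.v :=
  ((((Q.const 1000).mul q_A).mul q_R).mul (q_Γ.pow 2)).two_size
theorem q_T : Q fun d => T d.1.v d.2.1.v :=
  (((Q.const 4).mul (q_v.pow 2)).mul q_Θ).mul (q_y.pow 3)
theorem q_B : Q fun d => B d.1.v d.2.1.v :=
  ((((Q.const 2).mul ((Q.const 2).mul q_s)).add (Q.const 2)).add
    ((Q.const 2).mul q_v.size)).add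
    (((Q.const 3).mul q_s).mul (q_v.mul ((Q.const 2).mul q_T)))
theorem q_m : Q fun d => m d.1.v d.2.1.v d.2.2.v :=
  ((Q.const 16).mul (q_R.pow 2)).mul (q_l.add (((Q.const 2).mul (q_v.pow 2)).mul q_T))
theorem q_Bt : Q fun d => Bt d.1.v d.2.1.v :=
  ((q_y.pow 2).mul (q_n.mul ((Q.const 4).mul q_s))).add (q_T.mul ((q_y.pow 5).mul q_B))

theorem pow_le_inv {x : ℝ} (h0 : 0 < x) (h1 : x ≤ 1) {t : ℕ} (ht : 0 < t) :
    (1 - x) ^ t ≤ 1 / (t * x) := by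
  have ht' : (0 : ℝ) < t := by exact_mod_cast ht
  rw [le_div_iff₀ (by positivity)]
  have h2 : 1 + t * x ≤ (1 + x) ^ t := one_add_mul_le_pow (by linarith) t
  have h3 : (1 - x) ^ t * (1 + x) ^ t ≤ 1 := by
    rw [← mul_pow]
    exact pow_le_one₀ (by nlinarith) (by nlinarith)
  have h4 : 0 ≤ (1 - x) ^ t := pow_nonneg (by linarith) t
  nlinarith

/-- the numerical inequality for the error of a thread -/
theorem err_real {v Θ R Γ y : ℝ} {N t : ℕ} (hv : 2 ≤ v) (hΘ : 1 ≤ Θ) (hR : 1 ≤ R) (hΓ : v ≤ Γ)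
    (hy : 1000 * (32 * v ^ 3 * Θ) * R * Γ ^ 2 ≤ y) (hN : (N : ℝ) = y ^ 2) (ht : (t : ℝ) = y ^ 5) :
    4 * v ^ 2 * Θ * y ^ 3 * stErr2 (1 / Γ) (8 * v / y ^ 3) N t +
      v ^ 2 * N / y ^ 4 ≤ 1 / R / 2 := by
  have v0 : 0 < v := by linarith
  have Γ1 : 1 ≤ Γ := by linarith
  have v3 : 1 ≤ v ^ 3 := one_le_pow₀ (by linarith)
  have Γ2 : Γ ≤ Γ ^ 2 := by nlinarith
  have a1 : 1 ≤ 32 * v ^ 3 * Θ := by nlinarith
  have a2 : 1 ≤ 32 * v ^ 3 * Θ * R := by nlinarith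
  have a3 : 1000 * Γ ^ 2 ≤ y := by nlinarith
  have y1 : 1 ≤ y := by nlinarith
  have y0 : 0 < y := by linarith
  have y2 : 1 ≤ y ^ 2 := one_le_pow₀ y1
  have t0 : 0 < t := by
    have : (0 : ℝ) < t := by rw [ht]; positivity
    exact_mod_cast this
  have b1 : (1 - 1 / Γ / (2 * N)) ^ t ≤ 2 * Γ ^ 2 / y ^ 2 := by
    have c1 : 1 / Γ / (2 * N) ≤ 1 := by
      rw [hN, div_div, div_le_one (by positivity)]
      nlinarith
    refine (pow_le_inv (by rw [hN]; positivity) c1 t0).trans ?_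
    rw [ht, hN]
    have c2 : 1 / (y ^ 5 * (1 / Γ / (2 * y ^ 2))) = 2 * Γ / y ^ 3 := by field_simp
    rw [c2, div_le_div_iff₀ (by positivity) (by positivity)]
    have c3 : y ^ 2 ≤ y ^ 3 := pow_le_pow_right₀ y1 (by norm_num)
    have c4 : Γ * y ^ 2 ≤ Γ ^ 2 * y ^ 3 := by gcongr
    linarith
  have b2 : stErr2 (1 / Γ) (8 * v / y ^ 3) N t ≤ 8 * v / y ^ 3 * (50 * Γ ^ 2 / y) := by
    unfold stErr2
    have c1 : Real.sqrt N = y := by rw [hN, Real.sqrt_sq y0.le]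
    have c2 : 40 / ((1 / Γ) ^ 2 * N) = 40 * Γ ^ 2 / y ^ 2 := by rw [hN]; field_simp
    rw [c1, c2, hN]
    have c3 : y ^ 2 * (8 * v / y ^ 3) ^ 2 = 8 * v / y ^ 3 * (8 * v / y) := by field_simp
    have c4 : 8 * v / y ≤ 8 * Γ ^ 2 / y := by gcongr; linarith
    rw [hN] at b1
    calc _ ≤ (2 * Γ ^ 2 / y ^ 2 + 40 * Γ ^ 2 / y ^ 2) * (8 * v / y ^ 3) * y +
          8 * v / y ^ 3 * (8 * Γ ^ 2 / y) := by
          rw [c3]; gcongr
      _ = _ := by field_simp; ring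
  have b3 : 4 * v ^ 2 * Θ * y ^ 3 * (8 * v / y ^ 3 * (50 * Γ ^ 2 / y)) ≤ 1 / R / 4 := by
    have c1 : 4 * v ^ 2 * Θ * y ^ 3 * (8 * v / y ^ 3 * (50 * Γ ^ 2 / y)) =
        50 * (32 * v ^ 3 * Θ) * Γ ^ 2 / y := by field_simp; ring
    rw [c1, div_div, div_le_div_iff₀ y0 (by positivity)]
    have c2 : 0 ≤ 32 * v ^ 3 * Θ * R * Γ ^ 2 := by positivity
    nlinarith
  have b4 : v ^ 2 * N / y ^ 4 ≤ 1 / R / 4 := by
    have c1 : v ^ 2 * N / y ^ 4 = v ^ 2 / y ^ 2 := by rw [hN]; field_simp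
    rw [c1, div_div, div_le_div_iff₀ (by positivity) (by positivity)]
    have c2 : v ^ 2 ≤ Γ ^ 2 := by gcongr
    have c3 : R * Γ ^ 2 ≤ 32 * v ^ 3 * Θ * R * Γ ^ 2 := by
      have : 0 ≤ R * Γ ^ 2 := by positivity
      nlinarith
    have c4 : y ≤ y ^ 2 := by nlinarith
    have c5 : v ^ 2 * R ≤ R * Γ ^ 2 := by nlinarith
    have c6 : 0 ≤ R * Γ ^ 2 := by positivity
    nlinarith
  have b5 : 4 * v ^ 2 * Θ * y ^ 3 * stErr2 (1 / Γ) (8 * v / y ^ 3) N t ≤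
      4 * v ^ 2 * Θ * y ^ 3 * (8 * v / y ^ 3 * (50 * Γ ^ 2 / y)) := by gcongr
  linarith

theorem fail_real {X : ℝ} (l : ℕ) : X * Real.exp (-(l + X)) ≤ (1 / 2) ^ l := by
  have h1 : X * Real.exp (-X) ≤ 1 := by
    rw [Real.exp_neg, ← div_eq_mul_inv, div_le_one (Real.exp_pos X)]
    linarith [Real.add_one_le_exp X]
  have h2 : Real.exp (-(l : ℝ)) ≤ (1 / 2) ^ l := by
    rw [show -(l : ℝ) = l * (-1) by ring, Real.exp_nat_mul]
    refine pow_le_pow_left₀ (Real.exp_pos _).le ?_ l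
    rw [Real.exp_neg, one_div]
    exact inv_anti₀ two_pos (by linarith [Real.add_one_le_exp 1])
  rw [neg_add, Real.exp_add]
  have h3 := Real.exp_pos (-(l : ℝ))
  nlinarith

end Pm

theorem pt_par : PT ∅ fun d : Un × Un × Un => par d.1.v d.2.1.v d.2.2.v :=
  PT.cons q_n.un (PT.cons ((Q.const 4).mul q_s).un (PT.cons (q_y.pow 2).un
    (PT.cons ((Q.const 2).mul q_s).un (PT.cons q_v.size.un (PT.cons ((Q.const 3).mul q_s).un
    (PT.cons (q_y.pow 5).un (PT.cons q_B.un (PT.cons q_m.un (PT.cons q_T.un (PT.cons q_Θ.un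
    (PT.cons q_Bt.un PT.nil)))))))))))

theorem par_coins : ∃ C, 0 < C ∧ ∀ n e l : ℕ,
    (par n e l).T * ((par n e l).m * (par n e l).Bt) ≤ (2 * n + e + l + 2) ^ C := by
  obtain ⟨c, hc⟩ := (q_T.mul (q_m.mul q_Bt)).2
  refine ⟨2 * c + 1, by omega, fun n e l => ?_⟩
  have h := hc (⟨n⟩, ⟨e⟩, ⟨l⟩)
  simp only [esize_pair, esize_un, pb] at h
  refine h.trans ?_
  calc (2 * n + (2 * e + l + 1) + 1 + 2) ^ c ≤ ((2 * n + e + l + 2) ^ 2) ^ c :=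
        Nat.pow_le_pow_left (by nlinarith) c
    _ = (2 * n + e + l + 2) ^ (2 * c) := by rw [pow_mul]
    _ ≤ _ := Nat.pow_le_pow_right (by omega) (by omega)

namespace Pm

variable {n e : ℕ}

theorem Θ0 (hn : 1 ≤ n) (he : 1 ≤ e) : 0 < Θ n e := by unfold Θ; positivity

theorem R0 (hn : 1 ≤ n) (he : 1 ≤ e) : 0 < R n e := by
  have := Θ0 hn he
  unfold R; positivity

theorem A0 (hn : 1 ≤ n) (he : 1 ≤ e) : 0 < A n e := by
  have := Θ0 hn he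
  unfold A; positivity

theorem T0 (hn : 1 ≤ n) (he : 1 ≤ e) : 0 < T n e := by
  have := Θ0 hn he
  unfold T y; positivity

theorem le_Γ (hn : 1 ≤ n) (he : 1 ≤ e) : 2 * n ≤ Γ n e := by
  have := Θ0 hn he
  unfold Γ
  calc 2 * n ≤ 8 * Θ n e * (2 * n) ^ 2 := by nlinarith
    _ ≤ _ := Nat.le_self_pow (by norm_num) _

theorem lt_y (n e : ℕ) : 1000 * A n e * R n e * Γ n e ^ 2 < y n e := Nat.lt_size_self _

theorem y_facts (hn : 1 ≤ n) (he : 1 ≤ e) :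
    0 < s n e ∧ 1000 * Γ n e ≤ y n e ∧ R n e ≤ y n e := by
  have h1 := A0 hn he
  have h2 := R0 hn he
  have h3 : 0 < Γ n e := by have := le_Γ hn he; omega
  have h4 := lt_y n e
  refine ⟨Nat.size_pos.2 (Nat.mul_pos (Nat.mul_pos (by omega) h2) (Nat.pow_pos h3)), ?_, ?_⟩
  · generalize A n e = a, R n e = r, Γ n e = g, y n e = z at *
    have h5 : g ≤ g ^ 2 := Nat.le_self_pow (by norm_num) _
    have h6 : 1 ≤ a * r := Nat.mul_pos h1 h2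
    nlinarith
  · generalize A n e = a, R n e = r, Γ n e = g, y n e = z at *
    have : 0 < 1000 * a * g ^ 2 := by positivity
    nlinarith

theorem pw_s (n e k : ℕ) : 2 ^ (k * s n e) = y n e ^ k := by rw [y, ← pow_mul, mul_comm]

theorem τ_eq (n e l : ℕ) : (par n e l).τ e = 1 / (R n e : ℝ) := by
  rw [Par.τ, par_n, par_Θ, R]; push_cast; rfl

theorem γ_eq (hn : 1 ≤ n) (he : 1 ≤ e) (l : ℕ) : (par n e l).γ = 1 / (Γ n e : ℝ) := by
  have : (0 : ℝ) < Θ n e := by exact_mod_cast Θ0 hn he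
  have : (0 : ℝ) < n := by exact_mod_cast hn
  rw [Par.γ, par_n, par_Θ, Γ, Nat.cast_pow, ← one_div_pow]
  congr 1
  push_cast
  field_simp
  ring

theorem η_eq (n e l : ℕ) : (par n e l).η = 8 * ((2 * n : ℕ) : ℝ) / (y n e : ℝ) ^ 3 := by
  rw [Par.η, par_n, par_b, pw_s, Nat.cast_pow]

theorem eta_real {v z : ℝ} (hv : 0 ≤ v) (h1 : 8 * v ≤ z) (h2 : 1 ≤ z) :
    z ^ 2 * (8 * v / z ^ 3) ^ 2 ≤ 1 := by
  calc z ^ 2 * (8 * v / z ^ 3) ^ 2 ≤ z ^ 2 * (z / z ^ 3) ^ 2 := by gcongr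
    _ = 1 / z ^ 2 := by field_simp
    _ ≤ 1 := by rw [div_le_one (by positivity)]; exact one_le_pow₀ h2

theorem acond (hn : 1 ≤ n) (he : 1 ≤ e) (l : ℕ) :
    ACond (par n e l).ap (2 * (par n e l).n) e (2 ^ (par n e l).b) ((par n e l).τ e) := by
  have R1 : (0 : ℝ) < R n e := by exact_mod_cast R0 hn he
  refine ⟨by rw [par_n]; omega, he, rfl, ?_, ?_, ?_, ?_, ?_⟩
  · change T n e = 4 * (2 * n) ^ 2 * Θ n e * 2 ^ (3 * s n e)
    rw [pw_s]; rfl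
  · change 0 < m n e l
    have := R0 hn he
    have := T0 hn he
    unfold m; positivity
  · change R n e ≤ 2 ^ (3 * s n e)
    rw [pw_s]; exact (y_facts hn he).2.2.trans (Nat.le_self_pow (by norm_num) _)
  · rw [τ_eq]; exact (one_div_pos.2 R1).le
  · rw [τ_eq]
    change 1 / (R n e : ℝ) * (1000 * ((2 * n : ℕ) : ℝ) ^ 4 * (Θ n e : ℕ) * e) ≤ 1
    have : (1000 * ((2 * n : ℕ) : ℝ) ^ 4 * (Θ n e : ℕ) * e) = (R n e : ℝ) := by
      rw [R]; push_cast; rfl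
    rw [this, one_div_mul_cancel R1.ne']

theorem err_ok (hn : 1 ≤ n) (he : 1 ≤ e) (l : ℕ) :
    (par n e l).T * stErr2 (par n e l).γ (par n e l).η (par n e l).N (par n e l).t +
      4 * ((par n e l).n : ℝ) ^ 2 * (par n e l).N / 2 ^ (par n e l).K ≤
        (par n e l).τ e / 2 := by
  rw [τ_eq, γ_eq hn he, η_eq, par_T, par_N, par_t, par_n, par_K]
  have eA : (A n e : ℝ) = 32 * ((2 * n : ℕ) : ℝ) ^ 3 * Θ n e := by
    rw [A, Nat.cast_mul, Nat.cast_mul, Nat.cast_pow, Nat.cast_ofNat]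
  have hy' : 1000 * (32 * ((2 * n : ℕ) : ℝ) ^ 3 * Θ n e) * R n e * (Γ n e : ℝ) ^ 2 ≤ y n e := by
    rw [← eA]
    have := (Nat.cast_le (α := ℝ)).2 (lt_y n e).le
    rwa [Nat.cast_mul, Nat.cast_mul, Nat.cast_mul, Nat.cast_pow, Nat.cast_ofNat] at this
  have key := err_real (v := ((2 * n : ℕ) : ℝ)) (Θ := Θ n e) (R := R n e) (Γ := Γ n e)
    (y := y n e) (N := y n e ^ 2) (t := y n e ^ 5) (by exact_mod_cast (show 2 ≤ 2 * n by omega))
    (by exact_mod_cast Θ0 hn he) (by exact_mod_cast R0 hn he) (Nat.cast_le.2 (le_Γ hn he)) hy'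
    (Nat.cast_pow _ _) (Nat.cast_pow _ _)
  have e1 : (T n e : ℝ) = 4 * ((2 * n : ℕ) : ℝ) ^ 2 * Θ n e * (y n e : ℝ) ^ 3 := by
    rw [T]; push_cast; rfl
  have e2 : (2 : ℝ) ^ (4 * s n e) = (y n e : ℝ) ^ 4 := by exact_mod_cast pw_s n e 4
  have e3 : 4 * (n : ℝ) ^ 2 = ((2 * n : ℕ) : ℝ) ^ 2 := by push_cast; ring
  rw [e1, e2, e3]
  exact key

theorem fail_ok (hn : 1 ≤ n) (he : 1 ≤ e) (l : ℕ) :
    (par n e l).T * (2 * ((2 * (par n e l).n : ℕ) : ℝ) ^ 2 *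
      Real.exp (-((par n e l).m * (par n e l).τ e ^ 2 / 16))) ≤ (1 / 2) ^ l := by
  have R1 : (0 : ℝ) < R n e := by exact_mod_cast R0 hn he
  rw [τ_eq, par_T, par_n, par_m]
  have key := fail_real (X := 2 * ((2 * n : ℕ) : ℝ) ^ 2 * T n e) l
  have e1 : (m n e l : ℝ) * (1 / (R n e : ℝ)) ^ 2 / 16 =
      l + 2 * ((2 * n : ℕ) : ℝ) ^ 2 * T n e := by
    rw [m]; push_cast; field_simp
  rw [e1]
  linarith

end Pm

theorem par_cond {n e : ℕ} (l : ℕ) (hn : 1 ≤ n) (he : 1 ≤ e) : PCond (par n e l) e l := by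
  obtain ⟨s0, y1, y2⟩ := y_facts hn he
  have hΓ := le_Γ hn he
  have yp : ∀ k, 0 < k → y n e ≤ y n e ^ k := fun k hk => Nat.le_self_pow hk.ne' _
  have R1 : (1 : ℝ) ≤ R n e := by exact_mod_cast R0 hn he
  have Γ1 : (1 : ℝ) ≤ Γ n e := by exact_mod_cast (show 1 ≤ Γ n e by omega)
  refine ⟨acond hn he l, ?_, ?_, ?_, ?_, ?_, ?_, le_rfl, le_rfl, ?_, ?_, ?_,
    err_ok hn he l, fail_ok hn he l⟩
  · rw [τ_eq, div_le_one (by linarith)]; exact R1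
  · rw [par_b]; omega
  · rw [par_K, par_n, pw_s]
    exact le_trans (by omega) (yp 4 (by norm_num))
  · exact (Nat.lt_size_self _).le
  · exact two_pow_size_le' (show 0 < 2 * n by omega)
  · rw [par_N, par_a, pw_s]
  · rw [γ_eq hn he, div_le_one (by linarith)]; exact Γ1
  · rw [γ_eq hn he, par_N, one_div_mul_eq_div, le_div_iff₀ (by linarith)]
    have : 6 * Γ n e ≤ y n e ^ 2 := le_trans (by omega) (yp 2 (by norm_num))
    exact_mod_cast this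
  · rw [η_eq, par_N, Nat.cast_pow]
    refine eta_real (Nat.cast_nonneg _) ?_ ?_
    · exact_mod_cast (show 8 * (2 * n) ≤ y n e by omega)
    · exact_mod_cast (show 1 ≤ y n e by omega)

end Vale.Agent.P308
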