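import Vale.Agent.P308.Prog
import Vale.Agent.Lib.PolyTime.Lists3
import Vale.Agent.Lib.PolyTime.NatArith2

/-!
The program runs in polynomial time.
-/

namespace Vale.Agent.P308

open Vale.Agent.Lib.PTM Vale.Agent.Lib.PolyTime

namespace Poly

variable {α β γ : Type} [Enc α] [Enc β] [Enc γ]

/-! ### Small numbers -/

/-- computable in polynomial time and polynomially bounded -/
structure PU (f : α → ℕ) : Prop where
  pt : PT ∅ f
  bd : PBd f

theorem PU.comp {f : β → ℕ} {g : α → β} (hf : PU f) (hg : PT ∅ g) : PU fun a => f (g a) :=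
  ⟨hf.pt.comp hg, hf.bd.comp hg⟩

theorem PU.const (n : ℕ) : PU fun _ : α => n := ⟨PT.const n, PBd.const n⟩

theorem PU.mul {f g : α → ℕ} (hf : PU f) (hg : PU g) : PU fun a => f a * g a :=
  ⟨hf.pt.mul hg.pt, hf.bd.mul hg.bd⟩

theorem PU.add {f g : α → ℕ} (hf : PU f) (hg : PU g) : PU fun a => f a + g a :=
  ⟨hf.pt.add hg.pt, hf.bd.add hg.bd⟩

theorem PU.sq {f : α → ℕ} (hf : PU f) : PU fun a => f a ^ 2 :=
  ⟨hf.pt.powConst 2, hf.bd.pow 2⟩

theorem PU.min {f g : α → ℕ} (hf : PT ∅ f) (hg : PU g) : PU fun a => min (f a) (g a) :=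
  ⟨hf.min hg.pt, hg.bd.mono fun _ => min_le_right _ _⟩

theorem pu_g {P : α → Par} (hP : PT ∅ P) (i : ℕ) : PU fun a => (P a).g i := by
  have h : PT ∅ fun a => List.getD (P a : List Un) i ⟨0⟩ :=
    PT.getD (β := Un) hP (PT.const i) (PT.const _)
  exact ⟨h.unVal, PBd.unVal h⟩

theorem pu_v {P : α → Par} (hP : PT ∅ P) : PU fun a => 2 * (P a).n :=
  (PU.const 2).mul (pu_g hP 0)

theorem pt_ne {f g : α → ℕ} (hf : PT ∅ f) (hg : PT ∅ g) : PT ∅ fun a => decide (f a ≠ g a) :=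
  PT.decide_not (p := fun a => f a = g a) (PT.eqNat hf hg)

theorem pt_true {f : α → Bool} (hf : PT ∅ f) : PT ∅ fun a => decide (f a = true) :=
  hf.congr fun a => by simp

theorem pt_get {l : α → List ℕ} {i : α → ℕ} (hl : PT ∅ l) (hi : PT ∅ i) :
    PT ∅ fun a => (l a).getD (i a) 0 := PT.getD hl hi (PT.const 0)

theorem pt_getL {l : α → List (List ℕ)} {i : α → ℕ} (hl : PT ∅ l) (hi : PT ∅ i) :
    PT ∅ fun a => (l a).getD (i a) [] := PT.getD hl hi (PT.const [])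

/-! ### Tables -/

theorem pt_mk {v : α → ℕ} {f : α → ℕ → β} (hv : PU v) (hf : PT ∅ fun p : α × ℕ => f p.1 p.2) :
    PT ∅ fun a => mk (v a) (f a) := PT.map (PT.range hv.pt hv.bd) hf

theorem esize_mk_le {v B : ℕ} {f : ℕ → β} (h : ∀ i, esize (f i) ≤ B) :
    esize (mk v f) ≤ v * (2 * B + 1) := by
  have := esize_list_le (l := mk v f) (B := B) fun x hx => by
    obtain ⟨i, -, rfl⟩ := List.mem_map.1 hx
    exact h i
  simpa [mk] using this

theorem length_mk {δ : Type} (v : ℕ) (f : ℕ → δ) : (mk v f).length = v := by simp [mk]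

theorem getD_mk {δ : Type} (v : ℕ) (f : ℕ → δ) (i : ℕ) (d : δ) :
    (mk v f).getD i d = if i < v then f i else d := by
  unfold mk
  split_ifs with h
  · rw [List.getD_eq_getElem _ _ (by simpa using h)]
    simp
  · exact List.getD_eq_default _ _ (by simpa using h)

theorem sum_mk_le {v B : ℕ} {f : ℕ → ℕ} (h : ∀ i, f i ≤ B) : (mk v f).sum ≤ v * B := by
  have := List.sum_le_card_nsmul (mk v f) B fun x hx => by
    obtain ⟨i, -, rfl⟩ := List.mem_map.1 hx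
    exact h i
  simpa [length_mk] using this

theorem esize_min_le (x v : ℕ) : esize (min x v) ≤ v :=
  (esize_nat_le_self _).trans (min_le_right _ _)

theorem pt_nrmL {v : α → ℕ} {L : α → List ℕ} (hv : PU v) (hL : PT ∅ L) :
    PT ∅ fun a => nrmL (v a) (L a) :=
  pt_mk (f := fun a w => min ((L a).getD w 0) (v a)) hv
    ((pt_get (hL.comp PT.fst') PT.snd').min (hv.pt.comp PT.fst'))

theorem esize_nrmL (v : ℕ) (L : List ℕ) : esize (nrmL v L) ≤ v * (2 * v + 1) :=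
  esize_mk_le fun _ => esize_min_le _ _

theorem pt_swp {x y w : α → ℕ} (hx : PT ∅ x) (hy : PT ∅ y) (hw : PT ∅ w) :
    PT ∅ fun a => swp (x a) (y a) (w a) :=
  PT.ite (PT.eqNat hw hx) hy (PT.ite (PT.eqNat hw hy) hx hw)

theorem pt_swL {v x y : α → ℕ} {L : α → List ℕ} (hv : PU v) (hx : PT ∅ x) (hy : PT ∅ y)
    (hL : PT ∅ L) : PT ∅ fun a => swL (v a) (x a) (y a) (L a) :=
  PT.ite (PT.decide_and (PT.lt hx hv.pt) (PT.lt hy hv.pt))
    (pt_mk (f := fun a w => swp (x a) (y a) ((L a).getD (swp (x a) (y a) w) 0)) hv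
      (pt_swp (hx.comp PT.fst') (hy.comp PT.fst') (pt_get (hL.comp PT.fst')
        (pt_swp (hx.comp PT.fst') (hy.comp PT.fst') PT.snd')))) hL

theorem esize_getD_le (L : List ℕ) (i : ℕ) : esize (L.getD i 0) ≤ esize L := by
  by_cases h : i < L.length
  · rw [List.getD_eq_getElem _ _ h]
    exact esize_le_of_mem (List.getElem_mem h)
  · rw [List.getD_eq_default _ _ (by omega), esize_nat, Nat.size_zero]
    exact Nat.zero_le _

theorem pt_orb {v x : α → ℕ} {L F : α → List ℕ} (hv : PU v) (hL : PT ∅ L) (hF : PT ∅ F)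
    (hx : PT ∅ x) : PT ∅ fun a => orb (v a) (L a) (F a) (x a) := by
  refine PT.iterate' (step := fun a (s : List ℕ) =>
      (L a).getD ((F a).getD (s.headD 0) 0) 0 :: s) (init := fun a => [x a]) hv.pt hv.bd
    (hx.cons PT.nil) ((pt_get (hL.comp PT.fst') (pt_get (hF.comp PT.fst')
      (PT.snd'.headD (PT.const 0)))).cons PT.snd')
    (((hx.cons PT.nil).pbd).add (hv.bd.mul (((PBd.const 2).mul hL.pbd).add (PBd.const 1))))
    fun a j hj => ?_
  have key : ∀ j, esize ((fun s : List ℕ => (L a).getD ((F a).getD (s.headD 0) 0) 0 :: s)^[j]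
      [x a]) ≤ esize [x a] + j * (2 * esize (L a) + 1) := by
    intro j
    induction j with
    | zero => simp
    | succ j ih =>
      rw [Function.iterate_succ_apply', esize_list_cons, add_mul, one_mul]
      have := esize_getD_le (L a) ((F a).getD (((fun s : List ℕ =>
        (L a).getD ((F a).getD (s.headD 0) 0) 0 :: s)^[j] [x a]).headD 0) 0)
      omega
  exact (key j).trans (Nat.add_le_add_left (Nat.mul_le_mul_right _ hj) _)

theorem pt_xchL {v : α → ℕ} {O : α → List ℕ} {p : α → List ℕ × List ℕ} (hv : PU v) (hO : PT ∅ O)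
    (hp : PT ∅ p) : PT ∅ fun a => xchL (v a) (O a) (p a) := by
  have h1 : PT ∅ fun q : α × ℕ => (p q.1).1.getD q.2 0 := pt_get (hp.comp PT.fst').fst PT.snd'
  have h2 : PT ∅ fun q : α × ℕ => (p q.1).2.getD q.2 0 := pt_get (hp.comp PT.fst').snd PT.snd'
  have hc : PT ∅ fun q : α × ℕ => decide (q.2 ∈ O q.1 ∨ (p q.1).2.getD q.2 0 ∈ O q.1) :=
    PT.decide_or (PT.mem (hO.comp PT.fst') PT.snd') (PT.mem (hO.comp PT.fst') h2)
  exact (pt_mk (f := fun a w => if w ∈ O a ∨ (p a).2.getD w 0 ∈ O a then (p a).2.getD w 0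
      else (p a).1.getD w 0) hv (PT.ite hc h2 h1)).pair
    (pt_mk (f := fun a w => if w ∈ O a ∨ (p a).2.getD w 0 ∈ O a then (p a).1.getD w 0
      else (p a).2.getD w 0) hv (PT.ite hc h1 h2))

theorem pt_sigL {v x : α → ℕ} {p : α → List ℕ × List ℕ} (hv : PU v) (hx : PT ∅ x)
    (hp : PT ∅ p) : PT ∅ fun a => sigL (v a) (x a) (p a) :=
  PT.ite (PT.lt hx hv.pt) (pt_xchL hv (pt_orb hv hp.fst hp.snd hx) hp) hp

theorem pt_at2 {c : α → List (List ℕ)} {x y : α → ℕ} (hc : PT ∅ c) (hx : PT ∅ x) (hy : PT ∅ y) :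
    PT ∅ fun a => at2 (c a) (x a) (y a) := pt_get (pt_getL hc hx) hy

theorem pt_costL {v : α → ℕ} {c : α → List (List ℕ)} {L : α → List ℕ} (hv : PU v) (hc : PT ∅ c)
    (hL : PT ∅ L) : PT ∅ fun a => costL (v a) (c a) (L a) :=
  PT.sum (pt_mk (f := fun a x => at2 (c a) x ((L a).getD x 0)) hv
    (pt_at2 (hc.comp PT.fst') PT.snd' (pt_get (hL.comp PT.fst') PT.snd')))

/-! ### The chain -/

section

variable {P : α → Par} {c X : α → List (List ℕ)} {ρ : α → List Bool}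

theorem pu_dlt {L : α → List ℕ} {x y : α → ℕ} (hP : PT ∅ P) (hc : PT ∅ c) (hL : PT ∅ L)
    (hx : PT ∅ x) (hy : PT ∅ y) : PU fun a => dlt (P a) (c a) (L a) (x a) (y a) :=
  PU.min ((pt_costL (pu_v hP) hc (pt_swL (pu_v hP) hx hy hL)).sub (pt_costL (pu_v hP) hc hL))
    (((PU.const 2).mul (pu_g hP 9)).mul (pu_v hP))

theorem pt_twoPow (hP : PT ∅ P) : PT ∅ fun a => 2 ^ (P a).b :=
  PT.pow (PT.const 2) (pu_g hP 5).pt (pu_g hP 5).bd

theorem pt_mv2L {p : α → List ℕ × List ℕ} {ty x y : α → ℕ} (hP : PT ∅ P) (hc : PT ∅ c)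
    (hp : PT ∅ p) (hty : PT ∅ ty) (hx : PT ∅ x) (hy : PT ∅ y) (hρ : PT ∅ ρ) :
    PT ∅ fun a => mv2L (P a) (c a) (p a) (ty a) (x a) (y a) (ρ a) := by
  have hd := pu_dlt hP hc hp.fst hx hy
  exact PT.ite (PT.eqNat hty (PT.const 2)) (pt_sigL (pu_v hP) hx hp)
    (PT.ite (PT.decide_and (PT.eqNat hty (PT.const 3))
      (PT.lt (PT.valList (PT.take hρ ((pu_g hP 5).pt.mul hd.pt)))
        (PT.pow ((pt_twoPow hP).sub (PT.const 1)) hd.pt hd.bd)))
      ((pt_swL (pu_v hP) hx hy hp.fst).pair hp.snd) hp)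

theorem pt_twoL {p : α → List ℕ × List ℕ} (hP : PT ∅ P) (hc : PT ∅ c) (hp : PT ∅ p)
    (hρ : PT ∅ ρ) : PT ∅ fun a => twoL (P a) (c a) (p a) (ρ a) := by
  have hk : PT ∅ fun a => (P a).k := (pu_g hP 4).pt
  have h2 := PT.drop hρ (PT.const 2)
  exact pt_mv2L hP hc hp (PT.valList (PT.take hρ (PT.const 2))) (PT.valList (PT.take h2 hk))
    (PT.valList (PT.take (PT.drop h2 hk) hk)) (PT.drop (PT.drop h2 hk) hk)

theorem pt_putL {i j : α → ℕ} {q : α → List ℕ × List ℕ} (hP : PT ∅ P) (hX : PT ∅ X)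
    (hi : PT ∅ i) (hj : PT ∅ j) (hq : PT ∅ q) :
    PT ∅ fun a => putL (P a) (X a) (i a) (j a) (q a) :=
  pt_mk (f := fun a r => nrmL (2 * (P a).n)
      (if r = j a then (q a).2 else if r = i a then (q a).1 else (X a).getD r [])) (pu_g hP 2)
    (pt_nrmL (pu_v (hP.comp PT.fst'))
      (PT.ite (PT.eqNat PT.snd' (hj.comp PT.fst')) (hq.comp PT.fst').snd
        (PT.ite (PT.eqNat PT.snd' (hi.comp PT.fst')) (hq.comp PT.fst').fst
          (pt_getL (hX.comp PT.fst') PT.snd'))))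

theorem pt_mvNL {i j : α → ℕ} (hP : PT ∅ P) (hc : PT ∅ c) (hX : PT ∅ X) (hi : PT ∅ i)
    (hj : PT ∅ j) (hρ : PT ∅ ρ) : PT ∅ fun a => mvNL (P a) (c a) (X a) (i a) (j a) (ρ a) :=
  PT.ite (PT.decide_and (PT.lt hi (pu_g hP 2).pt)
      (PT.decide_and (PT.lt hj (pu_g hP 2).pt) (pt_ne hi hj)))
    (pt_putL hP hX hi hj (pt_twoL hP hc ((pt_getL hX hi).pair (pt_getL hX hj)) hρ)) hX

theorem pt_stepL (hP : PT ∅ P) (hc : PT ∅ c) (hX : PT ∅ X) (hρ : PT ∅ ρ) :
    PT ∅ fun a => stepL (P a) (c a) (X a) (ρ a) := by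
  have ha : PT ∅ fun a => (P a).a := (pu_g hP 3).pt
  exact pt_mvNL hP hc hX (PT.valList (PT.take hρ ha)) (PT.valList (PT.take (PT.drop hρ ha) ha))
    (PT.drop (PT.drop hρ ha) ha)

/-- bound for the size of a population -/
def bX (Q : Par) : ℕ := Q.N * (2 * (2 * Q.n * (2 * (2 * Q.n) + 1)) + 1)

theorem pbd_bX (hP : PT ∅ P) : PBd fun a => bX (P a) :=
  (pu_g hP 2).bd.mul (((PBd.const 2).mul ((pu_v hP).bd.mul
    (((PBd.const 2).mul (pu_v hP).bd).add (PBd.const 1)))).add (PBd.const 1))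

theorem esize_stepL {Q : Par} {d Y : List (List ℕ)} {r : List Bool} {b : ℕ} (hb : bX Q ≤ b)
    (hY : esize Y ≤ b) : esize (stepL Q d Y r) ≤ b := by
  unfold stepL mvNL
  split_ifs
  · exact le_trans (esize_mk_le fun _ => esize_nrmL _ _) hb
  · exact hY

theorem esize_steps {Q : Par} {d Y : List (List ℕ)} (l : List ℕ) {r : List Bool} {b : ℕ}
    (hb : bX Q ≤ b) (hY : esize Y ≤ b) :
    esize (runL Q.B (fun _ : ℕ => stepL Q d) l Y r) ≤ b :=
  runL_inv (I := fun s => esize s ≤ b) (fun _ _ _ _ hs => esize_stepL hb hs) hY r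

theorem pt_stageL (hP : PT ∅ P) (hc : PT ∅ c) (hX : PT ∅ X) (hρ : PT ∅ ρ) :
    PT ∅ fun a => stageL (P a) (c a) (X a) (ρ a) :=
  PT.runL (step := fun a (_ : ℕ) => stepL (P a) (c a)) (pu_g hP 7).pt
    (pt_stepL (hP.comp PT.fst') (hc.comp PT.fst') PT.snd'.snd.fst PT.snd'.snd.snd)
    (PT.range (pu_g hP 6).pt (pu_g hP 6).bd) hX hρ ((pbd_bX hP).add hX.pbd)
    fun _ _ => esize_steps _ (Nat.le_add_right _ _) (Nat.le_add_left _ _)

theorem pt_mate {x : α → ℕ} (hx : PT ∅ x) : PT ∅ fun a => mate (x a) :=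
  PT.ite (PT.eqNat (hx.mod (PT.const 2)) (PT.const 0)) (hx.add (PT.const 1)) (hx.sub (PT.const 1))

theorem pt_initL (hP : PT ∅ P) (hρ : PT ∅ ρ) : PT ∅ fun a => initL (P a) (ρ a) := by
  have h0 : PT ∅ fun a => mk (2 * (P a).n) mate :=
    pt_mk (f := fun _ => mate) (pu_v hP) (pt_mate PT.snd')
  have hj : PT ∅ fun p : α × ℕ × List ℕ × List Bool => 2 * p.2.1 := (PT.const 2).mul PT.snd'.fst
  refine PT.runL (step := fun a j L r => nrmL (2 * (P a).n)
      (swL (2 * (P a).n) (2 * j) (val r % (2 * j + 1)) L)) (pu_g hP 1).pt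
    (pt_nrmL (pu_v (hP.comp PT.fst')) (pt_swL (pu_v (hP.comp PT.fst')) hj
      ((PT.valList PT.snd'.snd.snd).mod (hj.add (PT.const 1))) PT.snd'.snd.fst))
    (PT.range (pu_g hP 0).pt (pu_g hP 0).bd) h0 hρ
    (((pu_v hP).bd.mul (((PBd.const 2).mul (pu_v hP).bd).add (PBd.const 1))).add h0.pbd)
    fun a _ => ?_
  exact runL_inv (I := fun s => esize s ≤ 2 * (P a).n * (2 * (2 * (P a).n) + 1) +
      esize (mk (2 * (P a).n) mate))
    (fun _ _ _ _ _ => (esize_nrmL _ _).trans (Nat.le_add_right _ _)) (Nat.le_add_left _ _) _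

theorem pt_blk {B i : α → ℕ} (hB : PT ∅ B) (hρ : PT ∅ ρ) (hi : PT ∅ i) :
    PT ∅ fun a => blk (B a) (ρ a) (i a) := PT.take (PT.drop hρ (hi.mul hB)) hB

theorem pt_popL (hP : PT ∅ P) (hρ : PT ∅ ρ) : PT ∅ fun a => popL (P a) (ρ a) :=
  pt_mk (f := fun a i => initL (P a) (blk ((P a).n * (P a).K) (ρ a) i)) (pu_g hP 2)
    (pt_initL (hP.comp PT.fst') (pt_blk (((pu_g hP 0).mul (pu_g hP 1)).pt.comp PT.fst')
      (hρ.comp PT.fst') PT.snd'))

theorem pt_thrL {H : α → List (List (List ℕ))} (hP : PT ∅ P) (hH : PT ∅ H) (hρ : PT ∅ ρ) :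
    PT ∅ fun a => thrL (P a) (H a) (ρ a) := by
  have hm : PT ∅ fun a => (P a).N * ((P a).n * (P a).K) :=
    ((pu_g hP 2).mul ((pu_g hP 0).mul (pu_g hP 1))).pt
  have h0 := pt_popL hP (PT.take hρ hm)
  refine PT.runL (step := fun a => stageL (P a)) ((pu_g hP 6).mul (pu_g hP 7)).pt
    (pt_stageL (hP.comp PT.fst') PT.snd'.fst PT.snd'.snd.fst PT.snd'.snd.snd) hH h0
    (PT.drop hρ hm) ((pbd_bX hP).add h0.pbd) fun a _ => ?_
  exact runL_inv (I := fun s => esize s ≤ bX (P a) +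
      esize (popL (P a) ((ρ a).take ((P a).N * ((P a).n * (P a).K)))))
    (fun _ _ _ _ hs => esize_steps _ (Nat.le_add_right _ _) hs) (Nat.le_add_left _ _) _

theorem pt_smpL {H : α → List (List (List ℕ))} (hP : PT ∅ P) (hH : PT ∅ H) (hρ : PT ∅ ρ) :
    PT ∅ fun a => smpL (P a) (H a) (ρ a) :=
  pt_mk (f := fun a i => (thrL (P a) (H a) (blk (P a).Bt (ρ a) i)).getD 0 []) (pu_g hP 8)
    (pt_getL (pt_thrL (hP.comp PT.fst') (hH.comp PT.fst')
      (pt_blk ((pu_g hP 11).pt.comp PT.fst') (hρ.comp PT.fst') PT.snd')) (PT.const 0))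

theorem pt_cntL (hP : PT ∅ P) (hX : PT ∅ X) : PT ∅ fun a => cntL (P a) (X a) := by
  refine pt_mk (f := fun a x => mk (2 * (P a).n) fun y =>
    ((X a).map fun L => if L.getD x 0 = y then 1 else 0).sum) (pu_v hP) ?_
  refine pt_mk (f := fun (q : α × ℕ) y =>
    ((X q.1).map fun L => if L.getD q.2 0 = y then 1 else 0).sum) (pu_v (hP.comp PT.fst')) ?_
  refine PT.sum (PT.map (f := fun (q : (α × ℕ) × ℕ) (L : List ℕ) =>
    if L.getD q.1.2 0 = q.2 then 1 else 0) (hX.comp PT.fst'.fst) ?_)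
  exact PT.ite (PT.eqNat (pt_get PT.snd' PT.fst'.fst.snd) PT.fst'.snd) (PT.const 1) (PT.const 0)

/-! ### The main loop -/

theorem pt_lowL {x y : α → ℕ} (hP : PT ∅ P) (hX : PT ∅ X) (hx : PT ∅ x) (hy : PT ∅ y) :
    PT ∅ fun a => lowL (P a) (X a) (x a) (y a) :=
  PT.decide_and (pt_ne hx hy)
    (PT.lt (((PT.const 2).mul (pu_g hP 10).pt).mul (pt_at2 hX hx hy)) (pu_g hP 8).pt)

theorem pt_highL {x y : α → ℕ} (hP : PT ∅ P) (hρ : PT ∅ ρ) (hc : PT ∅ c) (hX : PT ∅ X)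
    (hx : PT ∅ x) (hy : PT ∅ y) : PT ∅ fun a => highL (P a) (ρ a) (c a) (X a) (x a) (y a) :=
  (PT.decide_and (pt_ne hx hy)
    (PT.lt ((PT.const 2).mul (pu_g hP 8).pt) ((pu_g hP 10).pt.mul (pt_at2 hX hx hy)))).and
    ((PT.getD hρ ((hx.mul (pu_v hP).pt).add hy) (PT.const false)).not.or
      (PT.lt (pt_at2 hc hx hy) (pu_g hP 9).pt))

theorem pt_anyL {v : α → ℕ} {f : α → ℕ → ℕ → Bool} (hv : PU v)
    (hf : PT ∅ fun q : (α × ℕ) × ℕ => f q.1.1 q.1.2 q.2) : PT ∅ fun a => anyL (v a) (f a) :=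
  PT.any (f := fun a x => (List.range (v a)).any fun y => f a x y) (PT.range hv.pt hv.bd)
    (PT.any (f := fun (q : α × ℕ) y => f q.1 q.2 y)
      (PT.range (hv.comp PT.fst').pt (hv.comp PT.fst').bd) hf)

theorem pt_sumL {v : α → ℕ} {f : α → ℕ → ℕ → Bool} (hv : PU v)
    (hf : PT ∅ fun q : (α × ℕ) × ℕ => f q.1.1 q.1.2 q.2) (hX : PT ∅ X) :
    PT ∅ fun a => sumL (v a) (f a) (X a) :=
  PT.sum (pt_mk (f := fun a x => (mk (v a) fun y => if f a x y then at2 (X a) x y else 0).sum) hv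
    (PT.sum (pt_mk (f := fun (q : α × ℕ) y => if f q.1 q.2 y then at2 (X q.1) q.2 y else 0)
      (hv.comp PT.fst')
      (PT.ite (pt_true hf) (pt_at2 (hX.comp PT.fst'.fst) PT.fst'.snd PT.snd') (PT.const 0)))))

theorem pt_tabL {f : α → ℕ → ℕ → ℕ} (hP : PT ∅ P)
    (hf : PT ∅ fun q : (α × ℕ) × ℕ => f q.1.1 q.1.2 q.2) : PT ∅ fun a => tabL (P a) (f a) :=
  pt_mk (f := fun a x => mk (2 * (P a).n) fun y => min (f a x y) (2 * (P a).T)) (pu_v hP)
    (pt_mk (f := fun (q : α × ℕ) y => min (f q.1 q.2 y) (2 * (P q.1).T))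
      (pu_v (hP.comp PT.fst')) (hf.min ((PT.const 2).mul (pu_g (hP.comp PT.fst'.fst) 9).pt)))

theorem pt_updL {s : α → St} (hP : PT ∅ P) (hρ : PT ∅ ρ) (hs : PT ∅ s) (hc : PT ∅ c)
    (hX : PT ∅ X) : PT ∅ fun a => updL (P a) (ρ a) (s a) (c a) (X a) := by
  have hc2 : PT ∅ fun q : (α × ℕ) × ℕ => at2 (c q.1.1) q.1.2 q.2 :=
    pt_at2 (hc.comp PT.fst'.fst) PT.fst'.snd PT.snd'
  have hl : PT ∅ fun q : (α × ℕ) × ℕ => lowL (P q.1.1) (X q.1.1) q.1.2 q.2 :=
    pt_lowL (hP.comp PT.fst'.fst) (hX.comp PT.fst'.fst) PT.fst'.snd PT.snd'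
  have hh : PT ∅ fun q : (α × ℕ) × ℕ => highL (P q.1.1) (ρ q.1.1) (c q.1.1) (X q.1.1) q.1.2 q.2 :=
    pt_highL (hP.comp PT.fst'.fst) (hρ.comp PT.fst'.fst) (hc.comp PT.fst'.fst)
      (hX.comp PT.fst'.fst) PT.fst'.snd PT.snd'
  have h0 : PT ∅ fun a => (((s a).1 ++ [tabL (P a) (at2 (c a))], (s a).2.1, (s a).2.2.1, true) : St) :=
    (hs.fst.append ((pt_tabL (f := fun a => at2 (c a)) hP hc2).cons PT.nil)).pair
      (hs.snd.fst.pair (hs.snd.snd.fst.pair (PT.const true)))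
  refine PT.ite (pt_true hs.snd.snd.snd) h0 (PT.ite (pt_true
    (pt_anyL (f := fun a => lowL (P a) (X a)) (pu_v hP) hl)) ?_ (PT.ite (pt_true
      (pt_anyL (f := fun a => highL (P a) (ρ a) (c a) (X a)) (pu_v hP) hh)) ?_ h0))
  · exact (hs.fst.append ((pt_tabL (f := fun a x y => if lowL (P a) (X a) x y = true then
        at2 (c a) x y - 1 else at2 (c a) x y) hP
        (PT.ite (pt_true hl) (hc2.sub (PT.const 1)) hc2)).cons PT.nil)).pair
      ((hs.snd.fst.add (pt_sumL (f := fun a => lowL (P a) (X a)) (pu_v hP) hl hX)).pair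
        (hs.snd.snd.fst.pair (PT.const false)))
  · exact (hs.fst.append ((pt_tabL (f := fun a x y =>
        if highL (P a) (ρ a) (c a) (X a) x y = true then at2 (c a) x y + 1 else at2 (c a) x y) hP
        (PT.ite (pt_true hh) (hc2.add (PT.const 1)) hc2)).cons PT.nil)).pair
      (hs.snd.fst.pair ((hs.snd.snd.fst.add
        (pt_sumL (f := fun a => highL (P a) (ρ a) (c a) (X a)) (pu_v hP) hh hX)).pair
        (PT.const false)))

theorem pt_topL {s : α → St} {σ : α → List Bool} (hP : PT ∅ P) (hσ : PT ∅ σ) (hs : PT ∅ s)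
    (hρ : PT ∅ ρ) : PT ∅ fun a => topL (P a) (σ a) (s a) (ρ a) :=
  pt_updL hP hσ hs (PT.optGetD (PT.getLast? hs.fst) (PT.const []))
    (pt_cntL hP (pt_smpL hP hs.fst hρ))

end

/-- bound for the size of a table of costs -/
def bT (Q : Par) : ℕ := 2 * Q.n * (2 * (2 * Q.n * (2 * (2 * Q.T) + 1)) + 1)

theorem esize_tabL (Q : Par) (f : ℕ → ℕ → ℕ) : esize (tabL Q f) ≤ bT Q :=
  esize_mk_le fun _ => esize_mk_le fun _ => esize_min_le _ _

theorem at2_cntL (Q : Par) (S : List (List ℕ)) (x y : ℕ) : at2 (cntL Q S) x y ≤ S.length := by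
  unfold at2 cntL
  rw [getD_mk]
  split_ifs
  · rw [getD_mk]
    split_ifs
    · have := List.sum_le_card_nsmul (S.map fun L => if L.getD x 0 = y then 1 else 0) 1
        fun z hz => by
          obtain ⟨L, -, rfl⟩ := List.mem_map.1 hz
          split_ifs <;> omega
      simpa using this
    · exact Nat.zero_le _
  · simp

theorem sumL_le {v B : ℕ} (f : ℕ → ℕ → Bool) {cnt : List (List ℕ)} (h : ∀ x y, at2 cnt x y ≤ B) :
    sumL v f cnt ≤ v * (v * B) :=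
  sum_mk_le fun x => sum_mk_le fun y => by
    split_ifs
    · exact h x y
    · exact Nat.zero_le _

/-- the measure of a state -/
def ms (s : St) : ℕ := esize s.1 + s.2.1 + s.2.2.1

/-- the growth of the measure in one round -/
def gr (Q : Par) : ℕ := 2 * bT Q + 1 + 2 * Q.n * (2 * Q.n * Q.m)

theorem esize_le_ms (s : St) : esize s ≤ 2 * ms s + 4 := by
  obtain ⟨H, u, d, f⟩ := s
  have := esize_nat_le_self u
  have := esize_nat_le_self d
  simp only [ms, esize_pair, esize_bool]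
  omega

theorem esize_snoc (Q : Par) (H : List (List (List ℕ))) (f : ℕ → ℕ → ℕ) :
    esize (H ++ [tabL Q f]) ≤ esize H + (2 * bT Q + 1) := by
  have := esize_tabL Q f
  rw [esize_append, esize_list_cons, esize_list_nil]
  omega

theorem ms_topL (Q : Par) (adj : List Bool) (s : St) (r : List Bool) :
    ms (topL Q adj s r) ≤ ms s + gr Q := by
  have h : ∀ f, sumL (2 * Q.n) f (cntL Q (smpL Q s.1 r)) ≤ 2 * Q.n * (2 * Q.n * Q.m) := fun f =>
    sumL_le f fun x y => (at2_cntL _ _ x y).trans (length_mk _ _).le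
  unfold topL updL
  split_ifs
  all_goals
    simp only [ms, gr]
    refine le_trans (Nat.add_le_add_right (Nat.add_le_add_right (esize_snoc _ _ _) _) _) ?_
  · omega
  · have := h (lowL Q (cntL Q (smpL Q s.1 r)))
    omega
  · have := h (highL Q adj (s.1.getLast?.getD []) (cntL Q (smpL Q s.1 r)))
    omega
  · omega

theorem ms_runL (Q : Par) (adj : List Bool) (B : ℕ) (l : List ℕ) (s : St) (r : List Bool) :
    ms (runL B (fun _ : ℕ => topL Q adj) l s r) ≤ ms s + l.length * gr Q := by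
  induction l generalizing s r with
  | nil => simp [runL]
  | cons x l ih =>
    have h1 := ih (topL Q adj s (r.take B)) (r.drop B)
    have h2 := ms_topL Q adj s (r.take B)
    simp only [runL, List.length_cons, add_mul, one_mul]
    omega

section

variable {P : α → Par} {ρ σ : α → List Bool}

theorem pbd_bT (hP : PT ∅ P) : PBd fun a => bT (P a) :=
  (pu_v hP).bd.mul (((PBd.const 2).mul ((pu_v hP).bd.mul (((PBd.const 2).mul
    ((PBd.const 2).mul (pu_g hP 9).bd)).add (PBd.const 1)))).add (PBd.const 1))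

theorem pbd_gr (hP : PT ∅ P) : PBd fun a => gr (P a) :=
  (((PBd.const 2).mul (pbd_bT hP)).add (PBd.const 1)).add
    ((pu_v hP).bd.mul ((pu_v hP).bd.mul (pu_g hP 8).bd))

theorem pt_loopL (hP : PT ∅ P) (hσ : PT ∅ σ) (hρ : PT ∅ ρ) :
    PT ∅ fun a => loopL (P a) (σ a) (ρ a) := by
  have h0 : PT ∅ fun a => [tabL (P a) fun _ _ => (P a).T] :=
    (pt_tabL (f := fun a _ _ => (P a).T) hP (pu_g (hP.comp PT.fst'.fst) 9).pt).cons PT.nil
  refine PT.runL (step := fun a (_ : ℕ) => topL (P a) (σ a)) ((pu_g hP 8).mul (pu_g hP 11)).pt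
    (pt_topL (hP.comp PT.fst') (hσ.comp PT.fst') PT.snd'.snd.fst PT.snd'.snd.snd)
    (PT.range (pu_g hP 9).pt (pu_g hP 9).bd) (h0.pair (PT.const (0, 0, false))) hρ
    (((PBd.const 2).mul (h0.pbd.add ((pu_g hP 9).bd.mul (pbd_gr hP)))).add (PBd.const 4))
    fun a i => ?_
  refine (esize_le_ms _).trans (Nat.add_le_add_right (Nat.mul_le_mul_left _ ?_) _)
  refine (ms_runL _ _ _ _ _ _).trans (Nat.add_le_add le_rfl (Nat.mul_le_mul_right _ ?_))
  rw [List.length_take, List.length_range]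
  exact min_le_right _ _

theorem pt_rnd {D Z u d : α → ℕ} (hD : PT ∅ D) (hZ : PT ∅ Z) (hu : PU u) (hd : PU d) :
    PT ∅ fun a => rnd (D a) (Z a) (u a) (d a) := by
  have h1 := hD.sub (PT.const 1)
  have h2 := (PT.pow h1 hu.pt hu.bd).mul (PT.pow hD hd.pt hd.bd)
  exact (((PT.const 2).mul ((hZ.mul (PT.pow hD hu.pt hu.bd)).mul (PT.pow h1 hd.pt hd.bd))).add
    h2).div ((PT.const 2).mul h2)

theorem pt_outL {s : α → St} (hP : PT ∅ P) (hs : PT ∅ s) : PT ∅ fun a => outL (P a) (s a) :=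
  PT.ite (pt_true hs.snd.snd.snd)
    (pt_rnd (pt_twoPow hP) (PT.prod (pt_mk (f := fun _ i => 2 * i + 1) (pu_g hP 0)
        (((PT.const 2).mul PT.snd').add (PT.const 1))))
      (PU.min (hs.snd.fst.div (pu_g hP 8).pt) ((pu_g hP 9).mul (pu_v hP).sq))
      (PU.min (hs.snd.snd.fst.div (pu_g hP 8).pt) ((pu_g hP 9).mul (pu_v hP).sq)))
    (PT.const 0)

end

end Poly

theorem pt_main : PT ∅ fun z : Par × List Bool × List Bool =>
    outL z.1 (loopL z.1 z.2.1 z.2.2) :=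
  Poly.pt_outL PT.fst' (Poly.pt_loopL PT.fst' PT.snd'.fst PT.snd'.snd)

end Vale.Agent.P308
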