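import Vale.Agent.P308.Loop
import Vale.Agent.P308.Params
import Vale.Agent.P308.ProgPT
import Vale.Agent.P308.Bridge

/-!
The approximation scheme.
-/

namespace Vale.Agent.P308

open Finset Vale.Agent.Lib.PTM Vale.Agent.Lib.PolyTime

theorem getElem?_flatMap_const {α β : Type} {f : α → List β} {n : ℕ} (h : ∀ a, (f a).length = n)
    (l : List α) (i : ℕ) {j : ℕ} (hj : j < n) :
    (l.flatMap f)[i * n + j]? = l[i]?.bind fun a => (f a)[j]? := by
  induction l generalizing i with
  | nil => simp
  | cons a l ih =>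
    rw [List.flatMap_cons]
    rcases i with _ | i
    · rw [zero_mul, zero_add, List.getElem?_append_left (by rw [h]; exact hj)]
      rfl
    · rw [List.getElem?_append_right (by rw [h, add_mul]; omega), h,
        show (i + 1) * n + j - n = i * n + j by rw [add_mul]; omega, ih]
      rfl

open Classical in
theorem getD_adjBits {n : ℕ} (G : SimpleGraph (Fin n)) (x y : Fin n) :
    (adjBits G).getD (x * n + y) false = decide (G.Adj x y) := by
  unfold adjBits
  rw [List.getD_eq_getElem?_getD, getElem?_flatMap_const (n := n) (by simp) _ _ y.2]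
  simp

/-- the algorithm -/
def alg (z : Data × List Bool) : ℕ :=
  if z.1.1.v % 2 = 1 then 0 else if z.1.1.v = 0 then 1 else
    outL (par (z.1.1.v / 2) z.1.2.2.1.v z.1.2.2.2.v)
      (loopL (par (z.1.1.v / 2) z.1.2.2.1.v z.1.2.2.2.v) z.1.2.1 z.2)

theorem pt_alg : PT ∅ alg := by
  have h1 : PT ∅ fun z : Data × List Bool => z.1.1.v := PT.unVal PT.fst'.fst
  have h2 : PT ∅ fun z : Data × List Bool => Un.mk (z.1.1.v / 2) :=
    PT.mkUn (PT.half h1) ((PBd.unVal (A := ∅) PT.fst'.fst).mono fun _ => Nat.div_le_self _ _)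
  have h3 : PT ∅ fun z : Data × List Bool => par (z.1.1.v / 2) z.1.2.2.1.v z.1.2.2.2.v :=
    (pt_par.comp (h2.pair (PT.fst'.snd.snd : PT ∅ fun z : Data × List Bool => z.1.2.2))).congr
      fun _ => by dsimp only
  have h4 : PT ∅ fun z : Data × List Bool => outL (par (z.1.1.v / 2) z.1.2.2.1.v z.1.2.2.2.v)
      (loopL (par (z.1.1.v / 2) z.1.2.2.1.v z.1.2.2.2.v) z.1.2.1 z.2) :=
    (pt_main.comp (h3.pair ((PT.fst'.snd.fst : PT ∅ fun z : Data × List Bool => z.1.2.1).pair
      PT.snd'))).congr fun _ => by dsimp only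
  exact (PT.ite (PT.odd h1) (PT.const 0) (PT.ite (PT.eqNat h1 (PT.const 0)) (PT.const 1) h4)).congr
    fun _ => by rw [alg]

theorem even_case {P : Par} {e l k m : ℕ} (h : PCond P e l) (hk : P.n = k)
    (G : SimpleGraph (Fin (2 * k))) (hm : P.T * (P.m * P.Bt) ≤ m) : 1 - (1 / 2 : ℝ) ^ l ≤
      frq m fun ρ => |(outL P (loopL P (adjBits G) ρ) : ℝ) - numPM G| ≤ numPM G / e := by
  classical
  subst hk
  rw [frq_eq_Ex, numPM_eq]
  exact loop_law h (fun x y => by simp only [G.adj_comm]) (fun x y => by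
    rw [getD_adjBits]) hm

theorem statement : Statement := by
  obtain ⟨C, hC, h⟩ := par_coins
  refine statement_of_PT pt_alg hC fun n G e l he => ?_
  have h0 : (0 : ℝ) ≤ (1 / 2) ^ l := by positivity
  unfold alg
  dsimp only
  by_cases h1 : n % 2 = 1
  · have : IsEmpty (PM (Fin n)) := isEmpty_PM_of_odd (by rw [Fintype.card_fin, Nat.odd_iff, h1])
    have h2 : numPM G = 0 := by rw [numPM_eq, nPM, univ_eq_empty, filter_empty, card_empty]
    simp only [if_pos h1, h2, frq_const]
    rw [ind_of (by simp)]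
    linarith
  obtain ⟨k, rfl⟩ : ∃ k, n = 2 * k := ⟨n / 2, by omega⟩
  by_cases h2 : k = 0
  · subst h2
    have h3 : numPM G = 1 := by
      rw [numPM_eq, nPM, filter_true_of_mem fun _ _ x => x.elim0, card_univ, card_PM]
      rfl
    simp only [if_neg h1, h3, if_true, frq_const]
    rw [ind_of (by simp)]
    linarith
  simp only [if_neg h1, if_neg (show ¬ 2 * k = 0 by omega), Nat.mul_div_cancel_left k two_pos]
  exact even_case (par_cond l (by omega) he) (par_n k e l) G (h k e l)

end Vale.Agent.P308
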