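import Vale.Agent.P308.ADefs

/-!
The algorithm as a program on lists of numbers.
-/

namespace Vale.Agent.P308

open Vale.Agent.Lib.PTM Vale.Agent.Lib.PolyTime

/-- the parameters, in unary -/
def Par : Type := List Un

instance : Enc Par := inferInstanceAs (Enc (List Un))

/-- parameter number `i` -/
def Par.g (P : Par) (i : ℕ) : ℕ := (List.getD P i ⟨0⟩).v

/-- half the number of vertices -/
def Par.n (P : Par) : ℕ := P.g 0
/-- coins for one choice in the first population -/
def Par.K (P : Par) : ℕ := P.g 1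
/-- number of particles -/
def Par.N (P : Par) : ℕ := P.g 2
/-- coins for the choice of a particle -/
def Par.a (P : Par) : ℕ := P.g 3
/-- coins for the choice of a vertex -/
def Par.k (P : Par) : ℕ := P.g 4
/-- the weights are powers of `1 - 1 / 2 ^ b` -/
def Par.b (P : Par) : ℕ := P.g 5
/-- steps in a stage -/
def Par.t (P : Par) : ℕ := P.g 6
/-- coins for a step -/
def Par.B (P : Par) : ℕ := P.g 7
/-- samples for an estimate -/
def Par.m (P : Par) : ℕ := P.g 8
/-- number of stages -/
def Par.T (P : Par) : ℕ := P.g 9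
/-- inverse of the saturation level -/
def Par.Θ (P : Par) : ℕ := P.g 10
/-- coins for a thread -/
def Par.Bt (P : Par) : ℕ := P.g 11

/-- the table of a function -/
def mk {α : Type} (v : ℕ) (f : ℕ → α) : List α := (List.range v).map f

/-- normal form of a matching -/
def nrmL (v : ℕ) (L : List ℕ) : List ℕ := mk v fun w => min (L.getD w 0) v

/-- a transposition -/
def swp (x y w : ℕ) : ℕ := if w = x then y else if w = y then x else w

/-- the switch -/
def swL (v x y : ℕ) (L : List ℕ) : List ℕ :=
  if x < v ∧ y < v then mk v fun w => swp x y (L.getD (swp x y w) 0) else L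

/-- every second vertex of the alternating cycle through `x` -/
def orb (v : ℕ) (L F : List ℕ) (x : ℕ) : List ℕ :=
  (fun s : List ℕ => L.getD (F.getD (s.headD 0) 0) 0 :: s)^[v] [x]

/-- exchange on the vertices of `O` and their partners in the second matching -/
def xchL (v : ℕ) (O : List ℕ) (p : List ℕ × List ℕ) : List ℕ × List ℕ :=
  (mk v fun w => if w ∈ O ∨ p.2.getD w 0 ∈ O then p.2.getD w 0 else p.1.getD w 0,
    mk v fun w => if w ∈ O ∨ p.2.getD w 0 ∈ O then p.1.getD w 0 else p.2.getD w 0)

/-- the cycle exchange -/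
def sigL (v x : ℕ) (p : List ℕ × List ℕ) : List ℕ × List ℕ :=
  if x < v then xchL v (orb v p.1 p.2 x) p else p

/-- entry of a table -/
def at2 (c : List (List ℕ)) (x y : ℕ) : ℕ := (c.getD x []).getD y 0

/-- the cost of a matching -/
def costL (v : ℕ) (c : List (List ℕ)) (L : List ℕ) : ℕ :=
  (mk v fun x => at2 c x (L.getD x 0)).sum

/-- the increase of the cost in a switch -/
def dlt (P : Par) (c : List (List ℕ)) (L : List ℕ) (x y : ℕ) : ℕ :=
  min (costL (2 * P.n) c (swL (2 * P.n) x y L) - costL (2 * P.n) c L) (2 * P.T * (2 * P.n))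

/-- the two body move -/
def mv2L (P : Par) (c : List (List ℕ)) (p : List ℕ × List ℕ) (ty x y : ℕ) (ρ : List Bool) :
    List ℕ × List ℕ :=
  if ty = 2 then sigL (2 * P.n) x p
  else if ty = 3 ∧ val (ρ.take (P.b * dlt P c p.1 x y)) < (2 ^ P.b - 1) ^ dlt P c p.1 x y then
    (swL (2 * P.n) x y p.1, p.2)
  else p

/-- the two body step -/
def twoL (P : Par) (c : List (List ℕ)) (p : List ℕ × List ℕ) (ρ : List Bool) : List ℕ × List ℕ :=
  mv2L P c p (val (ρ.take 2)) (val ((ρ.drop 2).take P.k)) (val (((ρ.drop 2).drop P.k).take P.k))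
    (((ρ.drop 2).drop P.k).drop P.k)

/-- replace two particles -/
def putL (P : Par) (X : List (List ℕ)) (i j : ℕ) (q : List ℕ × List ℕ) : List (List ℕ) :=
  mk P.N fun r => nrmL (2 * P.n) (if r = j then q.2 else if r = i then q.1 else X.getD r [])

/-- the step of the particles `i`, `j` -/
def mvNL (P : Par) (c X : List (List ℕ)) (i j : ℕ) (ρ : List Bool) : List (List ℕ) :=
  if i < P.N ∧ j < P.N ∧ i ≠ j then putL P X i j (twoL P c (X.getD i [], X.getD j []) ρ) else X

/-- one step of the population chain -/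
def stepL (P : Par) (c X : List (List ℕ)) (ρ : List Bool) : List (List ℕ) :=
  mvNL P c X (val (ρ.take P.a)) (val ((ρ.drop P.a).take P.a)) ((ρ.drop P.a).drop P.a)

/-- one stage -/
def stageL (P : Par) (c X : List (List ℕ)) (ρ : List Bool) : List (List ℕ) :=
  runL P.B (fun _ : ℕ => stepL P c) (List.range P.t) X ρ

/-- a nearly uniform matching -/
def initL (P : Par) (ρ : List Bool) : List ℕ :=
  runL P.K (fun j L ρ => nrmL (2 * P.n) (swL (2 * P.n) (2 * j) (val ρ % (2 * j + 1)) L))
    (List.range P.n) (mk (2 * P.n) mate) ρ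

/-- the first population -/
def popL (P : Par) (ρ : List Bool) : List (List ℕ) :=
  mk P.N fun i => initL P (blk (P.n * P.K) ρ i)

/-- a thread -/
def thrL (P : Par) (hist : List (List (List ℕ))) (ρ : List Bool) : List (List ℕ) :=
  runL (P.t * P.B) (stageL P) hist (popL P (ρ.take (P.N * (P.n * P.K))))
    (ρ.drop (P.N * (P.n * P.K)))

/-- the samples -/
def smpL (P : Par) (hist : List (List (List ℕ))) (ρ : List Bool) : List (List ℕ) :=
  mk P.m fun i => (thrL P hist (blk P.Bt ρ i)).getD 0 []

/-- the counts -/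
def cntL (P : Par) (S : List (List ℕ)) : List (List ℕ) :=
  mk (2 * P.n) fun x => mk (2 * P.n) fun y => (S.map fun L => if L.getD x 0 = y then 1 else 0).sum

/-- the pair is too rare -/
def lowL (P : Par) (cnt : List (List ℕ)) (x y : ℕ) : Bool :=
  decide (x ≠ y ∧ 2 * P.Θ * at2 cnt x y < P.m)

/-- the pair is too frequent -/
def highL (P : Par) (adj : List Bool) (c cnt : List (List ℕ)) (x y : ℕ) : Bool :=
  decide (x ≠ y ∧ 2 * P.m < P.Θ * at2 cnt x y) &&
    (!adj.getD (x * (2 * P.n) + y) false || decide (at2 c x y < P.T))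

/-- some pair has the property -/
def anyL (v : ℕ) (f : ℕ → ℕ → Bool) : Bool :=
  (List.range v).any fun x => (List.range v).any fun y => f x y

/-- sum of the counts over the pairs with the property -/
def sumL (v : ℕ) (f : ℕ → ℕ → Bool) (cnt : List (List ℕ)) : ℕ :=
  (mk v fun x => (mk v fun y => if f x y then at2 cnt x y else 0).sum).sum

/-- a table of costs -/
def tabL (P : Par) (f : ℕ → ℕ → ℕ) : List (List ℕ) :=
  mk (2 * P.n) fun x => mk (2 * P.n) fun y => min (f x y) (2 * P.T)

/-- state of the main loop: history of the costs, the two counters, the termination flag -/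
abbrev St : Type := List (List (List ℕ)) × ℕ × ℕ × Bool

/-- the update of the state, given the present costs and the counts -/
def updL (P : Par) (adj : List Bool) (s : St) (c cnt : List (List ℕ)) : St :=
  if s.2.2.2 = true then (s.1 ++ [tabL P (at2 c)], s.2.1, s.2.2.1, true)
  else if anyL (2 * P.n) (lowL P cnt) = true then
    (s.1 ++ [tabL P fun x y => if lowL P cnt x y = true then at2 c x y - 1 else at2 c x y],
      s.2.1 + sumL (2 * P.n) (lowL P cnt) cnt, s.2.2.1, false)
  else if anyL (2 * P.n) (highL P adj c cnt) = true then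
    (s.1 ++ [tabL P fun x y => if highL P adj c cnt x y = true then at2 c x y + 1 else at2 c x y],
      s.2.1, s.2.2.1 + sumL (2 * P.n) (highL P adj c cnt) cnt, false)
  else (s.1 ++ [tabL P (at2 c)], s.2.1, s.2.2.1, true)

/-- one round of the main loop -/
def topL (P : Par) (adj : List Bool) (s : St) (ρ : List Bool) : St :=
  updL P adj s (s.1.getLast?.getD []) (cntL P (smpL P s.1 ρ))

/-- the main loop -/
def loopL (P : Par) (adj : List Bool) (ρ : List Bool) : St :=
  runL (P.m * P.Bt) (fun _ : ℕ => topL P adj) (List.range P.T)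
    ([tabL P fun _ _ => P.T], 0, 0, false) ρ

/-- the rounded estimate -/
def rnd (D Z0 u d : ℕ) : ℕ :=
  (2 * (Z0 * D ^ u * (D - 1) ^ d) + (D - 1) ^ u * D ^ d) / (2 * ((D - 1) ^ u * D ^ d))

/-- the output -/
def outL (P : Par) (s : St) : ℕ :=
  if s.2.2.2 = true then
    rnd (2 ^ P.b) (mk P.n fun i => 2 * i + 1).prod (min (s.2.1 / P.m) (P.T * (2 * P.n) ^ 2))
      (min (s.2.2.1 / P.m) (P.T * (2 * P.n) ^ 2))
  else 0

end Vale.Agent.P308
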